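import Vale.Agent.P155.K.Conn

/-!
# P155, block K: the gaskets are connected, connectedness passes to Hausdorff limits
-/

namespace Vale.Agent.P155.KConn

open LatCycle Relation

variable {δ : ℝ} {a : ℂ}

/-! ### the faces of the polygon are connected -/

/-- fine faces of the same coarse cell are connected -/
theorem cell_conn {T : Temp} {f : Pt} (hf : f ∈ T.faceSet) :
    ReflTransGen (fun p q => Adj p q ∧ p ∈ T.faceSet ∧ q ∈ T.faceSet) f
      (2 * (f.1 / 2), 2 * (f.2 / 2)) ∧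
    ReflTransGen (fun p q => Adj p q ∧ p ∈ T.faceSet ∧ q ∈ T.faceSet)
      (2 * (f.1 / 2), 2 * (f.2 / 2)) f := by
  have hin := (A1.mem_faceSet).1 hf
  have hmem : ∀ g : Pt, g.1 / 2 = f.1 / 2 → g.2 / 2 = f.2 / 2 → g ∈ T.faceSet := by
    intro g h1 h2
    rw [A1.mem_faceSet, h1, h2]; exact hin
  have m1 : ((2 * (f.1 / 2), f.2) : Pt) ∈ T.faceSet :=
    hmem _ (by simp only; omega) (by simp only)
  have m2 : ((2 * (f.1 / 2), 2 * (f.2 / 2)) : Pt) ∈ T.faceSet :=
    hmem _ (by simp only; omega) (by simp only; omega)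
  have s1 : f = (2 * (f.1 / 2), f.2) ∨ Adj f (2 * (f.1 / 2), f.2) := by
    rcases Int.emod_two_eq_zero_or_one f.1 with h | h
    · left; exact Prod.ext (by simp only; omega) rfl
    · right
      unfold Adj
      simp only [sub_self, abs_zero, add_zero]
      rw [abs_of_pos (by omega)]; omega
  have s2 : ((2 * (f.1 / 2), f.2) : Pt) = (2 * (f.1 / 2), 2 * (f.2 / 2)) ∨
      Adj (2 * (f.1 / 2), f.2) (2 * (f.1 / 2), 2 * (f.2 / 2)) := by
    rcases Int.emod_two_eq_zero_or_one f.2 with h | h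
    · left; exact Prod.ext rfl (by simp only; omega)
    · right
      unfold Adj
      simp only [sub_self, abs_zero, zero_add]
      rw [abs_of_pos (by omega)]; omega
  have sym : ∀ {p q : Pt}, Adj p q → Adj q p := by
    intro p q h
    unfold Adj at *
    rw [abs_sub_comm q.1, abs_sub_comm q.2]; exact h
  constructor
  · refine ReflTransGen.trans (b := (2 * (f.1 / 2), f.2)) ?_ ?_
    · rcases s1 with h | h
      · rw [← h]
      · exact ReflTransGen.single ⟨h, hf, m1⟩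
    · rcases s2 with h | h
      · rw [h]
      · exact ReflTransGen.single ⟨h, m1, m2⟩
  · refine ReflTransGen.trans (b := (2 * (f.1 / 2), f.2)) ?_ ?_
    · rcases s2 with h | h
      · rw [h]
      · exact ReflTransGen.single ⟨sym h, m2, m1⟩
    · rcases s1 with h | h
      · rw [← h]
      · exact ReflTransGen.single ⟨sym h, m1, hf⟩

theorem faceSet_conn (T : Temp) : ∀ f ∈ T.faceSet, ∀ g ∈ T.faceSet,
    ReflTransGen (fun p q => Adj p q ∧ p ∈ T.faceSet ∧ q ∈ T.faceSet) f g := by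
  intro f hf g hg
  have hf' := (A1.mem_faceSet).1 hf
  have hg' := (A1.mem_faceSet).1 hg
  have hr : T.γ.Reach (f.1 / 2, f.2 / 2) (g.1 / 2, g.2 / 2) := reach_of_inside_iff (by tauto)
  have key : ∀ B : Pt, T.γ.Reach (f.1 / 2, f.2 / 2) B →
      ReflTransGen (fun p q => Adj p q ∧ p ∈ T.faceSet ∧ q ∈ T.faceSet)
        (2 * (f.1 / 2), 2 * (f.2 / 2)) (2 * B.1, 2 * B.2) := by
    intro B hB
    unfold Reach at hB
    induction hB with
    | refl => exact ReflTransGen.refl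
    | @tail b c hb hs ih =>
      have hb1 : T.γ.inside b := (Reach.inside_iff hb).1 hf'
      have hc1 : T.γ.inside c := hs.inside_iff.1 hb1
      refine ih.trans ?_
      have mem : ∀ p : Pt, ((p.1 / 2 = b.1 ∧ p.2 / 2 = b.2) ∨ (p.1 / 2 = c.1 ∧ p.2 / 2 = c.2)) →
          p ∈ T.faceSet := by
        rintro p (⟨h1, h2⟩ | ⟨h1, h2⟩)
        · rw [A1.mem_faceSet, h1, h2]; exact hb1
        · rw [A1.mem_faceSet, h1, h2]; exact hc1
      -- two fine steps through a middle face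
      have two : ∀ m : Pt, Adj (2 * b.1, 2 * b.2) m → Adj m (2 * c.1, 2 * c.2) →
          ((m.1 / 2 = b.1 ∧ m.2 / 2 = b.2) ∨ (m.1 / 2 = c.1 ∧ m.2 / 2 = c.2)) →
          ReflTransGen (fun p q => Adj p q ∧ p ∈ T.faceSet ∧ q ∈ T.faceSet)
            (2 * b.1, 2 * b.2) (2 * c.1, 2 * c.2) := by
        intro m h1 h2 h3
        have mb : ((2 * b.1, 2 * b.2) : Pt) ∈ T.faceSet :=
          mem _ (Or.inl ⟨by simp only; omega, by simp only; omega⟩)
        have mc : ((2 * c.1, 2 * c.2) : Pt) ∈ T.faceSet :=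
          mem _ (Or.inr ⟨by simp only; omega, by simp only; omega⟩)
        exact (ReflTransGen.single ⟨h1, mb, mem m h3⟩).tail ⟨h2, mem m h3, mc⟩
      cases hs with
      | right x y h =>
        refine two (2 * x + 1, 2 * y) ?_ ?_ ?_
        · unfold Adj; simp only [sub_self, abs_zero, add_zero]
          rw [abs_of_neg (by omega)]; omega
        · unfold Adj; simp only [sub_self, abs_zero, add_zero]
          rw [abs_of_neg (by omega)]; omega
        · left; constructor <;> simp only <;> omega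
      | left x y h =>
        refine two (2 * x - 1, 2 * y) ?_ ?_ ?_
        · unfold Adj; simp only [sub_self, abs_zero, add_zero]
          rw [abs_of_pos (by omega)]; omega
        · unfold Adj; simp only [sub_self, abs_zero, add_zero]
          rw [abs_of_pos (by omega)]; omega
        · right; constructor <;> simp only <;> omega
      | up x y h =>
        refine two (2 * x, 2 * y + 1) ?_ ?_ ?_
        · unfold Adj; simp only [sub_self, abs_zero, zero_add]
          rw [abs_of_neg (by omega)]; omega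
        · unfold Adj; simp only [sub_self, abs_zero, zero_add]
          rw [abs_of_neg (by omega)]; omega
        · left; constructor <;> simp only <;> omega
      | down x y h =>
        refine two (2 * x, 2 * y - 1) ?_ ?_ ?_
        · unfold Adj; simp only [sub_self, abs_zero, zero_add]
          rw [abs_of_pos (by omega)]; omega
        · unfold Adj; simp only [sub_self, abs_zero, zero_add]
          rw [abs_of_pos (by omega)]; omega
        · right; constructor <;> simp only <;> omega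
  exact ((cell_conn hf).1.trans (key _ hr)).trans (cell_conn hg).2

theorem faceSet_nonempty (T : Temp) : T.faceSet.Nonempty := by
  obtain ⟨F, hF⟩ := exists_inside (γ := T.γ)
  refine ⟨(2 * F.1, 2 * F.2), ?_⟩
  rw [A1.mem_faceSet]
  have e1 : (2 * F.1) / 2 = F.1 := by omega
  have e2 : (2 * F.2) / 2 = F.2 := by omega
  simp only [e1, e2]
  exact hF

/-! ### the boundary of the polygon -/

theorem sqr_coarse (hδ : 0 < δ) {f : Pt} : sqr δ a f ⊆ sqr (2 * δ) a (f.1 / 2, f.2 / 2) := by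
  intro z hz
  rw [mem_sqr hδ] at hz
  rw [mem_sqr (by linarith : (0 : ℝ) < 2 * δ)]
  have ex : gx (2 * δ) a z = gx δ a z / 2 := by unfold gx; field_simp
  have ey : gy (2 * δ) a z = gy δ a z / 2 := by unfold gy; field_simp
  obtain ⟨z1, z2, z3, z4⟩ := hz
  rw [ex, ey]
  have key : ∀ p : ℤ, (2 : ℝ) * ((p / 2 : ℤ) : ℝ) ≤ p ∧ (p : ℝ) + 1 ≤ 2 * ((p / 2 : ℤ) : ℝ) + 2 := by
    intro p
    constructor
    · exact_mod_cast (by omega : 2 * (p / 2) ≤ p)
    · exact_mod_cast (by omega : p + 1 ≤ 2 * (p / 2) + 2)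
  obtain ⟨k1, k2⟩ := key f.1
  obtain ⟨k3, k4⟩ := key f.2
  simp only
  refine ⟨?_, ?_, ?_, ?_⟩ <;> linarith

theorem sqr_fine (hδ : 0 < δ) {F : Pt} {z : ℂ} (hz : z ∈ sqr (2 * δ) a F) :
    ∃ f : Pt, (f.1 / 2, f.2 / 2) = F ∧ z ∈ sqr δ a f := by
  rw [mem_sqr (by linarith : (0 : ℝ) < 2 * δ)] at hz
  have ex : gx (2 * δ) a z = gx δ a z / 2 := by unfold gx; field_simp
  have ey : gy (2 * δ) a z = gy δ a z / 2 := by unfold gy; field_simp
  rw [ex, ey] at hz
  obtain ⟨z1, z2, z3, z4⟩ := hz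
  have key : ∀ (p : ℤ) (x : ℝ), (p : ℝ) ≤ x / 2 → x / 2 ≤ p + 1 →
      ∃ q : ℤ, q / 2 = p ∧ (q : ℝ) ≤ x ∧ x ≤ q + 1 := by
    intro p x h1 h2
    rcases le_total x (2 * p + 1) with h | h
    · exact ⟨2 * p, by omega, by push_cast; linarith, by push_cast; linarith⟩
    · exact ⟨2 * p + 1, by omega, by push_cast; linarith, by push_cast; linarith⟩
  obtain ⟨q1, e1, a1, a2⟩ := key F.1 _ z1 z2
  obtain ⟨q2, e2, a3, a4⟩ := key F.2 _ z3 z4
  refine ⟨(q1, q2), Prod.ext e1 e2, ?_⟩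
  rw [mem_sqr hδ]
  exact ⟨a1, a2, a3, a4⟩

theorem bd_faceSet (hδ : 0 < δ) (T : Temp) :
    bd δ a T.faceSet = bd (2 * δ) a {F | T.γ.inside F} := by
  apply Set.Subset.antisymm
  · rintro z ⟨f, g, hf, hg, zf, zg⟩
    exact ⟨(f.1 / 2, f.2 / 2), (g.1 / 2, g.2 / 2), A1.mem_faceSet.1 hf,
      fun h => hg (A1.mem_faceSet.2 h), sqr_coarse hδ zf, sqr_coarse hδ zg⟩
  · rintro z ⟨F, G, hF, hG, zF, zG⟩
    obtain ⟨f, ef, zf⟩ := sqr_fine hδ zF
    obtain ⟨g, eg, zg⟩ := sqr_fine hδ zG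
    refine ⟨f, g, ?_, ?_, zf, zg⟩
    · rw [A1.mem_faceSet, ef]; exact hF
    · rw [A1.mem_faceSet, eg]; exact hG

/-! ### the gaskets -/

theorem bd_intr_conn (hδ : 0 < δ) {V : Finset Pt} {ω : Conf} (hω : ω ∈ DD V) {A : Set Pt}
    (hA : A ∈ Loops ω) : IsConnected (bd δ a (L.intr ω A)) := by
  obtain ⟨γ, _, _, h2⟩ := L.exists_cycle hω hA
  have : L.intr ω A = {f | γ.inside f} := by ext f; exact h2 f
  rw [this]
  exact bd_conn hδ γ

/-- the closed polygons of two distinct loops of the same level do not touch -/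
theorem not_touch (hδ : 0 < δ) {V : Finset Pt} {ω : Conf} (hω : ω ∈ DD V) {A B : Set Pt}
    (hA : A ∈ Loops ω) (hB : B ∈ Loops ω) (hl : level ω A = level ω B) {f g : Pt}
    (hf : surr ω A f) (hg : surr ω B g) (hz : (sqr δ a f ∩ sqr δ a g).Nonempty) : A = B := by
  by_contra hne
  obtain ⟨z, z1, z2⟩ := hz
  obtain ⟨v, c1, c2⟩ := common_corner hδ z1 z2
  have hfB : ¬ surr ω B f := by
    intro h
    exact hne ((L.laminar hω).lev_inj hA hB hf h hl)
  have hgA : ¬ surr ω A g := by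
    intro h
    exact hne ((L.laminar hω).lev_inj hA hB h hg hl)
  by_cases hv : v ∈ A
  · have hvB : v ∉ B := Set.disjoint_left.1 (L.loops_disjoint hω hA hB hne) hv
    have e1 := A1.surr_corner hω hB hvB c1
    have e2 := A1.surr_corner hω hB hvB c2
    exact hfB (e1.2 (e2.1 hg))
  · have e1 := A1.surr_corner hω hA hv c1
    have e2 := A1.surr_corner hω hA hv c2
    exact hgA (e2.2 (e1.1 hf))

theorem Ok_eq_iUnion {T : Temp} {k : ℕ} (hk : 1 ≤ k) {ω : Conf} (hω : ω ∈ DD T.V) :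
    Ok T k ω = ⋃ A ∈ {A | A ∈ Loops ω ∧ level ω A = k}, L.intr ω A := by
  ext f
  rw [Set.mem_iUnion₂]
  unfold Ok
  simp only [Set.mem_ofPred_eq]
  rw [L.N_eq, (L.laminar hω).le_num_iff hk]
  constructor
  · rintro ⟨_, A, hA, hf, hl⟩
    exact ⟨A, ⟨hA, hl⟩, hf⟩
  · rintro ⟨A, ⟨hA, hl⟩, hf⟩
    exact ⟨A1.L_in hω hA hf, A, hA, hf, hl⟩

/-- **the gaskets are connected** -/
theorem gasket_conn (hδ : 0 < δ) (a : ℂ) (T : Temp) (k : ℕ) {ω : Conf} (hω : ω ∈ DD T.V) :
    IsConnected (gasket δ a T k ω) := by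
  unfold gasket
  rcases Nat.eq_zero_or_pos k with h0 | h0
  · have e : Ok T k ω = ⋃ j ∈ ({()} : Set Unit), T.faceSet := by
      rw [h0, Set.biUnion_singleton]; simp [Ok]
    rw [e]
    refine conn_abstract (J := ({()} : Set Unit)) (S := fun _ => T.faceSet) hδ
      (faceSet_nonempty T) (faceSet_conn T) ?_ ?_ ?_
    · intro _ _; exact Set.Subset.rfl
    · intro _ _
      rw [bd_faceSet hδ]
      exact bd_conn (by linarith) T.γ
    · intros; rfl
  · rw [Ok_eq_iUnion h0 hω]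
    refine conn_abstract hδ (faceSet_nonempty T) (faceSet_conn T) ?_ ?_ ?_
    · rintro A ⟨hA, _⟩ f hf
      exact A1.L_in hω hA hf
    · rintro A ⟨hA, _⟩
      exact bd_intr_conn hδ hω hA
    · rintro A ⟨hA, hl⟩ B ⟨hB, hl'⟩ f hf g hg hz
      rw [not_touch hδ hω hA hB (hl.trans hl'.symm) hf hg hz]

/-! ### compactness -/

theorem isCompact_sqr (hδ : 0 < δ) (f : Pt) : IsCompact (sqr δ a f) := by
  have : sqr δ a f = (fun p : ℝ × ℝ => pt δ a p.1 p.2) ''
      (Set.Icc (f.1 : ℝ) (f.1 + 1) ×ˢ Set.Icc (f.2 : ℝ) (f.2 + 1)) := by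
    ext z
    rw [mem_sqr hδ]
    constructor
    · rintro ⟨h1, h2, h3, h4⟩
      exact ⟨(gx δ a z, gy δ a z), ⟨⟨h1, h2⟩, ⟨h3, h4⟩⟩, pt_g hδ z⟩
    · rintro ⟨⟨x, y⟩, ⟨⟨h1, h2⟩, ⟨h3, h4⟩⟩, rfl⟩
      simp only [gx_pt hδ, gy_pt hδ]
      exact ⟨h1, h2, h3, h4⟩
  rw [this]
  exact (isCompact_Icc.prod isCompact_Icc).image pt_cont

theorem isCompact_region (hδ : 0 < δ) {S : Set Pt} (hS : S.Finite) :
    IsCompact (region δ a S) := hS.isCompact_biUnion fun f _ => isCompact_sqr hδ f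

theorem gasket_compact (hδ : 0 < δ) (a : ℂ) (T : Temp) (k : ℕ) (ω : Conf) :
    IsCompact (gasket δ a T k ω) :=
  (isCompact_region hδ (A1.faceSet_finite T)).diff isOpen_interior

theorem gasket_nonempty (hδ : 0 < δ) (a : ℂ) (T : Temp) (k : ℕ) {ω : Conf} (hω : ω ∈ DD T.V) :
    (gasket δ a T k ω).Nonempty := (gasket_conn hδ a T k hω).nonempty

theorem coe_toNC_gasket (hδ : 0 < δ) (a : ℂ) (T : Temp) (k : ℕ) {ω : Conf} (hω : ω ∈ DD T.V) :
    ((toNC (gasket δ a T k ω) : TopologicalSpace.NonemptyCompacts ℂ) : Set ℂ) =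
      gasket δ a T k ω := by
  unfold toNC
  rw [dif_pos ⟨gasket_compact hδ a T k ω, gasket_nonempty hδ a T k hω⟩]
  rfl

theorem Ok_anti (T : Temp) (ω : Conf) {j k : ℕ} (h : j ≤ k) : Ok T k ω ⊆ Ok T j ω :=
  fun _ hf => ⟨hf.1, h.trans hf.2⟩

theorem gasket_mono (δ : ℝ) (a : ℂ) (T : Temp) (ω : Conf) {j k : ℕ} (h : j ≤ k) :
    gasket δ a T j ω ⊆ gasket δ a T k ω := by
  intro z hz
  refine ⟨hz.1, fun hk => hz.2 (interior_mono ?_ hk)⟩
  unfold region
  exact Set.biUnion_subset_biUnion_left (Ok_anti T ω h)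

/-- the zeroth gasket is the boundary of the polygon -/
theorem gasket_zero (hδ : 0 < δ) (a : ℂ) (T : Temp) (ω : Conf) :
    gasket δ a T 0 ω = frontier (region δ a T.faceSet) := by
  have e : Ok T 0 ω = T.faceSet := by simp [Ok]
  unfold gasket
  rw [e, frontier, (isCompact_region hδ (A1.faceSet_finite T)).isClosed.closure_eq]

/-! ### connectedness passes to Hausdorff limits -/

open TopologicalSpace Metric in
theorem isClosed_connected {α : Type*} [MetricSpace α] :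
    IsClosed {K : NonemptyCompacts α | IsConnected (K : Set α)} := by
  rw [← isOpen_compl_iff, Metric.isOpen_iff]
  intro K hK
  have hK : ¬ IsConnected (K : Set α) := hK
  have hpre : ¬ IsPreconnected (K : Set α) := fun h => hK ⟨K.nonempty, h⟩
  unfold IsPreconnected at hpre
  push Not at hpre
  obtain ⟨u, v, hu, hv, hsub, ⟨x, hxK, hxu⟩, ⟨y, hyK, hyv⟩, hemp⟩ := hpre
  have hAc : IsCompact ((K : Set α) \ v) := K.isCompact.diff hv
  have hBc : IsCompact ((K : Set α) \ u) := K.isCompact.diff hu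
  have hdis : Disjoint ((K : Set α) \ v) ((K : Set α) \ u) := by
    rw [Set.disjoint_left]
    rintro z ⟨z1, z2⟩ ⟨_, z3⟩
    rcases hsub z1 with h | h
    · exact z3 h
    · exact z2 h
  obtain ⟨ε, hε, hth⟩ := hdis.exists_thickenings hAc hBc.isClosed
  have hemp' : ∀ z, z ∈ (K : Set α) → z ∈ u → z ∉ v := by
    intro z h1 h2 h3
    have : z ∈ (K : Set α) ∩ (u ∩ v) := ⟨h1, h2, h3⟩
    rw [hemp] at this
    exact this
  refine ⟨ε, hε, ?_⟩
  intro K' hK' hconn
  have hconn : IsConnected (K' : Set α) := hconn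
  rw [Metric.mem_ball, NonemptyCompacts.dist_eq] at hK'
  have hfin : hausdorffEDist (K' : Set α) (K : Set α) ≠ ⊤ :=
    hausdorffEDist_ne_top_of_nonempty_of_bounded K'.nonempty K.nonempty K'.isCompact.isBounded
      K.isCompact.isBounded
  have hcov : (K' : Set α) ⊆ thickening ε ((K : Set α) \ v) ∪ thickening ε ((K : Set α) \ u) := by
    intro z hz
    obtain ⟨w, hw, hd⟩ := exists_dist_lt_of_hausdorffDist_lt hz hK' hfin
    rcases hsub hw with h | h
    · left; exact mem_thickening_iff.2 ⟨w, ⟨hw, hemp' w hw h⟩, hd⟩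
    · right; exact mem_thickening_iff.2 ⟨w, ⟨hw, fun h' => hemp' w hw h' h⟩, hd⟩
  have hmeet : ∀ w ∈ (K : Set α), ∃ z ∈ (K' : Set α), dist z w < ε := fun w hw =>
    exists_dist_lt_of_hausdorffDist_lt' hw hK' hfin
  obtain ⟨z1, hz1, hd1⟩ := hmeet x hxK
  obtain ⟨z2, hz2, hd2⟩ := hmeet y hyK
  have h := hconn.isPreconnected _ _ isOpen_thickening isOpen_thickening hcov
    ⟨z1, hz1, mem_thickening_iff.2 ⟨x, ⟨hxK, hemp' x hxK hxu⟩, hd1⟩⟩
    ⟨z2, hz2, mem_thickening_iff.2 ⟨y, ⟨hyK, fun h' => hemp' y hyK h' hyv⟩, hd2⟩⟩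
  obtain ⟨z, _, h1, h2⟩ := h
  exact Set.disjoint_left.1 hth h1 h2

end Vale.Agent.P155.KConn
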