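import Vale.Agent.P155.K.Core
import Vale.Agent.P155.J.Star
import Vale.Agent.P155.E.Closed
import Vale.Agent.P155.C276.Height
import Vale.Agent.P155.H12.HPos
import Vale.Agent.P155.H904.IMin2
import Vale.Agent.P155.H904.Zero
import Vale.Agent.P155.G45.Main
import Vale.Agent.P155.F.FPair
import Vale.Agent.P155.HT426.Const

/-!
# P155: the final assembly
-/

namespace Vale.Agent.P155.K

open Vale.Agent.P155 Finset Skel

theorem c_height' : C_height := C276.c_height B1b.B_plane Dom.b_dom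

theorem e_sd' : E_SD := E.e_sd_of_height c_height'

theorem f_pair' : F_pair := F.f_pair B1b.B_plane Dom.b_dom E.b_mono'

theorem i_min' : H12.I_min := by
  obtain ⟨β, hβ, hSD, hOut⟩ := G1.decay
  exact H904.i_min A4.a_one A4.a_two B1b.B_plane Dom.b_dom L.l_cp Temp.det_KM_ne_zero
    Temp.sub_self hβ (by norm_num) hSD hOut

theorem i_zero'' : H904.I_zero' := by
  obtain ⟨β, hβ, hSD, hOut⟩ := G1.decay
  exact H904.i_zero' A4.a_one A4.a_two B1b.B_plane Dom.b_dom L.l_cp Temp.det_KM_ne_zero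
    Temp.sub_self hβ (by norm_num) hSD hOut

open Classical in
/-- the layer function at level zero -/
theorem hf_layer {T : Temp} {ω : Conf} (hω : ω ∈ DD T.V) {φ χ u : Pt → ℝ}
    (hu : IsGreen T.faceSet φ u) :
    hf ω (J.fL T.faceSet φ χ u) = - hf ω (lap (fun y => (1 - χ y) * u y)) := by
  unfold hf
  rw [← finsum_neg_distrib]
  refine finsum_congr (fun x => ?_)
  by_cases hx : x ∈ T.faceSet
  · unfold J.fL
    rw [if_pos hx, ← hu.eq x hx]
    unfold lap
    ring
  · rw [H12.h_off hω hx]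
    simp

theorem i_zero_full : H12.I_zero := by
  refine ⟨1 / 2, by norm_num, fun a ha ha2 C0 => ?_⟩
  obtain ⟨c, hc, hC⟩ := i_zero'' a ha ha2
  obtain ⟨C, hC⟩ := hC C0
  refine ⟨c, hc, C, fun R T φ hR hF hφ hsupp u χ hu hχ => ?_⟩
  have key : ∀ ω ∈ DD T.V, cEx T.V (Fk T.V 0)
      (fun ω' => (hkf 0 ω' (J.fL (Ok T 0 ω) φ (χ ω) (u ω))) ^ 2) ω ≤ C * (R : ℝ) ^ (-c) := by
    intro ω hω
    have h1 : Ok T 0 ω = T.faceSet := H12.Ok_zero T ω
    have hu' : IsGreen T.faceSet φ (u ω) := by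
      have := hu ω hω
      rwa [h1] at this
    have hχ' : J.IsCut T.faceSet ⌈(R : ℝ) ^ a⌉₊ C0 (χ ω) := by
      have := hχ ω hω
      rwa [h1] at this
    have h2 := hC R T φ (u ω) (χ ω) hR hF (fun y => H12.bump_le hφ y) hsupp hu' hχ'
    refine le_trans (le_of_eq ?_) h2
    have hatom : atom T.V (Fk T.V 0) ω = DD T.V := by
      classical
      unfold atom
      apply Finset.filter_true_of_mem
      intro ω' hω'
      unfold DD at hω hω'
      rw [Finset.mem_product] at hω hω'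
      have hV : ∀ v, v ∉ Vk T.V 0 ω → v ∉ T.V := fun v hv hvV => hv ⟨hvV, Or.inl rfl⟩
      exact ⟨fun v hv => by
          rw [(mem_PM.1 hω'.1).off v (hV v hv), (mem_PM.1 hω.1).off v (hV v hv)],
        fun v hv => by
          rw [(mem_PM.1 hω'.2).off v (hV v hv), (mem_PM.1 hω.2).off v (hV v hv)]⟩
    unfold cEx Ex
    rw [hatom, h1]
    congr 1
    refine Finset.sum_congr rfl (fun ω' hω' => ?_)
    have h3 : hkf 0 ω' (J.fL T.faceSet φ (χ ω) (u ω)) = hf ω' (J.fL T.faceSet φ (χ ω) (u ω)) := by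
      unfold hkf hf
      refine finsum_congr (fun x => ?_)
      have : hk 0 ω' = 0 := L.hk_zero_eq hω'
      rw [this]
      simp
    simp only
    rw [h3, hf_layer hω' hu', neg_sq]
  have h4 : Ex T.V (fun ω => cEx T.V (Fk T.V 0)
      (fun ω' => (hkf 0 ω' (J.fL (Ok T 0 ω) φ (χ ω) (u ω))) ^ 2) ω) ≤
      Ex T.V (fun _ => C * (R : ℝ) ^ (-c)) := by
    unfold Ex
    rw [smul_eq_mul, smul_eq_mul]
    exact mul_le_mul_of_nonneg_left (Finset.sum_le_sum key) (by positivity)
  refine h4.trans (le_of_eq ?_)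
  unfold Ex
  rw [Finset.sum_const, nsmul_eq_mul, smul_eq_mul, ← mul_assoc, inv_mul_cancel₀, one_mul]
  have : 0 < (DD T.V).card := Finset.card_pos.2 (DD_nonempty T)
  exact_mod_cast this.ne'

theorem h_final' : J.H_final :=
  H12.h_final G45.g_decay c_height' f_pair' i_min' i_zero_full

theorem l_mono : J.L_mono := fun _ k _ hω => KConn.Vk_anti hω (Nat.le_succ k)

theorem j_main' : J_main :=
  J.j_main e_sd' h_final' G45.w_final G45.g_decay L.l_cp L.l_expl L.l_hk HT.l_in HT.l_const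

theorem j_star' : J.J_star := J.j_star j_main' L.l_expl L.l_hk l_mono

/-- **Main theorem.** -/
theorem main : MainStatement := mainStatement_of_J j_star'

end Vale.Agent.P155.K
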