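import Vale.Agent.P155.K.Conv
import Vale.Agent.P155.K.Conn2
import Vale.Agent.P155.G45.Basic

/-!
# P155 block K: Green energies along Hausdorff convergent gaskets
-/

namespace Vale.Agent.P155.K

open Vale.Agent.P155 MeasureTheory Filter Topology TopologicalSpace


/-! ### the two definitions of the Green energy -/

theorem clm_decomp (L : ℂ →L[ℝ] ℝ) (z : ℂ) : L z = z.re * L 1 + z.im * L Complex.I := by
  have e : z = z.re • (1 : ℂ) + z.im • Complex.I := by
    apply Complex.ext <;> simp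
  conv_lhs => rw [e]
  rw [map_add, map_smul, map_smul, smul_eq_mul, smul_eq_mul]

theorem norm_sq_clm (L : ℂ →L[ℝ] ℝ) : ‖L‖ ^ 2 = (L 1) ^ 2 + (L Complex.I) ^ 2 := by
  set s := (L 1) ^ 2 + (L Complex.I) ^ 2 with hs
  have hs0 : 0 ≤ s := by positivity
  have h1 : ‖L‖ ≤ Real.sqrt s := by
    apply ContinuousLinearMap.opNorm_le_bound _ (Real.sqrt_nonneg _)
    intro z
    rw [clm_decomp L z, Real.norm_eq_abs]
    apply abs_le_of_sq_le_sq' _ (by positivity) |> abs_le.2
    rw [mul_pow, Real.sq_sqrt hs0, Complex.sq_norm, Complex.normSq_apply, hs]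
    nlinarith [sq_nonneg (z.re * L Complex.I - z.im * L 1)]
  have h2 : Real.sqrt s ≤ ‖L‖ := by
    have h3 := L.le_opNorm (⟨L 1, L Complex.I⟩ : ℂ)
    rw [clm_decomp L ⟨L 1, L Complex.I⟩] at h3
    simp only at h3
    have h4 : ‖(⟨L 1, L Complex.I⟩ : ℂ)‖ = Real.sqrt s := by
      rw [Complex.norm_def, Complex.normSq_apply, hs]
      congr 1
      ring
    rw [h4] at h3
    have h5 : L 1 * L 1 + L Complex.I * L Complex.I = Real.sqrt s * Real.sqrt s := by
      rw [Real.mul_self_sqrt hs0, hs]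
      ring
    rw [h5, Real.norm_of_nonneg (by positivity)] at h3
    rcases eq_or_lt_of_le (Real.sqrt_nonneg s) with h6 | h6
    · rw [← h6]
      exact norm_nonneg _
    · exact le_of_mul_le_mul_right h3 h6
  have h7 : ‖L‖ = Real.sqrt s := le_antisymm h1 h2
  rw [h7, Real.sq_sqrt hs0]

theorem gradSq_eq (v : ℂ → ℝ) (z : ℂ) : ‖fderiv ℝ v z‖ ^ 2 = gradSq v z := norm_sq_clm _

theorem isTest_iff {U : Set ℂ} {v : ℂ → ℝ} : Vale.Agent.P155.IsTest U v ↔ K.IsTest U v :=
  ⟨fun h => ⟨h.1, h.2.1, h.2.2⟩, fun h => ⟨h.smooth, h.cpt, h.sub⟩⟩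

theorem isTest_zero (U : Set ℂ) : K.IsTest U (fun _ => 0) := by
  refine ⟨contDiff_const, ?_, ?_⟩
  · have : HasCompactSupport (0 : ℂ → ℝ) := HasCompactSupport.zero
    exact this
  · have : tsupport (fun _ : ℂ => (0 : ℝ)) = ∅ := by
      rw [tsupport_eq_empty_iff]
      rfl
    rw [this]
    exact Set.empty_subset _

theorem greenEnergy_eq {U : Set ℂ} {φ : ℂ → ℝ} (h : Gr U φ ≠ ⊤) :
    greenEnergy U φ = (Gr U φ).toReal := by
  have hset : {x : ℝ | ∃ v, Vale.Agent.P155.IsTest U v ∧ x = 2 * (∫ z, φ z * v z) -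
      ∫ z, ‖fderiv ℝ v z‖ ^ 2} = {x : ℝ | ∃ v, K.IsTest U v ∧ x = dval φ v} := by
    ext x
    constructor
    · rintro ⟨v, hv, rfl⟩
      refine ⟨v, isTest_iff.1 hv, ?_⟩
      unfold dval
      simp_rw [gradSq_eq]
    · rintro ⟨v, hv, rfl⟩
      refine ⟨v, isTest_iff.2 hv, ?_⟩
      unfold dval
      simp_rw [gradSq_eq]
  unfold greenEnergy
  rw [hset]
  have hzero : (0 : ℝ) ∈ {x : ℝ | ∃ v, K.IsTest U v ∧ x = dval φ v} := by
    refine ⟨fun _ => 0, isTest_zero U, ?_⟩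
    unfold dval gradSq
    simp
  have hub : ∀ x ∈ {x : ℝ | ∃ v, K.IsTest U v ∧ x = dval φ v}, x ≤ (Gr U φ).toReal := by
    rintro x ⟨v, hv, rfl⟩
    rcases le_or_gt (dval φ v) 0 with h1 | h1
    · exact h1.trans ENNReal.toReal_nonneg
    · apply (ENNReal.ofReal_le_iff_le_toReal h).1
      unfold Gr
      exact le_iSup (fun v : {v : ℂ → ℝ // K.IsTest U v} => ENNReal.ofReal (dval φ v)) ⟨v, hv⟩
  apply le_antisymm
  · exact csSup_le ⟨0, hzero⟩ hub
  · have hsup : 0 ≤ sSup {x : ℝ | ∃ v, K.IsTest U v ∧ x = dval φ v} :=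
      le_csSup ⟨_, hub⟩ hzero
    apply ENNReal.toReal_le_of_le_ofReal hsup
    unfold Gr
    apply iSup_le
    rintro ⟨v, hv⟩
    exact ENNReal.ofReal_le_ofReal (le_csSup ⟨_, hub⟩ ⟨v, hv, rfl⟩)

/-! ### positions of faces -/

theorem pos_mem_sqr {δ : ℝ} (a : ℂ) (f : Pt) : pos δ a f ∈ sqr δ a f := by
  refine ⟨0, 0, le_rfl, zero_le_one, le_rfl, zero_le_one, ?_⟩
  apply Complex.ext
  · simp [pos]
  · simp [pos]

theorem norm_sub_pos_of_mem {δ : ℝ} (hδ : 0 < δ) {a z : ℂ} {f : Pt} (h : z ∈ sqr δ a f) :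
    ‖z - pos δ a f‖ ≤ 2 * δ := by
  obtain ⟨s, t, hs0, hs1, ht0, ht1, rfl⟩ := h
  have e1 : |((a + δ * (((f.1 : ℝ) + s : ℝ) + ((f.2 : ℝ) + t : ℝ) * Complex.I)) - pos δ a f).re| ≤ δ := by
    simp only [pos, Complex.sub_re, Complex.add_re, Complex.mul_re, Complex.ofReal_re,
      Complex.ofReal_im, Complex.I_re, Complex.I_im, Complex.add_im, Complex.mul_im]
    rw [abs_le]
    constructor <;> nlinarith
  have e2 : |((a + δ * (((f.1 : ℝ) + s : ℝ) + ((f.2 : ℝ) + t : ℝ) * Complex.I)) - pos δ a f).im| ≤ δ := by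
    simp only [pos, Complex.sub_im, Complex.add_re, Complex.mul_re, Complex.ofReal_re,
      Complex.ofReal_im, Complex.I_re, Complex.I_im, Complex.add_im, Complex.mul_im]
    rw [abs_le]
    constructor <;> nlinarith
  exact (Complex.norm_le_abs_re_add_abs_im _).trans (by linarith)

theorem segment_frontier {U : Set ℂ} {x y : ℂ} (hx : x ∈ U) (hy : y ∉ U) :
    ∃ w ∈ frontier U, ‖y - w‖ ≤ ‖y - x‖ := by
  have hseg : IsPreconnected (segment ℝ x y) := (convex_segment x y).isPreconnected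
  have : (segment ℝ x y ∩ frontier U).Nonempty := by
    by_contra hne
    rw [Set.not_nonempty_iff_eq_empty] at hne
    have h1 : segment ℝ x y ⊆ interior U ∪ (closure U)ᶜ := by
      intro z hz
      by_cases hzU : z ∈ closure U
      · left
        by_contra h2
        have : z ∈ segment ℝ x y ∩ frontier U := ⟨hz, hzU, h2⟩
        rw [hne] at this
        exact this
      · right
        exact hzU
    have h2 := hseg _ _ isOpen_interior isClosed_closure.isOpen_compl h1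
      ⟨x, left_mem_segment ℝ x y, by
        rcases h1 (left_mem_segment ℝ x y) with h | h
        · exact h
        · exact absurd (subset_closure hx) h⟩
      ⟨y, right_mem_segment ℝ x y, by
        rcases h1 (right_mem_segment ℝ x y) with h | h
        · exact absurd (interior_subset h) hy
        · exact h⟩
    obtain ⟨z, _, hz1, hz2⟩ := h2
    exact hz2 (subset_closure (interior_subset hz1))
  obtain ⟨w, hw, hwf⟩ := this
  refine ⟨w, hwf, ?_⟩
  obtain ⟨s, t, hs, ht, hst, rfl⟩ := hw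
  have : y - (s • x + t • y) = s • (y - x) := by
    have ht' : t = 1 - s := by linarith
    rw [ht', smul_sub, sub_smul, one_smul]
    ring
  rw [this, norm_smul, Real.norm_of_nonneg hs]
  have hs1 : s ≤ 1 := by linarith
  calc s * ‖y - x‖ ≤ 1 * ‖y - x‖ := by gcongr
    _ = _ := one_mul _

section
variable {Ω : Set ℂ} (S : TempApprox Ω)

/-- Points off `Ω` are close to faces off the polygon. -/
theorem alpha_face : ∀ η > 0, ∀ᶠ n in atTop, ∀ z, z ∉ Ω →
    ∃ p, p ∉ (S.T n).faceSet ∧ ‖z - pos (S.δ n) (S.a n) p‖ < η := by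
  intro η hη
  have h1 : ∀ᶠ n in atTop, S.δ n < η / 8 := (tendsto_order.1 S.mesh).2 _ (by positivity)
  filter_upwards [h1, S.outer (η / 4) (by positivity), S.haus₂ (η / 4) (by positivity)]
    with n hn ho hh z hz
  have hd := S.pos n
  by_cases hzi : z ∈ interior (region (S.δ n) (S.a n) (S.T n).faceSet)
  · obtain ⟨z', hz', hzz⟩ := Metric.mem_thickening_iff.1 (ho (interior_subset hzi))
    obtain ⟨w, hw, hwz⟩ := segment_frontier hz' hz
    obtain ⟨w', hw', hww⟩ := Metric.mem_thickening_iff.1 (hh hw)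
    have hw'i : w' ∉ interior (region (S.δ n) (S.a n) (S.T n).faceSet) := hw'.2
    rw [KConn.mem_interior_region_iff hd] at hw'i
    push Not at hw'i
    obtain ⟨g, hg, hgS⟩ := hw'i
    refine ⟨g, hgS, ?_⟩
    have h2 := norm_sub_pos_of_mem hd hg
    rw [dist_eq_norm] at hzz hww
    calc ‖z - pos (S.δ n) (S.a n) g‖ = ‖(z - w) + (w - w') + (w' - pos (S.δ n) (S.a n) g)‖ := by
          congr 1
          ring
      _ ≤ ‖z - w‖ + ‖w - w'‖ + ‖w' - pos (S.δ n) (S.a n) g‖ := norm_add₃_le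
      _ < η := by linarith
  · rw [KConn.mem_interior_region_iff hd] at hzi
    push Not at hzi
    obtain ⟨g, hg, hgS⟩ := hzi
    refine ⟨g, hgS, ?_⟩
    have h2 := norm_sub_pos_of_mem hd hg
    linarith

/-- All faces of the polygon stay in a fixed ball. -/
theorem bounded_face (hb : Bornology.IsBounded Ω) : ∃ ϱ : ℝ, 0 < ϱ ∧ ∀ᶠ n in atTop,
    ∀ y ∈ (S.T n).faceSet, ∀ z ∈ sqr (S.δ n) (S.a n) y, ‖z‖ ≤ ϱ := by
  obtain ⟨r, hr⟩ := hb.subset_closedBall (0 : ℂ)
  refine ⟨|r| + 1, by positivity, ?_⟩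
  filter_upwards [S.outer 1 one_pos] with n ho y hy z hz
  have h1 : z ∈ region (S.δ n) (S.a n) (S.T n).faceSet :=
    Set.mem_iUnion₂.2 ⟨y, hy, hz⟩
  obtain ⟨z', hz', hzz⟩ := Metric.mem_thickening_iff.1 (ho h1)
  have h2 := hr hz'
  rw [mem_closedBall_zero_iff] at h2
  rw [dist_eq_norm] at hzz
  calc ‖z‖ = ‖(z - z') + z'‖ := by rw [sub_add_cancel]
    _ ≤ ‖z - z'‖ + ‖z'‖ := norm_add_le _ _
    _ ≤ |r| + 1 := by linarith [le_abs_self r]

theorem propP_Ok (T : Temp) (k : ℕ) {ω : Conf} (hω : ω ∈ DD T.V) : PropP (Ok T k ω) := by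
  intro p hp r
  obtain ⟨y, hy, hd⟩ := L.l_cp T k ω hω p hp r
  refine ⟨y, hy, ?_⟩
  have h0 := dinf_nonneg p y
  unfold dn at hd
  omega

/-- Convergence of the Green energies along Hausdorff convergent gaskets. -/
theorem green_gasket (hΩ : IsOpen Ω) (hb : Bornology.IsBounded Ω) (k : ℕ) {φ : ℂ → ℝ}
    (hφ : Continuous φ) (hφc : HasCompactSupport φ) {n : ℕ → ℕ} (hn : Tendsto n atTop atTop)
    {ω : ℕ → Conf} (hω : ∀ j, ω j ∈ DD (S.T (n j)).V) {G : NonemptyCompacts ℂ}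
    (hG : Tendsto (fun j => toNC (gasket (S.δ (n j)) (S.a (n j)) (S.T (n j)) k (ω j))) atTop (𝓝 G))
    {u : ℕ → Pt → ℝ}
    (hu : ∀ j, IsGreen (Ok (S.T (n j)) k (ω j)) (phin (S.δ (n j)) (S.a (n j)) φ) (u j)) :
    Tendsto (fun j => pair (phin (S.δ (n j)) (S.a (n j)) φ) (u j)) atTop
      (𝓝 (greenEnergy (Ω \ (G : Set ℂ)) φ)) := by
  obtain ⟨ϱ, hϱ0, hϱ⟩ := bounded_face S hb
  -- distances
  have hdist : ∀ ε > 0, ∀ᶠ j in atTop, Metric.hausdorffDist
      (gasket (S.δ (n j)) (S.a (n j)) (S.T (n j)) k (ω j)) (G : Set ℂ) < ε := by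
    intro ε hε
    filter_upwards [(Metric.tendsto_nhds.1 hG) ε hε] with j hj
    rw [Metric.NonemptyCompacts.dist_eq, KConn.coe_toNC_gasket (S.pos _) _ _ _ (hω j)] at hj
    exact hj
  have hfin : ∀ j, Metric.hausdorffEDist
      (gasket (S.δ (n j)) (S.a (n j)) (S.T (n j)) k (ω j)) (G : Set ℂ) ≠ ⊤ := by
    intro j
    apply Metric.hausdorffEDist_ne_top_of_nonempty_of_bounded
    · exact KConn.gasket_nonempty (S.pos _) _ _ _ (hω j)
    · exact G.nonempty
    · exact (KConn.gasket_compact (S.pos _) _ _ _ _).isBounded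
    · exact G.isCompact.isBounded
  have hsub : ∀ j, Ok (S.T (n j)) k (ω j) ⊆ (S.T (n j)).faceSet := fun j f hf => hf.1
  have key := green_limit (δ := fun j => S.δ (n j)) (fun j => S.pos _) (S.mesh.comp hn)
    (fun j => S.a (n j)) (O := fun j => Ok (S.T (n j)) k (ω j))
    (fun j => ((A1.faceSet_finite (S.T (n j))).subset (hsub j))) hφ hφc hu (ϱ := ϱ)
    (by
      filter_upwards [hn.eventually hϱ] with j hj y hy
      exact hj y (hsub j hy) _ (pos_mem_sqr _ _))
    (fun j => propP_Ok _ _ (hω j)) (U := Ω \ (G : Set ℂ)) ?_ ?_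
  · rw [greenEnergy_eq key.1]
    exact key.2
  · -- beta
    intro K hK hKU
    have hdisj : Disjoint K (G : Set ℂ) := by
      rw [Set.disjoint_left]
      intro z hz hzG
      exact (hKU hz).2 hzG
    obtain ⟨c, hc, hcK⟩ := Metric.exists_pos_forall_lt_edist hK G.isCompact.isClosed hdisj
    have hc0 : (0 : ℝ) < c := hc
    filter_upwards [hdist c hc0, hn.eventually (S.cara₁ K (fun z hz => (hKU hz).1) hK)]
      with j hj hcar y hy hyK
    have h1 : pos (S.δ (n j)) (S.a (n j)) y ∈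
        gasket (S.δ (n j)) (S.a (n j)) (S.T (n j)) k (ω j) := by
      refine ⟨interior_subset (hcar hyK), ?_⟩
      intro h2
      exact hy ((KConn.mem_interior_region_iff (S.pos _)).1 h2 y (pos_mem_sqr _ _))
    obtain ⟨g, hg, hgd⟩ := Metric.exists_dist_lt_of_hausdorffDist_lt h1 hj (hfin j)
    have h3 := hcK _ hyK g hg
    rw [edist_dist] at h3
    have h4 : ENNReal.ofReal (dist (pos (S.δ (n j)) (S.a (n j)) y) g) < ENNReal.ofReal c := by
      rwa [ENNReal.ofReal_lt_ofReal_iff hc0]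
    rw [ENNReal.ofReal_coe_nnreal] at h4
    exact absurd h3 (not_lt.2 h4.le)
  · -- alpha
    intro η hη
    have h1 : ∀ᶠ j in atTop, S.δ (n j) < η / 8 :=
      (tendsto_order.1 (S.mesh.comp hn)).2 _ (by positivity)
    filter_upwards [hdist (η / 2) (by positivity), hn.eventually (alpha_face S η hη), h1]
      with j hj hface hdj z hz
    by_cases hzΩ : z ∈ Ω
    · have hzG : z ∈ (G : Set ℂ) := by
        by_contra h
        exact hz ⟨hzΩ, h⟩
      obtain ⟨z', hz', hzd⟩ := Metric.exists_dist_lt_of_hausdorffDist_lt' hzG hj (hfin j)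
      have h2 : z' ∉ interior (region (S.δ (n j)) (S.a (n j)) (Ok (S.T (n j)) k (ω j))) := hz'.2
      rw [KConn.mem_interior_region_iff (S.pos _)] at h2
      push Not at h2
      obtain ⟨g, hg, hgS⟩ := h2
      refine ⟨g, hgS, ?_⟩
      have h3 := norm_sub_pos_of_mem (S.pos _) hg
      rw [dist_comm, dist_eq_norm] at hzd
      calc ‖z - pos (S.δ (n j)) (S.a (n j)) g‖
          = ‖(z - z') + (z' - pos (S.δ (n j)) (S.a (n j)) g)‖ := by
            congr 1
            ring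
        _ ≤ ‖z - z'‖ + ‖z' - pos (S.δ (n j)) (S.a (n j)) g‖ := norm_add_le _ _
        _ < η := by linarith
    · obtain ⟨p, hp, hpz⟩ := hface z hzΩ
      exact ⟨p, fun h => hp (hsub j h), hpz⟩

end

end Vale.Agent.P155.K
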