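import Vale.Agent.P155.K.Dir
import Mathlib.MeasureTheory.Measure.Lebesgue.Complex
import Mathlib.MeasureTheory.Integral.DominatedConvergence

/-!
# P155 block K: lattice sums as integrals of step functions, dominated convergence
-/

namespace Vale.Agent.P155.K

open Vale.Agent.P155 Finset MeasureTheory Filter Topology

/-- The position in the plane of (the lower left corner of) the face `y`. -/
noncomputable def pos (δ : ℝ) (a : ℂ) (y : Pt) : ℂ := ⟨a.re + δ * y.1, a.im + δ * y.2⟩

/-- The face containing the point `z`. -/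
noncomputable def cell (δ : ℝ) (a z : ℂ) : Pt := (⌊(z.re - a.re) / δ⌋, ⌊(z.im - a.im) / δ⌋)

theorem cell_eq_iff {δ : ℝ} (hδ : 0 < δ) {a z : ℂ} {y : Pt} :
    cell δ a z = y ↔ (z.re ∈ Set.Ico (a.re + δ * y.1) (a.re + δ * (y.1 + 1)) ∧
      z.im ∈ Set.Ico (a.im + δ * y.2) (a.im + δ * (y.2 + 1))) := by
  obtain ⟨y1, y2⟩ := y
  simp only [cell, Prod.mk.injEq, Int.floor_eq_iff, Set.mem_Ico, le_div_iff₀ hδ, div_lt_iff₀ hδ]
  constructor
  · rintro ⟨⟨h1, h2⟩, h3, h4⟩
    exact ⟨⟨by linarith, by linarith⟩, by linarith, by linarith⟩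
  · rintro ⟨⟨h1, h2⟩, h3, h4⟩
    exact ⟨⟨by linarith, by linarith⟩, by linarith, by linarith⟩

theorem cell_pos {δ : ℝ} (hδ : 0 < δ) (a : ℂ) (y : Pt) : cell δ a (pos δ a y) = y := by
  rw [cell_eq_iff hδ]
  simp only [pos, Set.mem_Ico, le_refl, true_and]
  constructor <;> nlinarith

theorem norm_sub_pos_cell {δ : ℝ} (hδ : 0 < δ) (a z : ℂ) : ‖z - pos δ a (cell δ a z)‖ ≤ 2 * δ := by
  have h := (cell_eq_iff hδ (a := a) (z := z) (y := cell δ a z)).1 rfl
  obtain ⟨⟨h1, h2⟩, h3, h4⟩ := h
  have e1 : |(z - pos δ a (cell δ a z)).re| ≤ δ := by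
    simp only [Complex.sub_re, pos]
    rw [abs_le]
    constructor <;> nlinarith
  have e2 : |(z - pos δ a (cell δ a z)).im| ≤ δ := by
    simp only [Complex.sub_im, pos]
    rw [abs_le]
    constructor <;> nlinarith
  exact (Complex.norm_le_abs_re_add_abs_im _).trans (by linarith)

theorem measurable_cell (δ : ℝ) (a : ℂ) : Measurable (cell δ a) := by
  unfold cell
  apply Measurable.prodMk
  · exact Int.measurable_floor.comp ((Complex.measurable_re.sub_const _).div_const _)
  · exact Int.measurable_floor.comp ((Complex.measurable_im.sub_const _).div_const _)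

theorem volume_cell {δ : ℝ} (hδ : 0 < δ) (a : ℂ) (y : Pt) :
    volume (cell δ a ⁻¹' {y}) = ENNReal.ofReal (δ ^ 2) := by
  have e : cell δ a ⁻¹' {y} = Complex.measurableEquivRealProd ⁻¹'
      (Set.Ico (a.re + δ * y.1) (a.re + δ * (y.1 + 1)) ×ˢ
        Set.Ico (a.im + δ * y.2) (a.im + δ * (y.2 + 1))) := by
    ext z
    simp only [Set.mem_preimage, Set.mem_singleton_iff, cell_eq_iff hδ,
      Complex.measurableEquivRealProd_apply, Set.mem_prod]
  rw [e, Complex.volume_preserving_equiv_real_prod.measure_preimage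
    (measurableSet_Ico.prod measurableSet_Ico).nullMeasurableSet, Measure.volume_eq_prod,
    Measure.prod_prod, Real.volume_Ico, Real.volume_Ico, ← ENNReal.ofReal_mul (by nlinarith)]
  congr 1
  ring

theorem integral_cell {δ : ℝ} (hδ : 0 < δ) (a : ℂ) {g : Pt → ℝ} (hg : Fin0 g) :
    ∫ z, g (cell δ a z) = δ ^ 2 * ∑ᶠ y, g y := by
  classical
  set S := Set.Finite.toFinset hg with hS
  have e : ∀ z, g (cell δ a z) = ∑ y ∈ S, (cell δ a ⁻¹' {y}).indicator (fun _ => g y) z := by
    intro z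
    by_cases h : cell δ a z ∈ S
    · rw [Finset.sum_eq_single (cell δ a z)]
      · simp
      · intro y _ hy
        rw [Set.indicator_of_notMem]
        simpa using fun h => hy h.symm
      · intro h'
        exact absurd h h'
    · have h0 : g (cell δ a z) = 0 := by
        by_contra h1
        exact h ((Set.Finite.mem_toFinset hg).2 h1)
      rw [h0]
      symm
      apply Finset.sum_eq_zero
      intro y hy
      rw [Set.indicator_of_notMem]
      simp only [Set.mem_preimage, Set.mem_singleton_iff]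
      rintro rfl
      exact h hy
  simp_rw [e]
  have hms : ∀ y, MeasurableSet (cell δ a ⁻¹' {y}) := fun y =>
    measurable_cell δ a (measurableSet_singleton y)
  rw [integral_finsetSum]
  · rw [finsum_eq_sum_of_support_subset (s := S) g
      (fun x hx => Finset.mem_coe.2 ((Set.Finite.mem_toFinset hg).2 hx)), Finset.mul_sum]
    apply Finset.sum_congr rfl
    intro y _
    rw [integral_indicator_const _ (hms y), Measure.real, volume_cell hδ,
      ENNReal.toReal_ofReal (by positivity), smul_eq_mul]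
  · intro y _
    apply (integrable_indicator_iff (hms y)).2
    have hfin : volume (cell δ a ⁻¹' {y}) ≠ ⊤ := by
      rw [volume_cell hδ]
      exact ENNReal.ofReal_ne_top
    have hC : ‖g y‖ₑ ≠ ⊤ := by simp
    exact integrableOn_const hfin hC

/-- The basic convergence lemma for lattice sums. -/
theorem tendsto_sum {δ : ℕ → ℝ} (hδ : ∀ n, 0 < δ n) (hδ0 : Tendsto δ atTop (𝓝 0)) (a : ℕ → ℂ)
    {g : ℕ → Pt → ℝ} (hg : ∀ n, Fin0 (g n)) {G : ℂ → ℝ} {M ϱ : ℝ}
    (hM : ∀ᶠ n in atTop, ∀ y, |g n y| ≤ M)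
    (hϱ : ∀ᶠ n in atTop, ∀ y, g n y ≠ 0 → ‖pos (δ n) (a n) y‖ ≤ ϱ)
    (hlim : ∀ᵐ z : ℂ, Tendsto (fun n => g n (cell (δ n) (a n) z)) atTop (𝓝 (G z))) :
    Tendsto (fun n => δ n ^ 2 * ∑ᶠ y, g n y) atTop (𝓝 (∫ z, G z)) := by
  have e : (fun n => δ n ^ 2 * ∑ᶠ y, g n y) = fun n => ∫ z, g n (cell (δ n) (a n) z) := by
    funext n
    rw [integral_cell (hδ n) _ (hg n)]
  rw [e]
  apply tendsto_integral_filter_of_dominated_convergence
    ((Metric.closedBall (0 : ℂ) (ϱ + 2)).indicator (fun _ => M))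
  · filter_upwards with n
    exact ((measurable_of_countable (g n)).comp (measurable_cell (δ n) (a n))).aestronglyMeasurable
  · have h1 : ∀ᶠ n in atTop, δ n < 1 := (tendsto_order.1 hδ0).2 1 one_pos
    filter_upwards [hM, hϱ, h1] with n h2 h3 h4
    filter_upwards with z
    by_cases hz : g n (cell (δ n) (a n) z) = 0
    · rw [hz, norm_zero]
      apply Set.indicator_nonneg
      intro _ _
      exact (abs_nonneg _).trans (h2 (0, 0))
    · have h5 := h3 _ hz
      have h6 := norm_sub_pos_cell (hδ n) (a n) z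
      rw [Set.indicator_of_mem]
      · exact h2 _
      · rw [mem_closedBall_zero_iff]
        calc ‖z‖ = ‖(z - pos (δ n) (a n) (cell (δ n) (a n) z)) + pos (δ n) (a n) (cell (δ n) (a n) z)‖ := by
              rw [sub_add_cancel]
          _ ≤ 2 * δ n + ϱ := (norm_add_le _ _).trans (add_le_add h6 h5)
          _ ≤ ϱ + 2 := by linarith
  · apply (integrable_indicator_iff measurableSet_closedBall).2
    have hfin : volume (Metric.closedBall (0 : ℂ) (ϱ + 2)) ≠ ⊤ :=
      (isCompact_closedBall _ _).measure_ne_top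
    have hC : ‖M‖ₑ ≠ ⊤ := by simp
    exact integrableOn_const hfin hC
  · exact hlim

/-- positions of the cells converge -/
theorem tendsto_pos_cell {δ : ℕ → ℝ} (hδ : ∀ n, 0 < δ n) (hδ0 : Tendsto δ atTop (𝓝 0)) (a : ℕ → ℂ)
    (z : ℂ) : Tendsto (fun n => pos (δ n) (a n) (cell (δ n) (a n) z)) atTop (𝓝 z) := by
  rw [tendsto_iff_norm_sub_tendsto_zero]
  apply squeeze_zero (fun _ => norm_nonneg _) (g := fun n => 2 * δ n)
  · intro n
    rw [norm_sub_rev]
    exact norm_sub_pos_cell (hδ n) (a n) z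
  · simpa using hδ0.const_mul 2

end Vale.Agent.P155.K
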