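import Vale.Agent.P155.K.Gr
import Vale.Agent.P155.Defs2
import Mathlib.Analysis.Calculus.ContDiff.Bounds
import Mathlib.Analysis.Calculus.MeanValue

/-!
# P155 block K: lattice restrictions of smooth functions are bumps
-/

namespace Vale.Agent.P155.K

open Vale.Agent.P155 Filter Topology

/-- all derivatives are bounded -/
def BD (f : ℂ → ℝ) (M : ℕ → ℝ) : Prop :=
  ContDiff ℝ ((⊤ : ℕ∞) : WithTop ℕ∞) f ∧ ∀ j z, ‖iteratedFDeriv ℝ j f z‖ ≤ M j

/-- difference operator -/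
def Tsh (h : ℂ) (f : ℂ → ℝ) (z : ℂ) : ℝ := f (z + h) - f z

theorem BD.tsh {f : ℂ → ℝ} {M : ℕ → ℝ} (hf : BD f M) (h : ℂ) :
    BD (Tsh h f) (fun j => ‖h‖ * M (j + 1)) := by
  obtain ⟨hs, hM⟩ := hf
  have hs1 : ContDiff ℝ ((⊤ : ℕ∞) : WithTop ℕ∞) (fun z => f (z + h)) :=
    hs.comp (contDiff_id.add contDiff_const)
  refine ⟨hs1.sub hs, fun j z => ?_⟩
  have e : iteratedFDeriv ℝ j (Tsh h f) z = iteratedFDeriv ℝ j f (z + h) - iteratedFDeriv ℝ j f z := by
    have e1 : Tsh h f = (fun z => f (z + h)) - f := rfl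
    rw [e1, iteratedFDeriv_sub_apply]
    · rw [iteratedFDeriv_comp_add_right]
    · exact (hs1.of_le (by exact_mod_cast le_top)).contDiffAt
    · exact (hs.of_le (by exact_mod_cast le_top)).contDiffAt
  rw [e]
  have hd : ∀ x, DifferentiableAt ℝ (iteratedFDeriv ℝ j f) x := fun x =>
    (hs.differentiable_iteratedFDeriv (by exact_mod_cast WithTop.coe_lt_top _)) x
  have key := Convex.norm_image_sub_le_of_norm_fderiv_le (𝕜 := ℝ) (f := iteratedFDeriv ℝ j f)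
    (C := M (j + 1)) (s := Set.univ) (x := z) (y := z + h) (fun x _ => hd x) (fun x _ => by
      rw [norm_fderiv_iteratedFDeriv]
      exact hM (j + 1) x) convex_univ trivial trivial
  rw [add_sub_cancel_left] at key
  linarith

theorem BD.const_mul {f : ℂ → ℝ} {M : ℕ → ℝ} (hf : BD f M) {c : ℝ} (hc : 0 ≤ c) :
    BD (fun z => c * f z) (fun j => c * M j) := by
  obtain ⟨hs, hM⟩ := hf
  refine ⟨contDiff_const.mul hs, fun j z => ?_⟩
  have e : (fun z => c * f z) = c • f := rfl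
  rw [e, iteratedFDeriv_const_smul_apply ((hs.of_le (by exact_mod_cast le_top)).contDiffAt),
    norm_smul, Real.norm_of_nonneg hc]
  exact mul_le_mul_of_nonneg_left (hM j z) hc

theorem exists_BD {φ : ℂ → ℝ} (hs : ContDiff ℝ ((⊤ : ℕ∞) : WithTop ℕ∞) φ) (hc : HasCompactSupport φ) :
    ∃ M : ℕ → ℝ, (∀ j, 0 ≤ M j) ∧ BD φ M := by
  have h : ∀ j : ℕ, ∃ C : ℝ, ∀ z, ‖iteratedFDeriv ℝ j φ z‖ ≤ C := fun j =>
    (hc.iteratedFDeriv j).exists_bound_of_continuous
      (hs.continuous_iteratedFDeriv (by exact_mod_cast le_top))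
  choose M hM using h
  exact ⟨M, fun j => (norm_nonneg _).trans (hM j 0), hs, hM⟩

theorem Dx_res (δ : ℝ) (a : ℂ) (f : ℂ → ℝ) : Dx (res δ a f) = res δ a (Tsh δ f) := by
  funext y
  simp only [Dx, res, Tsh, pos_add1]

theorem Dy_res (δ : ℝ) (a : ℂ) (f : ℂ → ℝ) : Dy (res δ a f) = res δ a (Tsh (δ * Complex.I) f) := by
  funext y
  simp only [Dy, res, Tsh, pos_add2]

theorem Dx_iter (δ : ℝ) (a : ℂ) (f : ℂ → ℝ) (m : ℕ) :
    Dx^[m] (res δ a f) = res δ a ((Tsh δ)^[m] f) := by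
  induction m generalizing f with
  | zero => rfl
  | succ m ih => rw [Function.iterate_succ_apply, Dx_res, ih, Function.iterate_succ_apply]

theorem Dy_iter (δ : ℝ) (a : ℂ) (f : ℂ → ℝ) (m : ℕ) :
    Dy^[m] (res δ a f) = res δ a ((Tsh (δ * Complex.I))^[m] f) := by
  induction m generalizing f with
  | zero => rfl
  | succ m ih => rw [Function.iterate_succ_apply, Dy_res, ih, Function.iterate_succ_apply]

theorem BD.iter {h : ℂ} {δ : ℝ} (hh : ‖h‖ = δ) (m : ℕ) {f : ℂ → ℝ} {M : ℕ → ℝ}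
    (hf : BD f M) : BD ((Tsh h)^[m] f) (fun j => δ ^ m * M (j + m)) := by
  induction m generalizing f M with
  | zero => simpa using hf
  | succ m ih =>
    rw [Function.iterate_succ_apply]
    have := ih (hf.tsh h)
    refine ⟨this.1, fun j z => (this.2 j z).trans (le_of_eq ?_)⟩
    rw [hh, pow_succ]
    simp only
    rw [add_assoc]
    ring

theorem diff_bound {φ : ℂ → ℝ} {M : ℕ → ℝ} (hf : BD φ M) {δ : ℝ} (hδ : 0 < δ) (a : ℂ) (i j : ℕ) (y : Pt) :
    |(Dx^[i] (Dy^[j] (res δ a φ))) y| ≤ δ ^ (i + j) * M (i + j) := by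
  rw [Dy_iter, Dx_iter]
  have h1 := (hf.iter (h := δ * Complex.I) (δ := δ) (by simp [abs_of_pos hδ]) j)
  have h2 := h1.iter (h := (δ : ℂ)) (δ := δ) (by simp [abs_of_pos hδ]) i
  have h3 := h2.2 0 (pos δ a y)
  rw [norm_iteratedFDeriv_zero] at h3
  simp only at h3
  refine h3.trans (le_of_eq ?_)
  rw [zero_add, pow_add]
  ring

/-- `φ_δ` is a bump at scale `R` when `δ R` is bounded. -/
theorem isBump_phin {φ : ℂ → ℝ} (hs : ContDiff ℝ ((⊤ : ℕ∞) : WithTop ℕ∞) φ)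
    (hc : HasCompactSupport φ) {A : ℝ} (hA : 0 ≤ A) : ∃ C0 : ℝ, 0 ≤ C0 ∧ ∀ (δ : ℝ) (a : ℂ) (R : ℕ),
      0 < δ → 1 ≤ R → δ * R ≤ A → (∀ y, φ (pos δ a y) ≠ 0 → y ∈ box (0, 0) R) →
      IsBump (0, 0) R (C0 / (R : ℝ) ^ 2) (phin δ a φ) := by
  obtain ⟨M, hM0, hM⟩ := exists_BD hs hc
  refine ⟨(M 0 + M 1 + M 2 + M 3 + M 4) * (A + 1) ^ 6, by
    have := hM0 0; have := hM0 1; have := hM0 2; have := hM0 3; have := hM0 4
    positivity, fun δ a R hδ hR hδR hsupp => ⟨?_, ?_⟩⟩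
  · intro y hy
    unfold phin
    by_contra h
    exact hy (hsupp y (right_ne_zero_of_mul h))
  · intro i j hij y
    have hR0 : (0 : ℝ) < R := by positivity
    have e : phin δ a φ = res δ a (fun z => δ ^ 2 * φ z) := rfl
    rw [e]
    refine (diff_bound (hM.const_mul (c := δ ^ 2) (by positivity)) hδ a i j y).trans ?_
    have h1 : M (i + j) ≤ M 0 + M 1 + M 2 + M 3 + M 4 := by
      have := hM0 0; have := hM0 1; have := hM0 2; have := hM0 3; have := hM0 4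
      have h2 : i + j = 0 ∨ i + j = 1 ∨ i + j = 2 ∨ i + j = 3 ∨ i + j = 4 := by omega
      rcases h2 with h | h | h | h | h <;> rw [h] <;> linarith
    have h3 : δ ≤ A / R := by rwa [le_div_iff₀ hR0]
    have h4 : δ ^ (i + j) * δ ^ 2 ≤ (A + 1) ^ 6 / (R : ℝ) ^ (i + j + 2) := by
      rw [← pow_add]
      calc δ ^ (i + j + 2) ≤ (A / R) ^ (i + j + 2) := by gcongr
        _ = A ^ (i + j + 2) / (R : ℝ) ^ (i + j + 2) := div_pow _ _ _
        _ ≤ (A + 1) ^ 6 / (R : ℝ) ^ (i + j + 2) := by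
            gcongr
            calc A ^ (i + j + 2) ≤ (A + 1) ^ (i + j + 2) := by gcongr; linarith
              _ ≤ (A + 1) ^ 6 := by
                  apply pow_le_pow_right₀
                  · linarith
                  · omega
    calc δ ^ (i + j) * (δ ^ 2 * M (i + j)) = (δ ^ (i + j) * δ ^ 2) * M (i + j) := by ring
      _ ≤ ((A + 1) ^ 6 / (R : ℝ) ^ (i + j + 2)) * (M 0 + M 1 + M 2 + M 3 + M 4) := by
          apply mul_le_mul h4 h1 (hM0 _) (by positivity)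
      _ = (M 0 + M 1 + M 2 + M 3 + M 4) * (A + 1) ^ 6 / (R : ℝ) ^ 2 * ((R : ℝ)⁻¹) ^ (i + j) := by
          rw [inv_pow, pow_add]
          field_simp

end Vale.Agent.P155.K
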