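import Vale.Agent.P155.K.Conn2
import Vale.Agent.P155.K.Cell
import Vale.Agent.P155.L.Hk
import Vale.Agent.P155.G45.Basic

/-!
# P155, block K: measurability of the outer levels with respect to `F_k`, bounds on `h^{(k)}`,
the height integrals
-/

namespace Vale.Agent.P155.KConn

open LatCycle MeasureTheory

variable {V : Finset Pt} {ω ω' : Conf}

/-! ### (i) the explorations `F_k` increase with `k` -/

theorem Vk_succ_sub (hω : ω ∈ DD V) (k : ℕ) : Vk V (k + 1) ω ⊆ Vk V k ω := by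
  intro v hv
  obtain ⟨hvV, A, hA, hl, hvA, hs⟩ := (L.mem_Vk (by omega)).1 hv
  refine ⟨hvV, ?_⟩
  rcases Nat.eq_zero_or_pos k with h0 | h0
  · exact Or.inl h0
  · right
    obtain ⟨B, hB, hBl, hAB⟩ := (L.laminar hω).exists_above hA h0
      (by rw [← L.level_eq, hl]; omega)
    refine ⟨B, hB, hBl, ?_, hAB.1 hs⟩
    intro hvB
    have h1 := L.intr_ssubset_of_vert hω hB hA hvB hvA hs
    exact h1.2 hAB.1

theorem Vk_anti (hω : ω ∈ DD V) {l k : ℕ} (h : l ≤ k) : Vk V k ω ⊆ Vk V l ω := by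
  induction k, h using Nat.le_induction with
  | base => exact Set.Subset.rfl
  | succ k _ ih => exact (Vk_succ_sub hω k).trans ih

theorem agree_anti (hω : ω ∈ DD V) {l k : ℕ} (h : l ≤ k) (hA : AgreeOff (Fk V k ω) ω ω') :
    AgreeOff (Fk V l ω) ω ω' :=
  ⟨fun v hv => hA.1 v fun hv' => hv (Vk_anti hω h hv'),
    fun v hv => hA.2 v fun hv' => hv (Vk_anti hω h hv')⟩

theorem atom_sub (hω : ω ∈ DD V) {l k : ℕ} (h : l ≤ k) :
    atom V (Fk V k) ω ⊆ atom V (Fk V l) ω := by
  classical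
  intro ω' hω'
  unfold atom at hω' ⊢
  rw [Finset.mem_filter] at hω' ⊢
  exact ⟨hω'.1, agree_anti hω h hω'.2⟩

theorem gasket_meas (δ : ℝ) (a : ℂ) {T : Temp} (hω : ω ∈ DD T.V) (hω' : ω' ∈ DD T.V) {l k : ℕ}
    (h : l ≤ k) (hA : AgreeOff (Fk T.V k ω) ω ω') : gasket δ a T l ω' = gasket δ a T l ω := by
  unfold gasket
  rw [L.Ok_eq hω hω' (agree_anti hω h hA)]

theorem Ok_meas {T : Temp} (hω : ω ∈ DD T.V) (hω' : ω' ∈ DD T.V) {l k : ℕ}
    (h : l ≤ k) (hA : AgreeOff (Fk T.V k ω) ω ω') : Ok T l ω' = Ok T l ω :=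
  L.Ok_eq hω hω' (agree_anti hω h hA)

theorem hk_meas (hω : ω ∈ DD V) (hω' : ω' ∈ DD V) {l k : ℕ}
    (h : l ≤ k) (hA : AgreeOff (Fk V k ω) ω ω') : hk l ω' = hk l ω :=
  L.hk_eq_all hω hω' (agree_anti hω h hA)

theorem heightInt_meas (δ : ℝ) (a : ℂ) (hω : ω ∈ DD V) (hω' : ω' ∈ DD V) {l k : ℕ}
    (h : l ≤ k) (hA : AgreeOff (Fk V k ω) ω ω') (φ : ℂ → ℝ) :
    heightInt δ a l ω' φ = heightInt δ a l ω φ := by
  unfold heightInt
  rw [hk_meas hω hω' h hA]

/-! ### (ii) Green functions -/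

theorem Ok_finite (T : Temp) (k : ℕ) (ω : Conf) : (Ok T k ω).Finite :=
  (A1.faceSet_finite T).subset fun _ h => h.1

theorem exists_green_Ok (T : Temp) (k : ℕ) (ω : Conf) (φ : Pt → ℝ) :
    ∃ u, IsGreen (Ok T k ω) φ u := G45.exists_green (Ok_finite T k ω) φ

/-! ### (iii) bounds on the truncated heights -/

open Classical in
theorem abs_hk_le (hω : ω ∈ DD V) (k : ℕ) (f : Pt) : |hk k ω f| ≤ k := by
  rw [HT.hk_eq_sum hω]
  have h1 : ∑ A ∈ (HT.LF ω).filter (fun A => level ω A ≤ k), hL ω A f =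
      ∑ A ∈ (HT.LF ω).filter (fun A => level ω A ≤ k ∧ surr ω A f), hL ω A f := by
    rw [← Finset.filter_filter]
    rw [Finset.sum_filter (fun A => surr ω A f)]
    refine Finset.sum_congr rfl fun A hA => ?_
    split_ifs with h
    · rfl
    · have hA' := (HT.mem_LF hω).1 (Finset.mem_filter.1 hA).1
      rw [HT.hL_eq_sign hω hA', if_neg h]
  rw [h1]
  refine (Finset.abs_sum_le_sum_abs _ _).trans ?_
  have h2 : ∑ A ∈ (HT.LF ω).filter (fun A => level ω A ≤ k ∧ surr ω A f), |hL ω A f| ≤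
      ∑ A ∈ (HT.LF ω).filter (fun A => level ω A ≤ k ∧ surr ω A f), (1 : ℤ) :=
    Finset.sum_le_sum fun A hA =>
      HT.hL_abs hω ((HT.mem_LF hω).1 (Finset.mem_filter.1 hA).1) f
  refine h2.trans ?_
  rw [Finset.sum_const, nsmul_eq_mul, mul_one]
  have h3 : ((HT.LF ω).filter (fun A => level ω A ≤ k ∧ surr ω A f)).card ≤
      (Finset.Icc 1 k).card := by
    apply Finset.card_le_card_of_injOn (level ω)
    · intro A hA
      have hA2 := Finset.mem_filter.1 hA
      have hA' := (HT.mem_LF hω).1 hA2.1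
      exact Finset.mem_coe.2 (Finset.mem_Icc.2 ⟨HT.one_le_level hω hA', hA2.2.1⟩)
    · intro A hA B hB hAB
      have hA2 := Finset.mem_filter.1 hA
      have hB2 := Finset.mem_filter.1 hB
      have hA' := (HT.mem_LF hω).1 hA2.1
      have hB' := (HT.mem_LF hω).1 hB2.1
      exact (L.laminar hω).lev_inj hA' hB' (x := f) hA2.2.2 hB2.2.2 hAB
  rw [Nat.card_Icc] at h3
  have : k + 1 - 1 = k := by omega
  rw [this] at h3
  exact_mod_cast h3

theorem hk_off {T : Temp} (hω : ω ∈ DD T.V) (k : ℕ) {f : Pt} (hf : f ∉ T.faceSet) :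
    hk k ω f = 0 := by
  classical
  rw [HT.hk_eq_sum hω]
  refine Finset.sum_eq_zero fun A hA => ?_
  have hA' := (HT.mem_LF hω).1 (Finset.mem_filter.1 hA).1
  rw [HT.hL_eq_sign hω hA', if_neg fun h => hf (A1.L_in hω hA' h)]

open Classical in
theorem hk_succ_sub (hω : ω ∈ DD V) (k : ℕ) (f : Pt) :
    hk (k + 1) ω f - hk k ω f =
      ∑ A ∈ (HT.LF ω).filter (fun A => level ω A = k + 1 ∧ surr ω A f), HT.sign ω A := by
  rw [HT.hk_eq_sum hω, HT.hk_eq_sum hω]
  have h1 : (HT.LF ω).filter (fun A => level ω A ≤ k + 1) =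
      (HT.LF ω).filter (fun A => level ω A ≤ k) ∪ (HT.LF ω).filter (fun A => level ω A = k + 1) := by
    ext A
    simp only [Finset.mem_filter, Finset.mem_union]
    constructor
    · rintro ⟨h1, h2⟩
      rcases Nat.le_succ_iff.1 h2 with h | h
      · exact Or.inl ⟨h1, h⟩
      · exact Or.inr ⟨h1, h⟩
    · rintro (⟨h1, h2⟩ | ⟨h1, h2⟩)
      · exact ⟨h1, by omega⟩
      · exact ⟨h1, by omega⟩
  have h2 : Disjoint ((HT.LF ω).filter (fun A => level ω A ≤ k))
      ((HT.LF ω).filter (fun A => level ω A = k + 1)) := by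
    rw [Finset.disjoint_filter]
    intro A _ h3 h4
    omega
  rw [h1, Finset.sum_union h2, add_sub_cancel_left, ← Finset.filter_filter,
    Finset.sum_filter (fun A => surr ω A f)]
  refine Finset.sum_congr rfl fun A hA => ?_
  exact HT.hL_eq_sign hω ((HT.mem_LF hω).1 (Finset.mem_filter.1 hA).1) f

/-- off `O^{(k+1)}` the heights of levels `k` and `k+1` agree -/
theorem hk_succ_eq (hω : ω ∈ DD V) {k : ℕ} {f : Pt} (hf : ¬ k + 1 ≤ N ω f) :
    hk (k + 1) ω f = hk k ω f := by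
  classical
  have h := hk_succ_sub hω k f
  rw [Finset.sum_eq_zero] at h
  · omega
  · intro A hA
    obtain ⟨hA1, hA2, hA3⟩ := Finset.mem_filter.1 hA
    have := HT.level_le_N hω hA3
    omega

/-- inside a loop of level `k+1` the height jumps by the sign of the loop -/
theorem hk_succ_sign (hω : ω ∈ DD V) {k : ℕ} {A : Set Pt} (hA : A ∈ Loops ω)
    (hl : level ω A = k + 1) {f : Pt} (hf : surr ω A f) :
    hk (k + 1) ω f - hk k ω f = HT.sign ω A := by
  classical
  rw [hk_succ_sub hω]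
  rw [Finset.sum_eq_single_of_mem A]
  · exact Finset.mem_filter.2 ⟨(HT.mem_LF hω).2 hA, hl, hf⟩
  · intro B hB hne
    obtain ⟨hB1, hB2, hB3⟩ := Finset.mem_filter.1 hB
    exact absurd ((L.laminar hω).lev_inj ((HT.mem_LF hω).1 hB1) hA (x := f) hB3 hf
      (hB2.trans hl.symm)) hne

theorem hk_succ_pm (hω : ω ∈ DD V) {k : ℕ} {f : Pt} (hf : k + 1 ≤ N ω f) :
    hk (k + 1) ω f - hk k ω f = 1 ∨ hk (k + 1) ω f - hk k ω f = -1 := by
  obtain ⟨A, hA, hs, hl⟩ := (L.laminar hω).exists_lev (by omega) hf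
  rw [hk_succ_sign hω hA hl hs]
  exact HT.sign_pm hω hA

/-! ### the height integral is an integral -/

variable {δ : ℝ} {a : ℂ}

theorem cell_sub_sqr (hδ : 0 < δ) (f : Pt) : K.cell δ a ⁻¹' {f} ⊆ sqr δ a f := by
  intro z hz
  rw [Set.mem_preimage, Set.mem_singleton_iff] at hz
  rw [mem_sqr hδ, ← hz]
  unfold K.cell gx gy
  simp only
  exact ⟨Int.floor_le _, (Int.lt_floor_add_one _).le, Int.floor_le _, (Int.lt_floor_add_one _).le⟩

theorem volume_sqr (hδ : 0 < δ) (f : Pt) : volume (sqr δ a f) = ENNReal.ofReal (δ ^ 2) := by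
  have e : sqr δ a f = Complex.measurableEquivRealProd ⁻¹'
      (Set.Icc (a.re + δ * f.1) (a.re + δ * (f.1 + 1)) ×ˢ
        Set.Icc (a.im + δ * f.2) (a.im + δ * (f.2 + 1))) := by
    ext z
    rw [mem_sqr hδ]
    simp only [Set.mem_preimage, Complex.measurableEquivRealProd_apply, Set.mem_prod, Set.mem_Icc,
      gx, gy, le_div_iff₀ hδ, div_le_iff₀ hδ]
    constructor
    · rintro ⟨h1, h2, h3, h4⟩
      exact ⟨⟨by linarith, by linarith⟩, by linarith, by linarith⟩
    · rintro ⟨⟨h1, h2⟩, h3, h4⟩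
      exact ⟨by linarith, by linarith, by linarith, by linarith⟩
  rw [e, Complex.volume_preserving_equiv_real_prod.measure_preimage
    (measurableSet_Icc.prod measurableSet_Icc).nullMeasurableSet, Measure.volume_eq_prod,
    Measure.prod_prod, Real.volume_Icc, Real.volume_Icc, ← ENNReal.ofReal_mul (by nlinarith)]
  congr 1
  ring

theorem sqr_ae_eq (hδ : 0 < δ) (f : Pt) : K.cell δ a ⁻¹' {f} =ᵐ[volume] sqr δ a f := by
  refine ae_eq_of_subset_of_measure_ge (cell_sub_sqr hδ f) ?_ ?_ ?_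
  · rw [volume_sqr hδ, K.volume_cell hδ]
  · exact (K.measurable_cell δ a (measurableSet_singleton f)).nullMeasurableSet
  · rw [volume_sqr hδ]; exact ENNReal.ofReal_ne_top

/-- the `k`-th height as a function on the plane -/
noncomputable def hfun (δ : ℝ) (a : ℂ) (k : ℕ) (ω : Conf) (z : ℂ) : ℝ := hk k ω (K.cell δ a z)

theorem measurable_hfun (δ : ℝ) (a : ℂ) (k : ℕ) (ω : Conf) : Measurable (hfun δ a k ω) := by
  unfold hfun
  exact (Measurable.of_discrete (f := fun y : Pt => (hk k ω y : ℝ))).comp (K.measurable_cell δ a)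

theorem abs_hfun_le (hω : ω ∈ DD V) (δ : ℝ) (a : ℂ) (k : ℕ) (z : ℂ) : |hfun δ a k ω z| ≤ k := by
  unfold hfun
  have := abs_hk_le hω k (K.cell δ a z)
  exact_mod_cast this

theorem heightInt_eq {T : Temp} (hδ : 0 < δ) (hω : ω ∈ DD T.V) (k : ℕ) {φ : ℂ → ℝ}
    (hφ : Integrable φ) : heightInt δ a k ω φ = ∫ z, hfun δ a k ω z * φ z := by
  classical
  set S := (A1.faceSet_finite T).toFinset with hS
  have hout : ∀ y, y ∉ S → (hk k ω y : ℝ) = 0 := by
    intro y hy
    have : y ∉ T.faceSet := fun h => hy ((Set.Finite.mem_toFinset _).2 h)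
    exact_mod_cast hk_off hω k this
  have e : ∀ z, hfun δ a k ω z * φ z =
      ∑ y ∈ S, (K.cell δ a ⁻¹' {y}).indicator (fun z => (hk k ω y : ℝ) * φ z) z := by
    intro z
    unfold hfun
    by_cases h : K.cell δ a z ∈ S
    · rw [Finset.sum_eq_single (K.cell δ a z)]
      · simp
      · intro y _ hy
        rw [Set.indicator_of_notMem]
        simpa using fun h => hy h.symm
      · intro h'
        exact absurd h h'
    · rw [hout _ h, zero_mul]
      symm
      apply Finset.sum_eq_zero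
      intro y hy
      rw [Set.indicator_of_notMem]
      simp only [Set.mem_preimage, Set.mem_singleton_iff]
      rintro rfl
      exact h hy
  have hms : ∀ y, MeasurableSet (K.cell δ a ⁻¹' {y}) := fun y =>
    K.measurable_cell δ a (measurableSet_singleton y)
  simp_rw [e]
  rw [integral_finsetSum]
  · unfold heightInt
    rw [finsum_eq_sum_of_support_subset (s := S)]
    · refine Finset.sum_congr rfl fun y _ => ?_
      rw [integral_indicator (hms y), setIntegral_congr_set (sqr_ae_eq hδ y)]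
      rw [integral_const_mul]
    · intro y hy
      rw [Function.mem_support] at hy
      by_contra h
      exact hy (by rw [hout y (by simpa using h), zero_mul])
  · intro y _
    exact (hφ.const_mul _).indicator (hms y)

theorem abs_heightInt_le {T : Temp} (hδ : 0 < δ) (hω : ω ∈ DD T.V) (k : ℕ) {φ : ℂ → ℝ}
    (hφ : Integrable φ) : |heightInt δ a k ω φ| ≤ k * ∫ z, |φ z| := by
  rw [heightInt_eq hδ hω k hφ, ← integral_const_mul, ← Real.norm_eq_abs]
  refine norm_integral_le_of_norm_le (hφ.abs.const_mul _) ?_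
  refine Filter.Eventually.of_forall fun z => ?_
  rw [Real.norm_eq_abs, abs_mul]
  exact mul_le_mul_of_nonneg_right (abs_hfun_le hω δ a k z) (abs_nonneg _)

/-- restriction of `h^{(k+1)} - h^{(k)}` to a ball inside one loop -/
theorem heightInt_sub {T : Temp} (hδ : 0 < δ) (hω : ω ∈ DD T.V) (k l : ℕ) {φ : ℂ → ℝ}
    (hφ : Integrable φ) : heightInt δ a k ω φ - heightInt δ a l ω φ =
      ∫ z, (hfun δ a k ω z - hfun δ a l ω z) * φ z := by
  rw [heightInt_eq hδ hω k hφ, heightInt_eq hδ hω l hφ, ← integral_sub]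
  · refine integral_congr_ae (Filter.Eventually.of_forall fun z => ?_)
    simp only
    ring
  · refine (hφ.bdd_mul (c := (k : ℝ)) (measurable_hfun δ a k ω).aestronglyMeasurable ?_)
    exact Filter.Eventually.of_forall fun z => by
      rw [Real.norm_eq_abs]; exact abs_hfun_le hω δ a k z
  · refine (hφ.bdd_mul (c := (l : ℝ)) (measurable_hfun δ a l ω).aestronglyMeasurable ?_)
    exact Filter.Eventually.of_forall fun z => by
      rw [Real.norm_eq_abs]; exact abs_hfun_le hω δ a l z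

end Vale.Agent.P155.KConn
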