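import Vale.Agent.P155.K.Bridge
import Vale.Agent.P155.K.Bump
import Vale.Agent.P155.K.Hgt
import Vale.Agent.P155.J.Iface

/-!
# P155 block K: application of the discrete identity `J_star` along Temperleyan approximations
-/

namespace Vale.Agent.P155.K

open Vale.Agent.P155 MeasureTheory Filter Topology TopologicalSpace

section
variable {Ω : Set ℂ} (S : TempApprox Ω)

/-- The lattice pairing of `h^{(k+1)} - h^{(k)}` is close to the integral. -/
theorem disc_close (k : ℕ) {φ : ℂ → ℝ} (hφ : Continuous φ) (hφc : HasCompactSupport φ) {ε : ℝ}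
    (hε : 0 < ε) : ∀ᶠ n in atTop, ∀ ω ∈ DD (S.T n).V,
      |(∑ᶠ x : Pt, phin (S.δ n) (S.a n) φ x * ((hk (k + 1) ω x : ℝ) - hk k ω x)) -
        (heightInt (S.δ n) (S.a n) (k + 1) ω φ - heightInt (S.δ n) (S.a n) k ω φ)| ≤ ε := by
  obtain ⟨ϱ, hϱ0, hϱ⟩ := exists_ball hφc
  set V := (volume (Metric.closedBall (0 : ℂ) (ϱ + 2))).toReal with hV
  have hV0 : 0 ≤ V := ENNReal.toReal_nonneg
  set κ := ε / ((2 * k + 1) * V + 1) with hκ
  have hκ0 : 0 < κ := by positivity
  have huc : UniformContinuous φ := hφc.uniformContinuous_of_continuous hφ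
  obtain ⟨η, hη, hη'⟩ := Metric.uniformContinuous_iff.1 huc κ hκ0
  have h1 : ∀ᶠ n in atTop, S.δ n < min 1 (η / 4) := (tendsto_order.1 S.mesh).2 _ (by positivity)
  filter_upwards [h1] with n hn ω hω
  have hd := S.pos n
  set d := S.δ n with hdd
  set b := S.a n
  have hd1 : d < 1 := hn.trans_le (min_le_left _ _)
  have hd2 : d < η / 4 := hn.trans_le (min_le_right _ _)
  have hint : Integrable φ := hφ.integrable_of_hasCompactSupport hφc
  set D : Pt → ℝ := fun x => (hk (k + 1) ω x : ℝ) - hk k ω x with hD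
  have hDle : ∀ x, |D x| ≤ 2 * k + 1 := by
    intro x
    have h2 := KConn.abs_hk_le hω (k + 1) x
    have h3 := KConn.abs_hk_le hω k x
    have h4 : |((hk (k + 1) ω x : ℤ) : ℝ)| ≤ (k : ℝ) + 1 := by exact_mod_cast h2
    have h5 : |((hk k ω x : ℤ) : ℝ)| ≤ (k : ℝ) := by exact_mod_cast h3
    calc |D x| ≤ |((hk (k + 1) ω x : ℤ) : ℝ)| + |((hk k ω x : ℤ) : ℝ)| := abs_sub _ _
      _ ≤ 2 * k + 1 := by linarith
  have e1 : ∑ᶠ x : Pt, phin d b φ x * D x = ∫ z, φ (pos d b (cell d b z)) * D (cell d b z) := by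
    have f0 : Fin0 (fun x => φ (pos d b x) * D x) := (fin0_res hd b hφc).mul_right D
    have := integral_cell hd b f0
    rw [this, ← fsum_mul]
    congr 1
    funext x
    unfold phin
    ring
  have e2 : heightInt d b (k + 1) ω φ - heightInt d b k ω φ = ∫ z, D (cell d b z) * φ z := by
    rw [KConn.heightInt_sub hd hω (k + 1) k hint]
    rfl
  have mD : Measurable (fun z => D (cell d b z)) :=
    (measurable_of_countable D).comp (measurable_cell d b)
  have i2 : Integrable (fun z => D (cell d b z) * φ z) := by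
    refine (hint.norm.const_mul (2 * k + 1)).mono' (mD.aestronglyMeasurable.mul hint.1) ?_
    filter_upwards with z
    rw [norm_mul]
    exact mul_le_mul_of_nonneg_right (hDle _) (norm_nonneg _)
  have i1 : Integrable (fun z => φ (pos d b (cell d b z)) * D (cell d b z)) := by
    have hfin : Fin0 (fun x => φ (pos d b x) * D x) := (fin0_res hd b hφc).mul_right D
    obtain ⟨M, hM0, hM⟩ := exists_bound hφ hφc
    have hdom : Integrable ((Metric.closedBall (0 : ℂ) (ϱ + 2)).indicator
        (fun _ => M * (2 * k + 1))) := by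
      apply (integrable_indicator_iff measurableSet_closedBall).2
      apply integrableOn_const
      · exact (isCompact_closedBall _ _).measure_ne_top
      · exact enorm_ne_top
    refine hdom.mono' ?_ ?_
    · exact ((measurable_of_countable (fun x => φ (pos d b x) * D x)).comp
        (measurable_cell d b)).aestronglyMeasurable
    · filter_upwards with z
      by_cases hz : φ (pos d b (cell d b z)) = 0
      · rw [hz, zero_mul, norm_zero]
        exact Set.indicator_nonneg (fun _ _ => by positivity) _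
      · rw [Set.indicator_of_mem]
        · rw [norm_mul]
          exact mul_le_mul (hM _) (hDle _) (norm_nonneg _) hM0
        · rw [mem_closedBall_zero_iff]
          have h5 := hϱ _ hz
          have h6 := norm_sub_pos_cell hd b z
          calc ‖z‖ = ‖(z - pos d b (cell d b z)) + pos d b (cell d b z)‖ := by rw [sub_add_cancel]
            _ ≤ 2 * d + ϱ := (norm_add_le _ _).trans (add_le_add h6 h5)
            _ ≤ ϱ + 2 := by linarith
  rw [show (fun x => phin d b φ x * ((hk (k + 1) ω x : ℝ) - hk k ω x)) =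
    fun x => phin d b φ x * D x from rfl, e1, e2, ← integral_sub i1 i2]
  calc |∫ z, (φ (pos d b (cell d b z)) * D (cell d b z) - D (cell d b z) * φ z)|
      ≤ ∫ z, |φ (pos d b (cell d b z)) * D (cell d b z) - D (cell d b z) * φ z| :=
        abs_integral_le_integral_abs
    _ ≤ ∫ z, (Metric.closedBall (0 : ℂ) (ϱ + 2)).indicator (fun _ => (2 * k + 1) * κ) z := by
        apply integral_mono_of_nonneg
        · filter_upwards with z
          exact abs_nonneg _
        · apply (integrable_indicator_iff measurableSet_closedBall).2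
          apply integrableOn_const
          · exact (isCompact_closedBall _ _).measure_ne_top
          · exact enorm_ne_top
        · filter_upwards with z
          have h6 := norm_sub_pos_cell hd b z
          have e3 : φ (pos d b (cell d b z)) * D (cell d b z) - D (cell d b z) * φ z =
              D (cell d b z) * (φ (pos d b (cell d b z)) - φ z) := by ring
          rw [e3, abs_mul]
          by_cases hz : z ∈ Metric.closedBall (0 : ℂ) (ϱ + 2)
          · rw [Set.indicator_of_mem hz]
            apply mul_le_mul (hDle _) _ (abs_nonneg _) (by positivity)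
            have h7 : dist (pos d b (cell d b z)) z < η := by
              rw [dist_comm, dist_eq_norm]
              linarith
            exact (hη' h7).le
          · rw [Set.indicator_of_notMem hz]
            rw [mem_closedBall_zero_iff, not_le] at hz
            have h8 : φ z = 0 := by
              by_contra h
              have := hϱ z h
              linarith
            have h9 : φ (pos d b (cell d b z)) = 0 := by
              by_contra h
              have h10 := hϱ _ h
              have : ‖z‖ ≤ 2 * d + ϱ := by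
                calc ‖z‖ = ‖(z - pos d b (cell d b z)) + pos d b (cell d b z)‖ := by
                      rw [sub_add_cancel]
                  _ ≤ 2 * d + ϱ := (norm_add_le _ _).trans (add_le_add h6 h10)
              linarith
            rw [h8, h9, sub_zero, abs_zero, mul_zero]
    _ = (2 * k + 1) * κ * V := by
        rw [integral_indicator_const _ measurableSet_closedBall, Measure.real, smul_eq_mul, ← hV]
        ring
    _ ≤ ε := by
        rw [hκ]
        have h11 : (2 * (k : ℝ) + 1) * (ε / ((2 * k + 1) * V + 1)) * V =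
            ε * (((2 * k + 1) * V) / ((2 * k + 1) * V + 1)) := by ring
        rw [h11]
        have h12 : ((2 * (k : ℝ) + 1) * V) / ((2 * k + 1) * V + 1) ≤ 1 := by
          rw [div_le_one (by positivity)]
          linarith
        nlinarith

theorem mem_box_of_pos {δ A : ℝ} (hδ : 0 < δ) {a : ℂ} {y : Pt} {R : ℕ} (hR : A / δ ≤ R)
    (h : ‖pos δ a y‖ + ‖a‖ ≤ A) : y ∈ box (0, 0) R := by
  rw [mem_box]
  have h1 : |δ * (y.1 : ℝ)| ≤ A := by
    have := Complex.abs_re_le_norm (pos δ a y)
    have h2 := Complex.abs_re_le_norm a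
    have e : δ * (y.1 : ℝ) = (pos δ a y).re - a.re := by
      simp [pos]
    rw [e]
    exact (abs_sub _ _).trans (by linarith)
  have h1' : |δ * (y.2 : ℝ)| ≤ A := by
    have := Complex.abs_im_le_norm (pos δ a y)
    have h2 := Complex.abs_im_le_norm a
    have e : δ * (y.2 : ℝ) = (pos δ a y).im - a.im := by
      simp [pos]
    rw [e]
    exact (abs_sub _ _).trans (by linarith)
  rw [abs_mul, abs_of_pos hδ] at h1 h1'
  have h3 : |(y.1 : ℝ)| ≤ R := by
    refine le_trans ?_ hR
    rw [le_div_iff₀ hδ]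
    linarith
  have h4 : |(y.2 : ℝ)| ≤ R := by
    refine le_trans ?_ hR
    rw [le_div_iff₀ hδ]
    linarith
  have h5 : |y.1| ≤ (R : ℤ) := by exact_mod_cast h3
  have h6 : |y.2| ≤ (R : ℤ) := by exact_mod_cast h4
  simp only [dinf, zero_sub, abs_neg]
  exact max_le h5 h6

/-- `J_star` along the approximations, with `θ = √(π/2)`. -/
theorem jstar_seq (hΩ : IsOpen Ω) (hJ : J.J_star) (hb : Bornology.IsBounded Ω) (k : ℕ) {φ : ℂ → ℝ}
    (hφ : K.IsTest Ω φ) {ε : ℝ} (hε : 0 < ε) : ∀ᶠ n in atTop,
    ∀ u u' : Conf → Pt → ℝ,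
    (∀ ω ∈ DD (S.T n).V, IsGreen (Ok (S.T n) k ω) (phin (S.δ n) (S.a n) φ) (u ω)) →
    (∀ ω ∈ DD (S.T n).V, IsGreen (Ok (S.T n) (k + 1) ω) (phin (S.δ n) (S.a n) φ) (u' ω)) →
    ∀ F : Conf → ℂ, (∀ ω ∈ DD (S.T n).V, ‖F ω‖ ≤ 1) →
    (∀ ω ∈ DD (S.T n).V, ∀ ω' ∈ DD (S.T n).V, AgreeOff (Fk (S.T n).V k ω) ω ω' → F ω' = F ω) →
    ‖Ex (S.T n).V (fun ω => F ω * Complex.exp (Complex.I * (Real.sqrt (Real.pi / 2) : ℝ) *
        (∑ᶠ x : Pt, phin (S.δ n) (S.a n) φ x * ((hk (k + 1) ω x : ℝ) - hk k ω x) : ℝ)) *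
        (Real.exp (-(1 / 2) * pair (phin (S.δ n) (S.a n) φ) (u' ω)) : ℝ)) -
      Ex (S.T n).V (fun ω => F ω * (Real.exp (-(1 / 2) * pair (phin (S.δ n) (S.a n) φ) (u ω)) : ℝ))‖
      ≤ ε := by
  obtain ⟨ϱ1, hϱ10, hϱ1⟩ := bounded_face S hb
  obtain ⟨ϱ2, hϱ20, hϱ2⟩ := exists_ball hφ.cpt
  obtain ⟨Ca, hCa⟩ := S.bdd
  have hCa0 : 0 ≤ Ca := (norm_nonneg _).trans (hCa 0)
  set A := ϱ1 + ϱ2 + Ca with hA
  have hApos : 0 < A := by positivity
  -- distance of the support to the complement
  obtain ⟨η, hη, hηK⟩ := hφ.cpt.isCompact.exists_cthickening_subset_open hΩ hφ.sub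
  have hKc : IsCompact (Metric.cthickening η (tsupport φ)) := hφ.cpt.isCompact.cthickening
  obtain ⟨C1, hC10, hC1⟩ := isBump_phin hφ.smooth hφ.cpt (A := A + 1) (by positivity)
  set C0 := max C1 (2 * (A + 1) / η) with hC0
  obtain ⟨c, hc, C, hC⟩ := hJ k (Real.sqrt (Real.pi / 2)) C0
  -- the sizes
  set R : ℕ → ℕ := fun n => ⌈A / S.δ n⌉₊ with hR
  have hRtop : Tendsto (fun n => (R n : ℝ)) atTop atTop := by
    have h1 : Tendsto (fun n => A / S.δ n) atTop atTop := by
      have h2 : Tendsto (fun n => (S.δ n)⁻¹) atTop atTop :=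
        tendsto_inv_nhdsGT_zero.comp (tendsto_nhdsWithin_iff.2 ⟨S.mesh,
          Eventually.of_forall (fun n => S.pos n)⟩)
      exact h2.const_mul_atTop hApos
    exact tendsto_atTop_mono (fun n => Nat.le_ceil _) h1
  have hlim : Tendsto (fun n => C * (R n : ℝ) ^ (-c)) atTop (𝓝 0) := by
    have := ((tendsto_rpow_neg_atTop hc).comp hRtop).const_mul C
    simpa using this
  have hd1 : ∀ᶠ n in atTop, S.δ n < min 1 A := (tendsto_order.1 S.mesh).2 _ (by positivity)
  filter_upwards [hϱ1, (tendsto_order.1 hlim).2 ε hε, hd1, S.cara₁ _ hηK hKc]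
    with n hface hCε hdn hcar u u' hu hu' F hF hFm
  have hd := S.pos n
  have hdA : S.δ n < A := hdn.trans_le (min_le_right _ _)
  have hd1' : S.δ n < 1 := hdn.trans_le (min_le_left _ _)
  have hR1 : 1 ≤ R n := by
    apply Nat.one_le_iff_ne_zero.2
    have : 0 < A / S.δ n := by positivity
    exact (Nat.ceil_pos.2 this).ne'
  have hRge : A / S.δ n ≤ R n := Nat.le_ceil _
  have hRle : S.δ n * R n ≤ A + 1 := by
    have h1 := (Nat.ceil_lt_add_one (a := A / S.δ n) (by positivity)).le
    calc S.δ n * R n ≤ S.δ n * (A / S.δ n + 1) := by gcongr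
      _ = A + S.δ n := by field_simp
      _ ≤ A + 1 := by linarith
  have hfits : Skel.Fits (S.T n) (R n) := by
    intro y hy
    have h1 := hface y hy _ (pos_mem_sqr _ _)
    apply mem_box_of_pos hd hRge
    have := hCa n
    linarith
  have hbump1 := hC1 (S.δ n) (S.a n) (R n) hd hR1 hRle (by
    intro y hy
    have h1 := hϱ2 _ hy
    apply mem_box_of_pos hd hRge
    have := hCa n
    linarith)
  have hbump : IsBump (0, 0) (R n) (C0 / (R n : ℝ) ^ 2) (phin (S.δ n) (S.a n) φ) := by
    refine ⟨hbump1.1, fun i j hij y => (hbump1.2 i j hij y).trans ?_⟩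
    gcongr
    exact le_max_left _ _
  have hfar : ∀ y, phin (S.δ n) (S.a n) φ y ≠ 0 → (R n : ℝ) ≤ C0 * dF (S.T n).faceSet y := by
    intro y hy
    have hy0 : φ (pos (S.δ n) (S.a n) y) ≠ 0 := right_ne_zero_of_mul hy
    obtain ⟨q, hq, hqd⟩ := G45.exists_dF (G45.exists_notMem (A1.faceSet_finite (S.T n))) y
    have h2 : η < ‖pos (S.δ n) (S.a n) q - pos (S.δ n) (S.a n) y‖ := by
      by_contra hcon
      push Not at hcon
      have h3 : pos (S.δ n) (S.a n) q ∈ Metric.cthickening η (tsupport φ) := by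
        apply Metric.mem_cthickening_of_dist_le _ (pos (S.δ n) (S.a n) y) η _
          (subset_tsupport φ hy0)
        rw [dist_eq_norm]
        exact hcon
      have h4 := (KConn.mem_interior_region_iff hd).1 (hcar h3) q (pos_mem_sqr _ _)
      exact hq h4
    have h5 := norm_pos_le hd (S.a n) y q
    have h6 : ((dinf y q : ℤ) : ℝ) = (dF (S.T n).faceSet y : ℝ) := by
      rw [← hqd]
      unfold dn
      have h7 := dinf_nonneg y q
      have h8 : (((dinf y q).toNat : ℕ) : ℤ) = dinf y q := Int.toNat_of_nonneg h7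
      exact_mod_cast h8.symm
    rw [h6] at h5
    have h9 : η < 2 * S.δ n * (dF (S.T n).faceSet y : ℝ) := h2.trans_le h5
    have h10 : 2 * (A + 1) / η ≤ C0 := le_max_right _ _
    have h11 : (R n : ℝ) ≤ (A + 1) / S.δ n := by
      rw [le_div_iff₀ hd]
      linarith
    calc (R n : ℝ) ≤ (A + 1) / S.δ n := h11
      _ ≤ 2 * (A + 1) / η * (dF (S.T n).faceSet y : ℝ) := by
          rw [div_mul_eq_mul_div, div_le_div_iff₀ hd hη]
          nlinarith
      _ ≤ C0 * dF (S.T n).faceSet y := by gcongr
  have key := hC (R n) (S.T n) (phin (S.δ n) (S.a n) φ) hR1 hfits hbump hfar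
    (Real.sqrt (Real.pi / 2)) (by rw [abs_of_nonneg (Real.sqrt_nonneg _)]) u u' hu hu' F hF hFm
  have hθ : -(Real.sqrt (Real.pi / 2)) ^ 2 / Real.pi = -(1 / 2) := by
    rw [Real.sq_sqrt (by positivity)]
    field_simp
  rw [hθ] at key
  exact key.trans hCε.le

end

end Vale.Agent.P155.K
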