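import Vale.Agent.P155.FinalStmt
import Vale.Agent.P155.A.InLoop
import Vale.Agent.P155.L.Nest

/-!
# P155, block K: the gaskets are connected
-/

namespace Vale.Agent.P155.KConn

open LatCycle Relation

/-! ### grid coordinates -/

/-- grid coordinates of a point of the plane -/
noncomputable def gx (δ : ℝ) (a z : ℂ) : ℝ := (z.re - a.re) / δ
/-- grid coordinates of a point of the plane -/
noncomputable def gy (δ : ℝ) (a z : ℂ) : ℝ := (z.im - a.im) / δ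

/-- the point with given grid coordinates -/
noncomputable def pt (δ : ℝ) (a : ℂ) (x y : ℝ) : ℂ := ⟨a.re + δ * x, a.im + δ * y⟩

variable {δ : ℝ} {a : ℂ}

theorem gx_pt (hδ : 0 < δ) (x y : ℝ) : gx δ a (pt δ a x y) = x := by
  unfold gx pt; simp only; field_simp; ring

theorem gy_pt (hδ : 0 < δ) (x y : ℝ) : gy δ a (pt δ a x y) = y := by
  unfold gy pt; simp only; field_simp; ring

theorem pt_g (hδ : 0 < δ) (z : ℂ) : pt δ a (gx δ a z) (gy δ a z) = z := by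
  unfold gx gy pt
  apply Complex.ext
  · simp only; field_simp; ring
  · simp only; field_simp; ring

theorem gx_cont : Continuous (gx δ a) := by unfold gx; fun_prop
theorem gy_cont : Continuous (gy δ a) := by unfold gy; fun_prop

theorem pt_eq (x y : ℝ) : pt δ a x y = a + δ * ((x : ℝ) + (y : ℝ) * Complex.I) := by
  apply Complex.ext <;> simp [pt]

theorem pt_cont : Continuous (fun p : ℝ × ℝ => pt δ a p.1 p.2) := by
  simp only [pt_eq]; fun_prop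

theorem mem_sqr (hδ : 0 < δ) {z : ℂ} {f : Pt} : z ∈ sqr δ a f ↔
    (f.1 : ℝ) ≤ gx δ a z ∧ gx δ a z ≤ f.1 + 1 ∧ (f.2 : ℝ) ≤ gy δ a z ∧ gy δ a z ≤ f.2 + 1 := by
  constructor
  · rintro ⟨s, t, h1, h2, h3, h4, rfl⟩
    have e : a + δ * ((((f.1 : ℝ) + s : ℝ) : ℂ) + (((f.2 : ℝ) + t : ℝ) : ℂ) * Complex.I) =
        pt δ a ((f.1 : ℝ) + s) ((f.2 : ℝ) + t) := (pt_eq _ _).symm
    rw [e, gx_pt hδ, gy_pt hδ]
    refine ⟨by linarith, by linarith, by linarith, by linarith⟩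
  · rintro ⟨h1, h2, h3, h4⟩
    refine ⟨gx δ a z - f.1, gy δ a z - f.2, by linarith, by linarith, by linarith, by linarith, ?_⟩
    have e := pt_eq (δ := δ) (a := a) ((f.1 : ℝ) + (gx δ a z - f.1)) ((f.2 : ℝ) + (gy δ a z - f.2))
    rw [← e, add_sub_cancel, add_sub_cancel, pt_g hδ]

theorem rect_conn (hδ : 0 < δ) {x1 x2 y1 y2 : ℝ} (hx : x1 ≤ x2) (hy : y1 ≤ y2) :
    IsConnected {z | x1 ≤ gx δ a z ∧ gx δ a z ≤ x2 ∧ y1 ≤ gy δ a z ∧ gy δ a z ≤ y2} := by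
  have : {z | x1 ≤ gx δ a z ∧ gx δ a z ≤ x2 ∧ y1 ≤ gy δ a z ∧ gy δ a z ≤ y2} =
      (fun p : ℝ × ℝ => pt δ a p.1 p.2) '' (Set.Icc x1 x2 ×ˢ Set.Icc y1 y2) := by
    ext z
    constructor
    · rintro ⟨h1, h2, h3, h4⟩
      exact ⟨(gx δ a z, gy δ a z), ⟨⟨h1, h2⟩, ⟨h3, h4⟩⟩, pt_g hδ z⟩
    · rintro ⟨⟨x, y⟩, ⟨⟨h1, h2⟩, ⟨h3, h4⟩⟩, rfl⟩
      simp only [Set.mem_ofPred_eq, gx_pt hδ, gy_pt hδ]
      exact ⟨h1, h2, h3, h4⟩
  rw [this]
  exact ((isConnected_Icc hx).prod (isConnected_Icc hy)).image _ pt_cont.continuousOn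

theorem sqr_conn (hδ : 0 < δ) (f : Pt) : IsConnected (sqr δ a f) := by
  have : sqr δ a f = {z | (f.1 : ℝ) ≤ gx δ a z ∧ gx δ a z ≤ f.1 + 1 ∧ (f.2 : ℝ) ≤ gy δ a z ∧
      gy δ a z ≤ f.2 + 1} := by
    ext z; exact mem_sqr hδ
  rw [this]
  exact rect_conn hδ (by linarith) (by linarith)

theorem sqr_adj (hδ : 0 < δ) {f g : Pt} (h : Adj f g) :
    (sqr δ a f ∩ sqr δ a g).Nonempty := by
  rcases adj_cases h with rfl | rfl | rfl | rfl
  · refine ⟨pt δ a (f.1 + 1) f.2, ?_, ?_⟩ <;> rw [mem_sqr hδ, gx_pt hδ, gy_pt hδ] <;> push_cast <;>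
      refine ⟨?_, ?_, ?_, ?_⟩ <;> linarith
  · refine ⟨pt δ a f.1 f.2, ?_, ?_⟩ <;> rw [mem_sqr hδ, gx_pt hδ, gy_pt hδ] <;> push_cast <;>
      refine ⟨?_, ?_, ?_, ?_⟩ <;> linarith
  · refine ⟨pt δ a f.1 (f.2 + 1), ?_, ?_⟩ <;> rw [mem_sqr hδ, gx_pt hδ, gy_pt hδ] <;> push_cast <;>
      refine ⟨?_, ?_, ?_, ?_⟩ <;> linarith
  · refine ⟨pt δ a f.1 f.2, ?_, ?_⟩ <;> rw [mem_sqr hδ, gx_pt hδ, gy_pt hδ] <;> push_cast <;>
      refine ⟨?_, ?_, ?_, ?_⟩ <;> linarith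

/-- two closed squares which meet are at distance at most one -/
theorem close_of_meet (hδ : 0 < δ) {f g : Pt} {z : ℂ} (hf : z ∈ sqr δ a f) (hg : z ∈ sqr δ a g) :
    f.1 ≤ g.1 + 1 ∧ g.1 ≤ f.1 + 1 ∧ f.2 ≤ g.2 + 1 ∧ g.2 ≤ f.2 + 1 := by
  rw [mem_sqr hδ] at hf hg
  obtain ⟨a1, a2, a3, a4⟩ := hf
  obtain ⟨b1, b2, b3, b4⟩ := hg
  refine ⟨?_, ?_, ?_, ?_⟩
  · exact_mod_cast (a1.trans b2)
  · exact_mod_cast (b1.trans a2)
  · exact_mod_cast (a3.trans b4)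
  · exact_mod_cast (b3.trans a4)

/-- a common corner of two faces whose closed squares meet -/
theorem common_corner (hδ : 0 < δ) {f g : Pt} {z : ℂ} (hf : z ∈ sqr δ a f)
    (hg : z ∈ sqr δ a g) : ∃ v, corner v f ∧ corner v g := by
  obtain ⟨h1, h2, h3, h4⟩ := close_of_meet hδ hf hg
  have key : ∀ p q : ℤ, p ≤ q + 1 → q ≤ p + 1 →
      (p = max p q ∨ p = max p q - 1) ∧ (q = max p q ∨ q = max p q - 1) := by
    intro p q h5 h6; omega
  exact ⟨(max f.1 g.1, max f.2 g.2), ⟨(key _ _ h1 h2).1, (key _ _ h3 h4).1⟩,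
    ⟨(key _ _ h1 h2).2, (key _ _ h3 h4).2⟩⟩

/-! ### interiors of unions of squares -/

theorem mem_interior_region (hδ : 0 < δ) {S : Set Pt} {z : ℂ}
    (h : ∀ g, z ∈ sqr δ a g → g ∈ S) : z ∈ interior (region δ a S) := by
  rw [mem_interior]
  refine ⟨{w | ((⌈gx δ a z⌉ : ℝ) - 1 < gx δ a w ∧ gx δ a w < ⌊gx δ a z⌋ + 1) ∧
    ((⌈gy δ a z⌉ : ℝ) - 1 < gy δ a w ∧ gy δ a w < ⌊gy δ a z⌋ + 1)}, ?_, ?_, ?_⟩
  · rintro w ⟨⟨h1, h2⟩, ⟨h3, h4⟩⟩
    have key : ∀ x y : ℝ, (⌈x⌉ : ℝ) - 1 < y → y < ⌊x⌋ + 1 → (⌊y⌋ : ℝ) ≤ x ∧ x ≤ ⌊y⌋ + 1 := by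
      intro x y h1 h2
      constructor
      · have h5 : ⌊y⌋ < ⌊x⌋ + 1 := Int.floor_lt.2 (by push_cast; exact h2)
        have h6 : ⌊y⌋ ≤ ⌊x⌋ := by omega
        exact (Int.cast_le.2 h6).trans (Int.floor_le x)
      · have h5 : ⌈x⌉ - 1 ≤ ⌊y⌋ := Int.le_floor.2 (by push_cast; exact h1.le)
        have h6 : (⌈x⌉ : ℝ) ≤ ⌊y⌋ + 1 := by exact_mod_cast (by omega : ⌈x⌉ ≤ ⌊y⌋ + 1)
        exact (Int.le_ceil x).trans h6
    obtain ⟨k1, k2⟩ := key _ _ h1 h2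
    obtain ⟨k3, k4⟩ := key _ _ h3 h4
    unfold region
    rw [Set.mem_iUnion₂]
    refine ⟨(⌊gx δ a w⌋, ⌊gy δ a w⌋), h _ ?_, ?_⟩
    · rw [mem_sqr hδ]; exact ⟨k1, k2, k3, k4⟩
    · rw [mem_sqr hδ]
      exact ⟨Int.floor_le _, (Int.lt_floor_add_one _).le, Int.floor_le _,
        (Int.lt_floor_add_one _).le⟩
  · refine IsOpen.inter (IsOpen.inter ?_ ?_) (IsOpen.inter ?_ ?_)
    · exact isOpen_lt continuous_const gx_cont
    · exact isOpen_lt gx_cont continuous_const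
    · exact isOpen_lt continuous_const gy_cont
    · exact isOpen_lt gy_cont continuous_const
  · refine ⟨⟨?_, ?_⟩, ⟨?_, ?_⟩⟩
    · have := Int.ceil_lt_add_one (gx δ a z); linarith
    · exact Int.lt_floor_add_one _
    · have := Int.ceil_lt_add_one (gy δ a z); linarith
    · exact Int.lt_floor_add_one _

theorem notMem_interior_region (hδ : 0 < δ) {S : Set Pt} {f : Pt} (hf : f ∉ S) {z : ℂ}
    (hz : z ∈ sqr δ a f) : z ∉ interior (region δ a S) := by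
  intro h
  rw [mem_sqr hδ] at hz
  obtain ⟨z1, z2, z3, z4⟩ := hz
  let w : ℝ → ℂ := fun t => pt δ a (gx δ a z + t * (f.1 + 1 / 2 - gx δ a z))
    (gy δ a z + t * (f.2 + 1 / 2 - gy δ a z))
  have hw : Continuous w := by
    have : Continuous (fun t : ℝ => ((gx δ a z + t * (f.1 + 1 / 2 - gx δ a z),
      gy δ a z + t * (f.2 + 1 / 2 - gy δ a z)) : ℝ × ℝ)) := by fun_prop
    exact pt_cont.comp this
  have hw0 : w 0 = z := by simp only [w, zero_mul, add_zero]; exact pt_g hδ z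
  have hopen : IsOpen (w ⁻¹' interior (region δ a S)) := isOpen_interior.preimage hw
  have h0 : (0 : ℝ) ∈ w ⁻¹' interior (region δ a S) := by
    rw [Set.mem_preimage, hw0]; exact h
  obtain ⟨ε, hε, hball⟩ := Metric.isOpen_iff.1 hopen 0 h0
  have ht0 : 0 < min (ε / 2) (1 / 2) := lt_min (by linarith) (by norm_num)
  have htmem : w (min (ε / 2) (1 / 2)) ∈ interior (region δ a S) := by
    apply hball
    rw [Metric.mem_ball, Real.dist_eq, sub_zero, abs_of_pos ht0]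
    exact (min_le_left _ _).trans_lt (by linarith)
  have ht1 : min (ε / 2) (1 / 2) ≤ 1 / 2 := min_le_right _ _
  generalize min (ε / 2) (1 / 2) = t at ht0 htmem ht1
  have h1 := interior_subset htmem
  unfold region at h1
  rw [Set.mem_iUnion₂] at h1
  obtain ⟨g, hg, hwg⟩ := h1
  rw [mem_sqr hδ] at hwg
  simp only [w, gx_pt hδ, gy_pt hδ] at hwg
  obtain ⟨g1, g2, g3, g4⟩ := hwg
  have a1 : (f.1 : ℝ) < gx δ a z + t * (f.1 + 1 / 2 - gx δ a z) := by nlinarith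
  have a2 : gx δ a z + t * (f.1 + 1 / 2 - gx δ a z) < f.1 + 1 := by nlinarith
  have a3 : (f.2 : ℝ) < gy δ a z + t * (f.2 + 1 / 2 - gy δ a z) := by nlinarith
  have a4 : gy δ a z + t * (f.2 + 1 / 2 - gy δ a z) < f.2 + 1 := by nlinarith
  have b1 : f.1 < g.1 + 1 := by exact_mod_cast a1.trans_le g2
  have b2 : g.1 < f.1 + 1 := by exact_mod_cast g1.trans_lt a2
  have b3 : f.2 < g.2 + 1 := by exact_mod_cast a3.trans_le g4
  have b4 : g.2 < f.2 + 1 := by exact_mod_cast g3.trans_lt a4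
  have : g = f := Prod.ext (by omega) (by omega)
  exact hf (this ▸ hg)

theorem mem_interior_region_iff (hδ : 0 < δ) {S : Set Pt} {z : ℂ} :
    z ∈ interior (region δ a S) ↔ ∀ g, z ∈ sqr δ a g → g ∈ S := by
  constructor
  · intro h g hg
    by_contra hS
    exact notMem_interior_region hδ hS hg h
  · exact mem_interior_region hδ

/-! ### the abstract connectedness lemma -/

/-- the boundary of a union of squares -/
def bd (δ : ℝ) (a : ℂ) (S : Set Pt) : Set ℂ :=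
  {z | ∃ f g, f ∈ S ∧ g ∉ S ∧ z ∈ sqr δ a f ∧ z ∈ sqr δ a g}

theorem conn_abstract (hδ : 0 < δ) {F0 : Set Pt} {ι : Type*} {J : Set ι} {S : ι → Set Pt}
    (hne : F0.Nonempty)
    (hF : ∀ f ∈ F0, ∀ g ∈ F0, ReflTransGen (fun p q => Adj p q ∧ p ∈ F0 ∧ q ∈ F0) f g)
    (hS : ∀ j ∈ J, S j ⊆ F0) (hB : ∀ j ∈ J, IsConnected (bd δ a (S j)))
    (hT : ∀ j ∈ J, ∀ j' ∈ J, ∀ f ∈ S j, ∀ g ∈ S j', (sqr δ a f ∩ sqr δ a g).Nonempty →
      S j = S j') :
    IsConnected (region δ a F0 \ interior (region δ a (⋃ j ∈ J, S j))) := by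
  classical
  have hTT : ∀ j ∈ J, ∀ j' ∈ J, ∀ f, f ∈ S j → f ∈ S j' → S j = S j' := by
    intro j hj j' hj' f hf hf'
    obtain ⟨z, hz⟩ := (sqr_conn (a := a) hδ f).nonempty
    exact hT j hj j' hj' f hf f hf' ⟨z, hz, hz⟩
  let Q : Pt → Set ℂ := fun f => if f ∈ ⋃ j ∈ J, S j then
    ⋃ j ∈ {j | j ∈ J ∧ f ∈ S j}, bd δ a (S j) else sqr δ a f
  have hQ0 : ∀ f, f ∉ (⋃ j ∈ J, S j) → Q f = sqr δ a f := fun f hf => if_neg hf
  have hQ1 : ∀ f j, j ∈ J → f ∈ S j → Q f = bd δ a (S j) := by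
    intro f j hj hf
    have hm : f ∈ ⋃ j ∈ J, S j := Set.mem_iUnion₂.2 ⟨j, hj, hf⟩
    simp only [Q]
    rw [if_pos hm]
    apply Set.Subset.antisymm
    · intro z hz
      rw [Set.mem_iUnion₂] at hz
      obtain ⟨j', hj', hz⟩ := hz
      rwa [hTT j hj j' hj'.1 f hf hj'.2]
    · intro z hz
      exact Set.mem_iUnion₂.2 ⟨j, ⟨hj, hf⟩, hz⟩
  have hcases : ∀ f, f ∉ (⋃ j ∈ J, S j) ∨ ∃ j ∈ J, f ∈ S j := by
    intro f
    by_cases h : f ∈ ⋃ j ∈ J, S j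
    · rw [Set.mem_iUnion₂] at h
      obtain ⟨j, hj, hf⟩ := h
      exact Or.inr ⟨j, hj, hf⟩
    · exact Or.inl h
  have hconn : IsConnected (⋃ f ∈ F0, Q f) := by
    refine IsConnected.biUnion_of_reflTransGen hne ?_ ?_
    · intro f hf
      rcases hcases f with h | ⟨j, hj, h⟩
      · rw [hQ0 f h]; exact sqr_conn hδ f
      · rw [hQ1 f j hj h]; exact hB j hj
    · intro f hf g hg
      refine ReflTransGen.mono ?_ f g (hF f hf g hg)
      rintro p q ⟨hadj, hp, hq⟩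
      refine ⟨?_, hp⟩
      obtain ⟨z, hz1, hz2⟩ := sqr_adj (a := a) hδ hadj
      rcases hcases p with h | ⟨j, hj, h⟩ <;> rcases hcases q with h' | ⟨j', hj', h'⟩
      · rw [hQ0 p h, hQ0 q h']; exact ⟨z, hz1, hz2⟩
      · rw [hQ0 p h, hQ1 q j' hj' h']
        refine ⟨z, hz1, q, p, h', ?_, hz2, hz1⟩
        exact fun hc => h (Set.mem_iUnion₂.2 ⟨j', hj', hc⟩)
      · rw [hQ1 p j hj h, hQ0 q h']
        refine ⟨z, ⟨p, q, h, ?_, hz1, hz2⟩, hz2⟩
        exact fun hc => h' (Set.mem_iUnion₂.2 ⟨j, hj, hc⟩)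
      · have e := hT j hj j' hj' p h q h' ⟨z, hz1, hz2⟩
        rw [hQ1 p j hj h, hQ1 q j' hj' h', e, Set.inter_self]
        exact (hB j' hj').nonempty
  have heq : region δ a F0 \ interior (region δ a (⋃ j ∈ J, S j)) = ⋃ f ∈ F0, Q f := by
    apply Set.Subset.antisymm
    · rintro z ⟨hz1, hz2⟩
      rw [mem_interior_region_iff hδ] at hz2
      push Not at hz2
      obtain ⟨g, hg, hgS⟩ := hz2
      unfold region at hz1
      rw [Set.mem_iUnion₂] at hz1 ⊢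
      obtain ⟨f, hf, hzf⟩ := hz1
      refine ⟨f, hf, ?_⟩
      rcases hcases f with h | ⟨j, hj, h⟩
      · rw [hQ0 f h]; exact hzf
      · rw [hQ1 f j hj h]
        exact ⟨f, g, h, fun hc => hgS (Set.mem_iUnion₂.2 ⟨j, hj, hc⟩), hzf, hg⟩
    · intro z hz
      rw [Set.mem_iUnion₂] at hz
      obtain ⟨f, hf, hz⟩ := hz
      rcases hcases f with h | ⟨j, hj, h⟩
      · rw [hQ0 f h] at hz
        refine ⟨Set.mem_iUnion₂.2 ⟨f, hf, hz⟩, notMem_interior_region hδ h hz⟩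
      · rw [hQ1 f j hj h] at hz
        obtain ⟨f', g', h1, h2, h3, h4⟩ := hz
        refine ⟨Set.mem_iUnion₂.2 ⟨f', hS j hj h1, h3⟩, ?_⟩
        refine notMem_interior_region hδ (f := g') ?_ h4
        intro hc
        rw [Set.mem_iUnion₂] at hc
        obtain ⟨j', hj', hc⟩ := hc
        have e := hT j hj j' hj' f' h1 g' hc ⟨z, h3, h4⟩
        exact h2 (e ▸ hc)
  rw [heq]
  exact hconn

/-! ### the boundary curve of a cycle is connected -/

/-- the closed edge `{u,v}` -/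
def seg (δ : ℝ) (a : ℂ) (u v : Pt) : Set ℂ :=
  {z | ((min u.1 v.1 : ℤ) : ℝ) ≤ gx δ a z ∧ gx δ a z ≤ ((max u.1 v.1 : ℤ) : ℝ) ∧
    ((min u.2 v.2 : ℤ) : ℝ) ≤ gy δ a z ∧ gy δ a z ≤ ((max u.2 v.2 : ℤ) : ℝ)}

theorem seg_conn (hδ : 0 < δ) (u v : Pt) : IsConnected (seg δ a u v) :=
  rect_conn hδ (by exact_mod_cast min_le_max) (by exact_mod_cast min_le_max)

theorem seg_sub_sqr (hδ : 0 < δ) {u v F : Pt} (h : side u v F) : seg δ a u v ⊆ sqr δ a F := by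
  obtain ⟨⟨h1, h2⟩, ⟨h3, h4⟩⟩ := h
  rintro z ⟨z1, z2, z3, z4⟩
  rw [mem_sqr hδ]
  refine ⟨?_, ?_, ?_, ?_⟩
  · refine le_trans ?_ z1
    exact_mod_cast (by omega : F.1 ≤ min u.1 v.1)
  · refine z2.trans ?_
    exact_mod_cast (by omega : max u.1 v.1 ≤ F.1 + 1)
  · refine le_trans ?_ z3
    exact_mod_cast (by omega : F.2 ≤ min u.2 v.2)
  · refine z4.trans ?_
    exact_mod_cast (by omega : max u.2 v.2 ≤ F.2 + 1)

theorem vert_mem_seg_left (hδ : 0 < δ) (u v : Pt) : pt δ a u.1 u.2 ∈ seg δ a u v := by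
  unfold seg
  simp only [Set.mem_ofPred_eq, gx_pt hδ, gy_pt hδ]
  refine ⟨?_, ?_, ?_, ?_⟩
  · exact_mod_cast min_le_left _ _
  · exact_mod_cast le_max_left _ _
  · exact_mod_cast min_le_left _ _
  · exact_mod_cast le_max_left _ _

theorem vert_mem_seg_right (hδ : 0 < δ) (u v : Pt) : pt δ a v.1 v.2 ∈ seg δ a u v := by
  unfold seg
  simp only [Set.mem_ofPred_eq, gx_pt hδ, gy_pt hδ]
  refine ⟨?_, ?_, ?_, ?_⟩
  · exact_mod_cast min_le_right _ _
  · exact_mod_cast le_max_right _ _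
  · exact_mod_cast min_le_right _ _
  · exact_mod_cast le_max_right _ _

/-- the common edge of two adjacent squares is their intersection -/
theorem mem_seg_of_adj (hδ : 0 < δ) {u v f g : Pt} (huv : Adj u v) (hfg : Adj f g)
    (hf : side u v f) (hg : side u v g) {z : ℂ} (z1 : z ∈ sqr δ a f) (z2 : z ∈ sqr δ a g) :
    z ∈ seg δ a u v := by
  rw [mem_sqr hδ] at z1 z2
  obtain ⟨p1, p2, p3, p4⟩ := z1
  obtain ⟨q1, q2, q3, q4⟩ := z2
  obtain ⟨⟨f1, f2⟩, ⟨f3, f4⟩⟩ := hf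
  obtain ⟨⟨g1, g2⟩, ⟨g3, g4⟩⟩ := hg
  have A : min u.1 v.1 ≤ max f.1 g.1 ∧ min f.1 g.1 + 1 ≤ max u.1 v.1 ∧
      min u.2 v.2 ≤ max f.2 g.2 ∧ min f.2 g.2 + 1 ≤ max u.2 v.2 := by
    rcases adj_cases hfg with h | h | h | h <;> have e1 := congrArg Prod.fst h <;>
      have e2 := congrArg Prod.snd h <;> simp only at e1 e2 <;>
      rcases adj_cases huv with h' | h' | h' | h' <;> have e3 := congrArg Prod.fst h' <;>
      have e4 := congrArg Prod.snd h' <;> simp only at e3 e4 <;> omega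
  obtain ⟨A1, A2, A3, A4⟩ := A
  have m1 : ((max f.1 g.1 : ℤ) : ℝ) ≤ gx δ a z := by push_cast; exact max_le p1 q1
  have m2 : gx δ a z ≤ ((min f.1 g.1 + 1 : ℤ) : ℝ) := by
    push_cast; rw [← min_add_add_right]; exact le_min p2 q2
  have m3 : ((max f.2 g.2 : ℤ) : ℝ) ≤ gy δ a z := by push_cast; exact max_le p3 q3
  have m4 : gy δ a z ≤ ((min f.2 g.2 + 1 : ℤ) : ℝ) := by
    push_cast; rw [← min_add_add_right]; exact le_min p4 q4
  exact ⟨(Int.cast_le.2 A1).trans m1, m2.trans (Int.cast_le.2 A2), (Int.cast_le.2 A3).trans m3,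
    m4.trans (Int.cast_le.2 A4)⟩

theorem bd_eq_curve (hδ : 0 < δ) (γ : LatCycle) :
    bd δ a {f | γ.inside f} = ⋃ i, seg δ a (γ.c i) (γ.c (i + 1)) := by
  apply Set.Subset.antisymm
  · rintro z ⟨f, g, hf, hg, zf, zg⟩
    have hf : γ.inside f := hf
    have hg : ¬ γ.inside g := hg
    rw [Set.mem_iUnion]
    obtain ⟨h1, h2, h3, h4⟩ := close_of_meet hδ zf zg
    by_cases hadj : Adj f g
    · obtain ⟨u, v, he, hs1, hs2⟩ := common_edge hadj hf hg
      have hz := mem_seg_of_adj hδ he.adj hadj hs1 hs2 zf zg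
      obtain ⟨i, ⟨e1, e2⟩ | ⟨e1, e2⟩⟩ := he
      · exact ⟨i, by rw [e1, e2]; exact hz⟩
      · refine ⟨i, ?_⟩
        rw [e1, e2]
        unfold seg at hz ⊢
        rw [min_comm v.1, max_comm v.1, min_comm v.2, max_comm v.2]
        exact hz
    · have hne : f ≠ g := by rintro rfl; exact hg hf
      -- diagonal position
      have hd : (f.1 = g.1 + 1 ∨ g.1 = f.1 + 1) ∧ (f.2 = g.2 + 1 ∨ g.2 = f.2 + 1) := by
        by_contra hcon
        by_cases e1 : f.1 = g.1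
        · have e2 : f.2 ≠ g.2 := fun e2 => hne (Prod.ext e1 e2)
          apply hadj
          unfold Adj
          rw [e1, sub_self, abs_zero, zero_add]
          rcases abs_cases (f.2 - g.2) with ⟨h5, _⟩ | ⟨h5, _⟩ <;> omega
        · by_cases e2 : f.2 = g.2
          · apply hadj
            unfold Adj
            rw [e2, sub_self, abs_zero, add_zero]
            rcases abs_cases (f.1 - g.1) with ⟨h5, _⟩ | ⟨h5, _⟩ <;> omega
          · apply hcon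
            omega
      obtain ⟨v, cv1, cv2⟩ := common_corner hδ zf zg
      have hv : v ∈ γ.verts := by
        by_contra hv
        have e1 := inside_corner hv cv1
        have e2 := inside_corner hv cv2
        exact hg (e2.2 (e1.1 hf))
      obtain ⟨i, hi⟩ := hv
      refine ⟨i, ?_⟩
      have hzv : z = pt δ a v.1 v.2 := by
        rw [mem_sqr hδ] at zf zg
        obtain ⟨p1, p2, p3, p4⟩ := zf
        obtain ⟨q1, q2, q3, q4⟩ := zg
        obtain ⟨c1, c2⟩ := cv1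
        obtain ⟨c3, c4⟩ := cv2
        have ex : gx δ a z = v.1 := by
          have : (v.1 = f.1 ∧ f.1 = g.1 + 1) ∨ (v.1 = g.1 ∧ g.1 = f.1 + 1) := by omega
          rcases this with ⟨e1, e2⟩ | ⟨e1, e2⟩
          · have e3 : (v.1 : ℝ) = f.1 := by exact_mod_cast e1
            have e4 : (f.1 : ℝ) = g.1 + 1 := by exact_mod_cast e2
            linarith
          · have e3 : (v.1 : ℝ) = g.1 := by exact_mod_cast e1
            have e4 : (g.1 : ℝ) = f.1 + 1 := by exact_mod_cast e2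
            linarith
        have ey : gy δ a z = v.2 := by
          have : (v.2 = f.2 ∧ f.2 = g.2 + 1) ∨ (v.2 = g.2 ∧ g.2 = f.2 + 1) := by omega
          rcases this with ⟨e1, e2⟩ | ⟨e1, e2⟩
          · have e3 : (v.2 : ℝ) = f.2 := by exact_mod_cast e1
            have e4 : (f.2 : ℝ) = g.2 + 1 := by exact_mod_cast e2
            linarith
          · have e3 : (v.2 : ℝ) = g.2 := by exact_mod_cast e1
            have e4 : (g.2 : ℝ) = f.2 + 1 := by exact_mod_cast e2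
            linarith
        rw [← ex, ← ey, pt_g hδ]
      rw [hzv, ← hi]
      exact vert_mem_seg_left hδ _ _
  · intro z hz
    rw [Set.mem_iUnion] at hz
    obtain ⟨i, hz⟩ := hz
    obtain ⟨F, hF, hF'⟩ := edge_inside (γ := γ) i
    obtain ⟨G, hG, hG'⟩ := edge_outside (γ := γ) i
    exact ⟨F, G, hF', hG', seg_sub_sqr hδ hF hz, seg_sub_sqr hδ hG hz⟩

theorem bd_conn (hδ : 0 < δ) (γ : LatCycle) : IsConnected (bd δ a {f | γ.inside f}) := by
  rw [bd_eq_curve hδ]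
  refine IsConnected.iUnion_of_reflTransGen (fun i => seg_conn hδ _ _) ?_
  intro i j
  have key : ∀ k : ℕ, ReflTransGen (fun i j : ZMod γ.n =>
      (seg δ a (γ.c i) (γ.c (i + 1)) ∩ seg δ a (γ.c j) (γ.c (j + 1))).Nonempty) i (i + k) := by
    intro k
    induction k with
    | zero => simpa using ReflTransGen.refl
    | succ k ih =>
      refine ih.tail ?_
      refine ⟨pt δ a (γ.c (i + k + 1)).1 (γ.c (i + k + 1)).2, vert_mem_seg_right hδ _ _, ?_⟩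
      have e : i + ((k + 1 : ℕ) : ZMod γ.n) = i + k + 1 := by push_cast; ring
      rw [e]
      exact vert_mem_seg_left hδ _ _
  have := key (j - i).val
  rwa [ZMod.natCast_zmod_val, add_sub_cancel] at this

end Vale.Agent.P155.KConn
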