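import Vale.Agent.P155.K.Dir

/-!
# P155 block K: square contours
-/

namespace Vale.Agent.P155.K

open Vale.Agent.P155 Finset

/-- The values of `i` parametrising a side of the contour of radius `s`. -/
noncomputable def side (s : ℕ) : Finset ℤ := Finset.Ico (-(s : ℤ)) s

/-- total variation of `u` on the contour of radius `s` about `p` -/
noncomputable def Var (u : Pt → ℝ) (p : Pt) (s : ℕ) : ℝ :=
  (∑ i ∈ side s, |u (p.1 + i + 1, p.2 + s) - u (p.1 + i, p.2 + s)|) +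
  (∑ i ∈ side s, |u (p.1 + i + 1, p.2 - s) - u (p.1 + i, p.2 - s)|) +
  (∑ i ∈ side s, |u (p.1 + s, p.2 + i + 1) - u (p.1 + s, p.2 + i)|) +
  (∑ i ∈ side s, |u (p.1 - s, p.2 + i + 1) - u (p.1 - s, p.2 + i)|)

/-- energy of `u` on the contour of radius `s` about `p` -/
noncomputable def en (u : Pt → ℝ) (p : Pt) (s : ℕ) : ℝ :=
  (∑ i ∈ side s, (u (p.1 + i + 1, p.2 + s) - u (p.1 + i, p.2 + s)) ^ 2) +
  (∑ i ∈ side s, (u (p.1 + i + 1, p.2 - s) - u (p.1 + i, p.2 - s)) ^ 2) +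
  (∑ i ∈ side s, (u (p.1 + s, p.2 + i + 1) - u (p.1 + s, p.2 + i)) ^ 2) +
  (∑ i ∈ side s, (u (p.1 - s, p.2 + i + 1) - u (p.1 - s, p.2 + i)) ^ 2)

theorem en_nonneg (u : Pt → ℝ) (p : Pt) (s : ℕ) : 0 ≤ en u p s := by
  unfold en
  positivity

theorem card_side (s : ℕ) : (side s).card = 2 * s := by
  simp [side]
  omega

theorem sq_sum_abs_le (s : ℕ) (g : ℤ → ℝ) :
    (∑ i ∈ side s, |g i|) ^ 2 ≤ (2 * s) * ∑ i ∈ side s, (g i) ^ 2 := by
  have h := sq_sum_le_card_mul_sum_sq (s := side s) (f := fun i => |g i|)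
  rw [card_side] at h
  push_cast at h
  simpa using h

theorem Var_nonneg (u : Pt → ℝ) (p : Pt) (s : ℕ) : 0 ≤ Var u p s := by
  unfold Var
  positivity

/-- Cauchy-Schwarz on the contour. -/
theorem Var_sq_le (u : Pt → ℝ) (p : Pt) (s : ℕ) : Var u p s ^ 2 ≤ 8 * s * en u p s := by
  unfold Var en
  have h1 := sq_sum_abs_le s (fun i => u (p.1 + i + 1, p.2 + s) - u (p.1 + i, p.2 + s))
  have h2 := sq_sum_abs_le s (fun i => u (p.1 + i + 1, p.2 - s) - u (p.1 + i, p.2 - s))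
  have h3 := sq_sum_abs_le s (fun i => u (p.1 + s, p.2 + i + 1) - u (p.1 + s, p.2 + i))
  have h4 := sq_sum_abs_le s (fun i => u (p.1 - s, p.2 + i + 1) - u (p.1 - s, p.2 + i))
  set a := ∑ i ∈ side s, |u (p.1 + i + 1, p.2 + s) - u (p.1 + i, p.2 + s)|
  set b := ∑ i ∈ side s, |u (p.1 + i + 1, p.2 - s) - u (p.1 + i, p.2 - s)|
  set c := ∑ i ∈ side s, |u (p.1 + s, p.2 + i + 1) - u (p.1 + s, p.2 + i)|
  set d := ∑ i ∈ side s, |u (p.1 - s, p.2 + i + 1) - u (p.1 - s, p.2 + i)|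
  nlinarith [sq_nonneg (a - b), sq_nonneg (a - c), sq_nonneg (a - d), sq_nonneg (b - c),
    sq_nonneg (b - d), sq_nonneg (c - d)]

/-- telescoping on a segment -/
theorem seg_aux (g : ℤ → ℝ) (a : ℤ) (m : ℕ) :
    |g (a + m) - g a| ≤ ∑ i ∈ Finset.Ico a (a + m), |g (i + 1) - g i| := by
  induction m with
  | zero => simp
  | succ m ih =>
    have e : Finset.Ico a (a + (m + 1 : ℕ)) = insert (a + m) (Finset.Ico a (a + m)) := by
      ext x
      simp
      omega
    rw [e, Finset.sum_insert (by simp)]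
    have : g (a + (m + 1 : ℕ)) - g a = (g (a + m + 1) - g (a + m)) + (g (a + m) - g a) := by
      push_cast
      rw [← add_assoc]
      ring
    rw [this]
    exact (abs_add_le _ _).trans (by linarith)

theorem seg (g : ℤ → ℝ) {s : ℕ} {x y : ℤ} (hx : |x| ≤ s) (hy : |y| ≤ s) :
    |g x - g y| ≤ ∑ i ∈ side s, |g (i + 1) - g i| := by
  wlog hxy : y ≤ x generalizing x y with H
  · rw [abs_sub_comm]
    exact H hy hx (by omega)
  obtain ⟨m, hm⟩ := Int.eq_ofNat_of_zero_le (sub_nonneg.2 hxy)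
  have hx' : x = y + m := by omega
  rw [hx']
  refine (seg_aux g y m).trans ?_
  apply Finset.sum_le_sum_of_subset_of_nonneg
  · intro i hi
    simp only [side, Finset.mem_Ico] at hi ⊢
    rw [abs_le] at hx hy
    omega
  · intros
    positivity

/-- Two points of a contour: difference at most the variation. -/
theorem contour (u : Pt → ℝ) (p : Pt) (s : ℕ) {q y : Pt} (hq : dinf p q = s) (hy : dinf p y = s) :
    |u y - u q| ≤ Var u p s := by
  -- relative to the corners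
  set a := ∑ i ∈ side s, |u (p.1 + i + 1, p.2 + s) - u (p.1 + i, p.2 + s)| with ha
  set b := ∑ i ∈ side s, |u (p.1 + i + 1, p.2 - s) - u (p.1 + i, p.2 - s)| with hb
  set c := ∑ i ∈ side s, |u (p.1 + s, p.2 + i + 1) - u (p.1 + s, p.2 + i)| with hc
  set d := ∑ i ∈ side s, |u (p.1 - s, p.2 + i + 1) - u (p.1 - s, p.2 + i)| with hd
  have ha0 : 0 ≤ a := by positivity
  have hb0 : 0 ≤ b := by positivity
  have hc0 : 0 ≤ c := by positivity
  have hd0 : 0 ≤ d := by positivity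
  have hV : Var u p s = a + b + c + d := rfl
  have Ta : ∀ x y : ℤ, |x| ≤ s → |y| ≤ s →
      |u (p.1 + x, p.2 + s) - u (p.1 + y, p.2 + s)| ≤ a := by
    intro x y hx hy
    have := seg (fun i => u (p.1 + i, p.2 + s)) hx hy
    simpa only [ha, add_assoc] using this
  have Tb : ∀ x y : ℤ, |x| ≤ s → |y| ≤ s →
      |u (p.1 + x, p.2 - s) - u (p.1 + y, p.2 - s)| ≤ b := by
    intro x y hx hy
    have := seg (fun i => u (p.1 + i, p.2 - s)) hx hy
    simpa only [hb, add_assoc] using this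
  have Tc : ∀ x y : ℤ, |x| ≤ s → |y| ≤ s →
      |u (p.1 + s, p.2 + x) - u (p.1 + s, p.2 + y)| ≤ c := by
    intro x y hx hy
    have := seg (fun i => u (p.1 + s, p.2 + i)) hx hy
    simpa only [hc, add_assoc] using this
  have Td : ∀ x y : ℤ, |x| ≤ s → |y| ≤ s →
      |u (p.1 - s, p.2 + x) - u (p.1 - s, p.2 + y)| ≤ d := by
    intro x y hx hy
    have := seg (fun i => u (p.1 - s, p.2 + i)) hx hy
    simpa only [hd, add_assoc] using this
  have hs1 : |(s : ℤ)| ≤ s := by simp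
  have hs2 : |(-(s : ℤ))| ≤ s := by simp
  -- position of a point of the contour
  have pos : ∀ z : Pt, dinf p z = s → ∃ i : ℤ, |i| ≤ s ∧
      (z = (p.1 + i, p.2 + s) ∨ z = (p.1 + i, p.2 - s) ∨ z = (p.1 + s, p.2 + i) ∨
        z = (p.1 - s, p.2 + i)) := by
    rintro ⟨z1, z2⟩ hz
    simp only [dinf] at hz
    have h1 : |p.1 - z1| ≤ s := hz ▸ le_max_left _ _
    have h2 : |p.2 - z2| ≤ s := hz ▸ le_max_right _ _
    rcases max_choice |p.1 - z1| |p.2 - z2| with h | h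
    · rw [h] at hz
      refine ⟨z2 - p.2, by rwa [abs_sub_comm], ?_⟩
      rcases abs_choice (p.1 - z1) with h' | h'
      · right; right; right
        ext <;> simp
        all_goals omega
      · right; right; left
        ext <;> simp
        all_goals omega
    · rw [h] at hz
      refine ⟨z1 - p.1, by rwa [abs_sub_comm], ?_⟩
      rcases abs_choice (p.2 - z2) with h' | h'
      · right; left
        ext <;> simp
        all_goals omega
      · left
        ext <;> simp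
        all_goals omega
  obtain ⟨i, hi, hqi⟩ := pos q hq
  obtain ⟨j, hj, hyj⟩ := pos y hy
  rw [hV]
  -- normal forms of corners
  have cA : |u (p.1 + s, p.2 + s) - u (p.1 - s, p.2 + s)| ≤ a := by
    have := Ta s (-s) hs1 hs2
    simpa [sub_eq_add_neg] using this
  have a1 : ∀ x : ℤ, |x| ≤ s → |u (p.1 + x, p.2 + s) - u (p.1 + s, p.2 + s)| ≤ a :=
    fun x hx => Ta x s hx hs1
  have a2 : ∀ x : ℤ, |x| ≤ s → |u (p.1 + x, p.2 + s) - u (p.1 - s, p.2 + s)| ≤ a :=
    fun x hx => by simpa [sub_eq_add_neg] using Ta x (-s) hx hs2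
  have b1 : ∀ x : ℤ, |x| ≤ s → |u (p.1 + x, p.2 - s) - u (p.1 + s, p.2 - s)| ≤ b :=
    fun x hx => Tb x s hx hs1
  have b2 : ∀ x : ℤ, |x| ≤ s → |u (p.1 + x, p.2 - s) - u (p.1 - s, p.2 - s)| ≤ b :=
    fun x hx => by simpa [sub_eq_add_neg] using Tb x (-s) hx hs2
  have c1 : ∀ x : ℤ, |x| ≤ s → |u (p.1 + s, p.2 + x) - u (p.1 + s, p.2 + s)| ≤ c :=
    fun x hx => Tc x s hx hs1
  have c2 : ∀ x : ℤ, |x| ≤ s → |u (p.1 + s, p.2 + x) - u (p.1 + s, p.2 - s)| ≤ c :=
    fun x hx => by simpa [sub_eq_add_neg] using Tc x (-s) hx hs2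
  have d1 : ∀ x : ℤ, |x| ≤ s → |u (p.1 - s, p.2 + x) - u (p.1 - s, p.2 + s)| ≤ d :=
    fun x hx => Td x s hx hs1
  have d2 : ∀ x : ℤ, |x| ≤ s → |u (p.1 - s, p.2 + x) - u (p.1 - s, p.2 - s)| ≤ d :=
    fun x hx => by simpa [sub_eq_add_neg] using Td x (-s) hx hs2
  have A1 := abs_le.1 (a1 i hi); have A1' := abs_le.1 (a1 j hj)
  have A2 := abs_le.1 (a2 i hi); have A2' := abs_le.1 (a2 j hj)
  have B1 := abs_le.1 (b1 i hi); have B1' := abs_le.1 (b1 j hj)
  have B2 := abs_le.1 (b2 i hi); have B2' := abs_le.1 (b2 j hj)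
  have C1 := abs_le.1 (c1 i hi); have C1' := abs_le.1 (c1 j hj)
  have C2 := abs_le.1 (c2 i hi); have C2' := abs_le.1 (c2 j hj)
  have D1 := abs_le.1 (d1 i hi); have D1' := abs_le.1 (d1 j hj)
  have D2 := abs_le.1 (d2 i hi); have D2' := abs_le.1 (d2 j hj)
  have E1 := abs_le.1 cA
  have A := abs_le.1 (Ta i j hi hj)
  have B := abs_le.1 (Tb i j hi hj)
  have C := abs_le.1 (Tc i j hi hj)
  have D := abs_le.1 (Td i j hi hj)
  have F := abs_le.1 (c2 s hs1)
  rw [abs_le]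
  rcases hqi with rfl | rfl | rfl | rfl <;> rcases hyj with rfl | rfl | rfl | rfl <;>
    constructor <;> linarith


/-- The contours of radii `s ∈ S`, all positive, have total energy at most the energy of `u`. -/
theorem sum_en_le {u : Pt → ℝ} (hu : Fin0 u) (p : Pt) (S : Finset ℕ) (hS : ∀ s ∈ S, 1 ≤ s) :
    ∑ s ∈ S, en u p s ≤ energy u := by
  classical
  set g1 : Pt → ℝ := fun x => (u (x.1 + 1, x.2) - u x) ^ 2 with hg1
  set g2 : Pt → ℝ := fun x => (u (x.1, x.2 + 1) - u x) ^ 2 with hg2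
  have fg1 : Fin0 g1 := by
    have := hu.d1.mul_right (fun x => u (x.1 + 1, x.2) - u x)
    refine this.subset ?_
    intro x hx h0
    apply hx
    simp only [hg1]
    rw [sq]
    exact h0
  have fg2 : Fin0 g2 := by
    have := hu.d2.mul_right (fun x => u (x.1, x.2 + 1) - u x)
    refine this.subset ?_
    intro x hx h0
    apply hx
    simp only [hg2]
    rw [sq]
    exact h0
  have hE : energy u = ∑ᶠ x, g1 x + ∑ᶠ x, g2 x := fsum_add fg1 fg2
  -- finite sums are at most the finsum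
  have le1 : ∀ (g : Pt → ℝ), Fin0 g → (∀ x, 0 ≤ g x) → ∀ F : Finset Pt, ∑ x ∈ F, g x ≤ ∑ᶠ x, g x := by
    intro g hg h0 F
    rw [finsum_eq_sum_of_support_subset (s := F ∪ hg.toFinset) g (by
      intro x hx
      simp only [Finset.coe_union, Set.mem_union]
      exact Or.inr ((Set.Finite.mem_toFinset hg).2 hx))]
    exact Finset.sum_le_sum_of_subset_of_nonneg Finset.subset_union_left (fun x _ _ => h0 x)
  -- the four families
  have fam : ∀ (g : Pt → ℝ), (∀ x, 0 ≤ g x) → Fin0 g → ∀ (a b : ℕ → ℤ → Pt),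
      (∀ s ∈ S, ∀ i ∈ side s, ∀ s' ∈ S, ∀ i' ∈ side s', a s i = a s' i' → s = s' ∧ i = i') →
      (∀ s ∈ S, ∀ i ∈ side s, ∀ s' ∈ S, ∀ i' ∈ side s', b s i = b s' i' → s = s' ∧ i = i') →
      (∀ s ∈ S, ∀ i ∈ side s, ∀ s' ∈ S, ∀ i' ∈ side s', a s i ≠ b s' i') →
      ∑ s ∈ S, ∑ i ∈ side s, (g (a s i) + g (b s i)) ≤ ∑ᶠ x, g x := by
    intro g h0 hg a b ha hb hab
    have e1 : ∀ (c : ℕ → ℤ → Pt), (∀ s ∈ S, ∀ i ∈ side s, ∀ s' ∈ S, ∀ i' ∈ side s',
        c s i = c s' i' → s = s' ∧ i = i') →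
        ∑ s ∈ S, ∑ i ∈ side s, g (c s i) =
          ∑ x ∈ (S.sigma (fun s => side s)).image (fun t => c t.1 t.2), g x := by
      intro c hc
      rw [Finset.sum_image, Finset.sum_sigma]
      rintro ⟨s, i⟩ h ⟨s', i'⟩ h' heq
      simp only [Finset.coe_sigma, Set.mem_sigma_iff, Finset.mem_coe] at h h'
      obtain ⟨rfl, rfl⟩ := hc s h.1 i h.2 s' h'.1 i' h'.2 heq
      rfl
    simp_rw [Finset.sum_add_distrib]
    rw [e1 a ha, e1 b hb, ← Finset.sum_union]
    · exact le1 g hg h0 _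
    · rw [Finset.disjoint_left]
      intro x hx hx'
      simp only [Finset.mem_image, Finset.mem_sigma, Sigma.exists] at hx hx'
      obtain ⟨s, i, ⟨hs, hi⟩, rfl⟩ := hx
      obtain ⟨s', i', ⟨hs', hi'⟩, h⟩ := hx'
      exact hab s hs i hi s' hs' i' hi' h.symm
  have F1 := fam g1 (fun x => sq_nonneg _) fg1 (fun s i => (p.1 + i, p.2 + s))
    (fun s i => (p.1 + i, p.2 - s))
    (by intro s _ i _ s' _ i' _ h; simp only [Prod.mk.injEq] at h; omega)
    (by intro s _ i _ s' _ i' _ h; simp only [Prod.mk.injEq] at h; omega)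
    (by
      intro s hs i _ s' hs' i' _ h
      simp only [Prod.mk.injEq] at h
      have := hS s hs
      have := hS s' hs'
      omega)
  have F2 := fam g2 (fun x => sq_nonneg _) fg2 (fun s i => (p.1 + s, p.2 + i))
    (fun s i => (p.1 - s, p.2 + i))
    (by intro s _ i _ s' _ i' _ h; simp only [Prod.mk.injEq] at h; omega)
    (by intro s _ i _ s' _ i' _ h; simp only [Prod.mk.injEq] at h; omega)
    (by
      intro s hs i _ s' hs' i' _ h
      simp only [Prod.mk.injEq] at h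
      have := hS s hs
      have := hS s' hs'
      omega)
  rw [hE]
  refine le_trans (le_of_eq ?_) (add_le_add F1 F2)
  rw [← Finset.sum_add_distrib]
  refine Finset.sum_congr rfl (fun s _ => ?_)
  unfold en
  simp only [hg1, hg2, Finset.sum_add_distrib]
  ring

end Vale.Agent.P155.K
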