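import Vale.Agent.P155.K.MaxP

/-!
# P155 block K: Green energy of a logarithmic charge near a point of the complement
-/

namespace Vale.Agent.P155.K

open Vale.Agent.P155 Finset

/-- the contour as a finset -/
noncomputable def ctr (p : Pt) (s : ℕ) : Finset Pt := (box p s).filter (fun y => dinf p y = s)

theorem mem_ctr {p y : Pt} {s : ℕ} : y ∈ ctr p s ↔ dinf p y = s := by
  simp only [ctr, Finset.mem_filter, mem_box]
  omega

theorem card_ctr_le (p : Pt) {s : ℕ} (hs : 1 ≤ s) : (ctr p s).card ≤ 12 * s := by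
  classical
  have hsub : ctr p s ⊆
      ((Finset.Icc (-(s : ℤ)) s).image (fun i => ((p.1 + i, p.2 + s) : Pt))) ∪
      ((Finset.Icc (-(s : ℤ)) s).image (fun i => ((p.1 + i, p.2 - s) : Pt))) ∪
      ((Finset.Icc (-(s : ℤ)) s).image (fun i => ((p.1 + s, p.2 + i) : Pt))) ∪
      ((Finset.Icc (-(s : ℤ)) s).image (fun i => ((p.1 - s, p.2 + i) : Pt))) := by
    rintro ⟨z1, z2⟩ hz
    rw [mem_ctr] at hz
    simp only [dinf] at hz
    have h1 : |p.1 - z1| ≤ s := hz ▸ le_max_left _ _
    have h2 : |p.2 - z2| ≤ s := hz ▸ le_max_right _ _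
    rw [abs_le] at h1 h2
    simp only [Finset.mem_union, Finset.mem_image, Finset.mem_Icc, Prod.mk.injEq]
    rcases max_choice |p.1 - z1| |p.2 - z2| with h | h
    · rw [h] at hz
      rcases abs_choice (p.1 - z1) with h' | h'
      · right
        exact ⟨z2 - p.2, by omega, by omega, by omega⟩
      · left; right
        exact ⟨z2 - p.2, by omega, by omega, by omega⟩
    · rw [h] at hz
      rcases abs_choice (p.2 - z2) with h' | h'
      · left; left; right
        exact ⟨z1 - p.1, by omega, by omega, by omega⟩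
      · left; left; left
        exact ⟨z1 - p.1, by omega, by omega, by omega⟩
  have c1 : (Finset.Icc (-(s : ℤ)) s).card = 2 * s + 1 := by
    simp
    omega
  refine (Finset.card_le_card hsub).trans ?_
  refine (Finset.card_union_le _ _).trans ?_
  refine (Nat.add_le_add ((Finset.card_union_le _ _).trans
    (Nat.add_le_add ((Finset.card_union_le _ _).trans
      (Nat.add_le_add Finset.card_image_le Finset.card_image_le)) Finset.card_image_le))
      Finset.card_image_le).trans ?_
  rw [c1]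
  omega

theorem green_log {O : Set Pt} (hO : O.Finite) (hP : ∀ p, p ∉ O → ∀ r : ℕ, ∃ q, q ∉ O ∧ dinf p q = r)
    {φ u : Pt → ℝ} (hu : IsGreen O φ u) {A : ℝ} (hA : 0 ≤ A) {a b : ℕ} (ha : 1 ≤ a) {p : Pt}
    (hp : p ∉ O) (hφ : ∀ y, |φ y| ≤ A / (dinf p y : ℝ) ^ 2)
    (hsupp : ∀ y, φ y ≠ 0 → a ≤ dinf p y ∧ dinf p y ≤ b) :
    pair φ u ≤ 1152 * A ^ 2 * ∑ s ∈ Finset.Icc a b, ((s : ℝ))⁻¹ := by
  classical
  have fu := Fin0.of_sub hO hu.off
  set H := ∑ s ∈ Finset.Icc a b, ((s : ℝ))⁻¹ with hH
  have hS : ∀ s ∈ Finset.Icc a b, 1 ≤ s := fun s hs => ha.trans (Finset.mem_Icc.1 hs).1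
  have hE := pair_green hO hu
  have hE0 := energy_nonneg u
  -- decomposition over contours
  have dec : pair φ u = ∑ s ∈ Finset.Icc a b, ∑ y ∈ ctr p s, φ y * u y := by
    unfold pair
    have hsub : Function.support (fun x => φ x * u x) ⊆
        (((Finset.Icc a b).biUnion (fun s => ctr p s) : Finset Pt) : Set Pt) := by
      intro x hx
      have hx0 : φ x ≠ 0 := fun h => hx (by simp [h])
      obtain ⟨h1, h2⟩ := hsupp x hx0
      simp only [Finset.coe_biUnion, Finset.coe_Icc, Set.mem_iUnion, Finset.mem_coe, mem_ctr,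
        Set.mem_Icc, exists_prop]
      exact ⟨(dinf p x).toNat, by omega, by omega⟩
    rw [finsum_eq_sum_of_support_subset _ hsub, Finset.sum_biUnion]
    intro s _ s' _ hss
    rw [Function.onFun, Finset.disjoint_left]
    intro y hy hy'
    rw [mem_ctr] at hy hy'
    exact hss (by omega)
  -- each contour
  have each : ∀ s ∈ Finset.Icc a b, ∑ y ∈ ctr p s, φ y * u y ≤ 12 * A * ((s : ℝ))⁻¹ * Var u p s := by
    intro s hs
    have hs1 := hS s hs
    have hs0 : (0 : ℝ) < s := by positivity
    obtain ⟨q, hqO, hq⟩ := hP p hp s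
    calc ∑ y ∈ ctr p s, φ y * u y ≤ ∑ y ∈ ctr p s, A / (s : ℝ) ^ 2 * Var u p s := by
          apply Finset.sum_le_sum
          intro y hy
          rw [mem_ctr] at hy
          have h1 := hφ y
          rw [hy] at h1
          have h2 := contour u p s hq hy
          rw [hu.off q hqO, sub_zero] at h2
          calc φ y * u y ≤ |φ y * u y| := le_abs_self _
            _ = |φ y| * |u y| := abs_mul _ _
            _ ≤ A / (s : ℝ) ^ 2 * Var u p s := by
                apply mul_le_mul _ h2 (abs_nonneg _) (by positivity)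
                exact_mod_cast h1
      _ = (ctr p s).card * (A / (s : ℝ) ^ 2 * Var u p s) := by
          rw [Finset.sum_const, nsmul_eq_mul]
      _ ≤ (12 * s : ℝ) * (A / (s : ℝ) ^ 2 * Var u p s) := by
          apply mul_le_mul_of_nonneg_right _ (mul_nonneg (by positivity) (Var_nonneg _ _ _))
          exact_mod_cast card_ctr_le p hs1
      _ = 12 * A * ((s : ℝ))⁻¹ * Var u p s := by
          field_simp
  have h1 : energy u ≤ ∑ s ∈ Finset.Icc a b, 12 * A * ((s : ℝ))⁻¹ * Var u p s := by
    rw [← hE, dec]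
    exact Finset.sum_le_sum each
  -- Cauchy-Schwarz
  have h2 : (∑ s ∈ Finset.Icc a b, 12 * A * ((s : ℝ))⁻¹ * Var u p s) ^ 2 ≤
      1152 * A ^ 2 * H * energy u := by
    have e1 : ∑ s ∈ Finset.Icc a b, 12 * A * ((s : ℝ))⁻¹ * Var u p s =
        12 * A * ∑ s ∈ Finset.Icc a b, (Real.sqrt ((s : ℝ))⁻¹) * (Real.sqrt ((s : ℝ))⁻¹ * Var u p s) := by
      rw [Finset.mul_sum]
      apply Finset.sum_congr rfl
      intro s _
      rw [← mul_assoc (Real.sqrt _), Real.mul_self_sqrt (by positivity)]
      ring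
    rw [e1, mul_pow]
    have cs := Finset.sum_mul_sq_le_sq_mul_sq (Finset.Icc a b) (fun s : ℕ => Real.sqrt ((s : ℝ))⁻¹)
      (fun s : ℕ => Real.sqrt ((s : ℝ))⁻¹ * Var u p s)
    have e2 : ∑ s ∈ Finset.Icc a b, (Real.sqrt ((s : ℝ))⁻¹) ^ 2 = H := by
      rw [hH]
      apply Finset.sum_congr rfl
      intro s _
      rw [Real.sq_sqrt (by positivity)]
    have e3 : ∑ s ∈ Finset.Icc a b, (Real.sqrt ((s : ℝ))⁻¹ * Var u p s) ^ 2 ≤ 8 * energy u := by
      have h3 := sum_en_le fu p (Finset.Icc a b) hS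
      calc ∑ s ∈ Finset.Icc a b, (Real.sqrt ((s : ℝ))⁻¹ * Var u p s) ^ 2
          ≤ ∑ s ∈ Finset.Icc a b, 8 * en u p s := by
            apply Finset.sum_le_sum
            intro s hs
            have hs1 := hS s hs
            have hs0 : (0 : ℝ) < s := by positivity
            rw [mul_pow, Real.sq_sqrt (by positivity), inv_mul_le_iff₀ hs0]
            have := Var_sq_le u p s
            linarith
        _ = 8 * ∑ s ∈ Finset.Icc a b, en u p s := by rw [Finset.mul_sum]
        _ ≤ 8 * energy u := by linarith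
    have hH0 : 0 ≤ H := by
      rw [hH]
      positivity
    calc (12 * A) ^ 2 * (∑ s ∈ Finset.Icc a b, Real.sqrt ((s : ℝ))⁻¹ * (Real.sqrt ((s : ℝ))⁻¹ * Var u p s)) ^ 2
        ≤ (12 * A) ^ 2 * (H * (8 * energy u)) := by
          apply mul_le_mul_of_nonneg_left _ (by positivity)
          refine cs.trans ?_
          rw [e2]
          exact mul_le_mul_of_nonneg_left e3 hH0
      _ = 1152 * A ^ 2 * H * energy u := by ring
  have h3 : energy u ^ 2 ≤ 1152 * A ^ 2 * H * energy u := by
    refine le_trans ?_ h2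
    gcongr
  rw [hE]
  by_contra hcon
  push Not at hcon
  have hpos : 0 < energy u := by
    have hH0 : 0 ≤ H := by
      rw [hH]
      positivity
    have : 0 ≤ 1152 * A ^ 2 * H := by positivity
    linarith
  nlinarith

end Vale.Agent.P155.K
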