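import Vale.Agent.P155.K.Upper
import Vale.Agent.P155.K.LogD

/-!
# P155 block K: convergence of the discrete Green energies
-/

namespace Vale.Agent.P155.K

open Vale.Agent.P155 Finset MeasureTheory Filter Topology
open scoped ContDiff

/-- Property (P): every square contour about a point of the complement meets the complement. -/
def PropP (O : Set Pt) : Prop := ∀ p, p ∉ O → ∀ r : ℕ, ∃ q, q ∉ O ∧ dinf p q = r

theorem dinf_nonneg (p y : Pt) : 0 ≤ dinf p y := le_max_of_le_left (abs_nonneg _)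

theorem le_norm_pos {δ : ℝ} (hδ : 0 < δ) (a : ℂ) (p y : Pt) :
    δ * (dinf p y : ℝ) ≤ ‖pos δ a y - pos δ a p‖ := by
  have h1 := Complex.abs_re_le_norm (pos δ a y - pos δ a p)
  have h2 := Complex.abs_im_le_norm (pos δ a y - pos δ a p)
  have e1 : (pos δ a y - pos δ a p).re = -(δ * ((p.1 : ℝ) - y.1)) := by
    simp [pos]
    ring
  have e2 : (pos δ a y - pos δ a p).im = -(δ * ((p.2 : ℝ) - y.2)) := by
    simp [pos]
    ring
  rw [e1, abs_neg, abs_mul, abs_of_pos hδ] at h1
  rw [e2, abs_neg, abs_mul, abs_of_pos hδ] at h2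
  rcases max_choice |p.1 - y.1| |p.2 - y.2| with h | h
  · simp only [dinf]
    rw [h]
    push_cast
    exact h1
  · simp only [dinf]
    rw [h]
    push_cast
    exact h2

theorem norm_pos_le {δ : ℝ} (hδ : 0 < δ) (a : ℂ) (p y : Pt) :
    ‖pos δ a y - pos δ a p‖ ≤ 2 * δ * (dinf p y : ℝ) := by
  have h1 := Complex.norm_le_abs_re_add_abs_im (pos δ a y - pos δ a p)
  have e1 : (pos δ a y - pos δ a p).re = -(δ * ((p.1 : ℝ) - y.1)) := by
    simp [pos]
    ring
  have e2 : (pos δ a y - pos δ a p).im = -(δ * ((p.2 : ℝ) - y.2)) := by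
    simp [pos]
    ring
  rw [e1, e2, abs_neg, abs_neg, abs_mul, abs_mul, abs_of_pos hδ] at h1
  have h3 : |((p.1 : ℝ) - y.1)| ≤ (dinf p y : ℝ) := by
    have : |p.1 - y.1| ≤ dinf p y := le_max_left _ _
    exact_mod_cast this
  have h4 : |((p.2 : ℝ) - y.2)| ≤ (dinf p y : ℝ) := by
    have : |p.2 - y.2| ≤ dinf p y := le_max_right _ _
    exact_mod_cast this
  nlinarith

theorem harm_lower {a b : ℕ} (ha : 1 ≤ a) (hab : a ≤ b) :
    Real.log ((b + 1 : ℝ) / a) ≤ ∑ s ∈ Finset.Icc a b, ((s : ℝ))⁻¹ := by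
  have ha0 : (0 : ℝ) < a := by positivity
  induction b, hab using Nat.le_induction with
  | base =>
    rw [Finset.Icc_self, Finset.sum_singleton]
    have := Real.log_le_sub_one_of_pos (x := ((a : ℝ) + 1) / a) (by positivity)
    refine this.trans (le_of_eq ?_)
    field_simp
    ring
  | succ b hb ih =>
    have hb0 : (0 : ℝ) < b + 1 := by positivity
    have e : Finset.Icc a (b + 1) = insert (b + 1) (Finset.Icc a b) := by
      ext x
      simp
      omega
    rw [e, Finset.sum_insert (by simp)]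
    have h1 : Real.log (((b + 1 : ℕ) + 1 : ℝ) / a) =
        Real.log (((b : ℝ) + 1 + 1) / (b + 1)) + Real.log ((b + 1 : ℝ) / a) := by
      rw [← Real.log_mul (by positivity) (by positivity)]
      congr 1
      push_cast
      field_simp
    rw [h1]
    have := Real.log_le_sub_one_of_pos (x := ((b : ℝ) + 1 + 1) / (b + 1)) (by positivity)
    have h2 : ((b : ℝ) + 1 + 1) / (b + 1) - 1 = (((b + 1 : ℕ) : ℝ))⁻¹ := by
      push_cast
      field_simp
      ring
    linarith

theorem harm_upper {a b : ℕ} (ha : 1 ≤ a) (hab : a ≤ b) :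
    ∑ s ∈ Finset.Icc a b, ((s : ℝ))⁻¹ ≤ 1 + Real.log ((b : ℝ) / a) := by
  have ha0 : (0 : ℝ) < a := by positivity
  induction b, hab using Nat.le_induction with
  | base =>
    rw [Finset.Icc_self, Finset.sum_singleton, div_self ha0.ne', Real.log_one, add_zero]
    apply inv_le_one_of_one_le₀
    exact_mod_cast ha
  | succ b hb ih =>
    have hb0 : (0 : ℝ) < b := by
      have : 1 ≤ b := ha.trans hb
      positivity
    have e : Finset.Icc a (b + 1) = insert (b + 1) (Finset.Icc a b) := by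
      ext x
      simp
      omega
    rw [e, Finset.sum_insert (by simp)]
    have h1 : Real.log ((b + 1 : ℕ) / a) =
        -Real.log ((b : ℝ) / (b + 1)) + Real.log ((b : ℝ) / a) := by
      rw [← Real.log_inv, ← Real.log_mul (by positivity) (by positivity)]
      congr 1
      push_cast
      field_simp
    rw [h1]
    have := Real.log_le_sub_one_of_pos (x := (b : ℝ) / (b + 1)) (by positivity)
    have h2 : (b : ℝ) / (b + 1) - 1 = -(((b + 1 : ℕ) : ℝ))⁻¹ := by
      push_cast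
      field_simp
      ring
    linarith

section
variable {δ : ℕ → ℝ} (hδ : ∀ n, 0 < δ n) (hδ0 : Tendsto δ atTop (𝓝 0)) (a : ℕ → ℂ)
    {O : ℕ → Set Pt} (hO : ∀ n, (O n).Finite) {φ : ℂ → ℝ} (hφ : Continuous φ)
    (hφc : HasCompactSupport φ) {u : ℕ → Pt → ℝ}
    (hu : ∀ n, IsGreen (O n) (phin (δ n) (a n) φ) (u n)) {ϱ : ℝ}
    (hϱ : ∀ᶠ n in atTop, ∀ y ∈ O n, ‖pos (δ n) (a n) y‖ ≤ ϱ)

include hδ hδ0 hφ hφc hu hϱ in
theorem sup_bound : ∃ M0, 0 ≤ M0 ∧ ∀ᶠ n in atTop, ∀ y, |u n y| ≤ M0 := by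
  obtain ⟨M, hM0, hM⟩ := exists_bound hφ hφc
  refine ⟨M / 2 * (|ϱ| + 5) ^ 2, by positivity, ?_⟩
  have h1 : ∀ᶠ n in atTop, δ n < 1 := (tendsto_order.1 hδ0).2 1 one_pos
  filter_upwards [hϱ, h1] with n hn h1n y
  have hd := hδ n
  set d := δ n with hd'
  have hdϱ : 0 ≤ |ϱ| / d := by positivity
  set s : ℕ := ⌈|ϱ| / d⌉₊ + 3 with hs
  have hsup := green_sup (hu n) (m := M * d ^ 2) (p := cell d (a n) 0) (s := s) (by positivity)
    (by
      intro x
      unfold phin
      rw [abs_mul, abs_of_nonneg (by positivity), mul_comm]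
      gcongr
      exact hM _)
    (by
      intro y hy
      have h2 := hn y hy
      have h3 := norm_sub_pos_cell hd (a n) 0
      have h4 := le_norm_pos hd (a n) (cell d (a n) 0) y
      have h5 : ‖pos d (a n) y - pos d (a n) (cell d (a n) 0)‖ ≤ |ϱ| + 2 * d := by
        calc _ = ‖pos d (a n) y + (0 - pos d (a n) (cell d (a n) 0))‖ := by
              congr 1
              ring
          _ ≤ ‖pos d (a n) y‖ + ‖0 - pos d (a n) (cell d (a n) 0)‖ := norm_add_le _ _
          _ ≤ |ϱ| + 2 * d := by linarith [le_abs_self ϱ]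
      have h6 : ((dinf (cell d (a n) 0) y : ℤ) : ℝ) ≤ |ϱ| / d + 2 := by
        rw [← sub_le_iff_le_add, le_div_iff₀ hd]
        nlinarith
      have h7 : ((dinf (cell d (a n) 0) y : ℤ) : ℝ) < (s : ℝ) := by
        have := Nat.le_ceil (|ϱ| / d)
        rw [hs]
        push_cast
        linarith
      exact_mod_cast h7) y
  refine hsup.trans ?_
  have h8 : d * s ≤ |ϱ| + 5 := by
    have h9 : (s : ℝ) ≤ |ϱ| / d + 4 := by
      have := (Nat.ceil_lt_add_one hdϱ).le
      rw [hs]
      push_cast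
      linarith
    calc d * s ≤ d * (|ϱ| / d + 4) := by gcongr
      _ = |ϱ| + 4 * d := by field_simp
      _ ≤ |ϱ| + 5 := by linarith
  calc M * d ^ 2 / 2 * (s : ℝ) ^ 2 = M / 2 * (d * s) ^ 2 := by ring
    _ ≤ M / 2 * (|ϱ| + 5) ^ 2 := by gcongr

include hδ hδ0 hO hφ hφc hu hϱ in
theorem energy_bound : ∃ E0, 0 ≤ E0 ∧ ∀ᶠ n in atTop, energy (u n) ≤ E0 := by
  obtain ⟨M, hM0, hM⟩ := exists_bound hφ hφc
  obtain ⟨M0, hM00, hM0'⟩ := sup_bound hδ hδ0 a hφ hφc hu hϱ
  obtain ⟨V, hV0, hV⟩ := sum_bound ϱ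
  refine ⟨M * M0 * V, by positivity, ?_⟩
  have h1 : ∀ᶠ n in atTop, δ n < 1 := (tendsto_order.1 hδ0).2 1 one_pos
  filter_upwards [hϱ, h1, hM0'] with n hn h1n hMn
  rw [← pair_green (hO n) (hu n)]
  have fu : Fin0 (u n) := Fin0.of_sub (hO n) (hu n).off
  have e1 : pair (phin (δ n) (a n) φ) (u n) =
      (δ n) ^ 2 * ∑ᶠ y : Pt, φ (pos (δ n) (a n) y) * u n y := by
    unfold pair phin
    rw [← fsum_mul]
    congr 1
    funext y
    ring
  have fz : Fin0 (fun y => φ (pos (δ n) (a n) y) * u n y) := fu.mul_left _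
  have e2 : ∑ᶠ y : Pt, φ (pos (δ n) (a n) y) * u n y ≤
      ∑ᶠ y : Pt, |φ (pos (δ n) (a n) y) * u n y| := by
    rw [finsum_eq_sum_of_support_subset (s := Set.Finite.toFinset fz)
      (fun y => φ (pos (δ n) (a n) y) * u n y)
      (fun y hy => (Set.Finite.mem_toFinset fz).2 hy),
      finsum_eq_sum_of_support_subset (s := Set.Finite.toFinset fz)
      (fun y => |φ (pos (δ n) (a n) y) * u n y|)
      (fun y hy => (Set.Finite.mem_toFinset fz).2 (by simpa using hy))]
    exact Finset.sum_le_sum (fun _ _ => le_abs_self _)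
  rw [e1]
  refine (mul_le_mul_of_nonneg_left e2 (by positivity)).trans ?_
  apply hV (δ n) (hδ n) h1n.le (a n) _ (M * M0) (by positivity)
  · intro y
    rw [abs_mul]
    exact mul_le_mul (hM _) (hMn y) (abs_nonneg _) hM0
  · intro y hy
    apply hn y
    by_contra h
    exact hy (by rw [(hu n).off y h, mul_zero])

include hδ hδ0 hO hφ hφc hu hϱ in
theorem near_bound (hP : ∀ n, PropP (O n)) : ∀ ε > 0, ∃ η > 0, ∀ᶠ n in atTop, ∀ y p, p ∉ O n →
      ‖pos (δ n) (a n) y - pos (δ n) (a n) p‖ ≤ η → |u n y| ≤ ε := by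
  intro ε hε
  obtain ⟨M, hM0, hM⟩ := exists_bound hφ hφc
  obtain ⟨E0, hE00, hE0⟩ := energy_bound hδ hδ0 a hO hφ hφc hu hϱ
  set L := 32 * E0 / ε ^ 2 + 1 with hL
  have hLpos : 0 < L := by positivity
  set r := min (Real.exp (-L) / 2) (min (ε / (M + 1)) 1) with hr
  have hrpos : 0 < r := by positivity
  have hr1 : r ≤ 1 := (min_le_right _ _).trans (min_le_right _ _)
  have hr2 : r ≤ ε / (M + 1) := (min_le_right _ _).trans (min_le_left _ _)
  have hr3 : r ≤ Real.exp (-L) / 2 := min_le_left _ _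
  refine ⟨r ^ 2, by positivity, ?_⟩
  have h1 : ∀ᶠ n in atTop, δ n < r ^ 2 := (tendsto_order.1 hδ0).2 _ (by positivity)
  filter_upwards [h1, hE0] with n h1n hEn y p hp hyp
  have hd := hδ n
  set d := δ n with hd'
  set A : ℕ := ⌈r ^ 2 / d⌉₊ with hA
  set B : ℕ := ⌊r / d⌋₊ with hB
  have hA1 : 1 ≤ A := Nat.one_le_iff_ne_zero.2 (by
    rw [hA]
    have : 0 < r ^ 2 / d := by positivity
    exact (Nat.ceil_pos.2 this).ne')
  have hAle : (A : ℝ) ≤ (r ^ 2 + d) / d := by
    have := (Nat.ceil_lt_add_one (a := r ^ 2 / d) (by positivity)).le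
    rw [← hA] at this
    refine this.trans (le_of_eq ?_)
    field_simp
  have hBge : r / d < B + 1 := Nat.lt_floor_add_one _
  have hr4 : r ≤ 1 / 2 := by
    have : Real.exp (-L) ≤ 1 := Real.exp_le_one_iff.2 (by linarith)
    linarith
  have hratio : 1 / (2 * r) ≤ (B + 1 : ℝ) / A := by
    rw [div_le_div_iff₀ (by positivity) (by positivity)]
    have h2 : (A : ℝ) ≤ (2 * r ^ 2) / d := by
      refine hAle.trans ?_
      gcongr
      linarith
    calc 1 * (A : ℝ) ≤ (2 * r ^ 2) / d := by linarith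
      _ = (r / d) * (2 * r) := by ring
      _ ≤ (B + 1) * (2 * r) := by gcongr
  have hAB : A ≤ B := by
    have h2 : (1 : ℝ) ≤ (B + 1 : ℝ) / A := by
      refine le_trans ?_ hratio
      rw [le_div_iff₀ (by positivity)]
      linarith
    rw [le_div_iff₀ (by positivity), one_mul] at h2
    by_contra hcon
    push Not at hcon
    have hBA : B + 1 ≤ A := hcon
    -- strict inequality needed
    have h3 : (A : ℝ) < B + 1 := by
      have h4 : (A : ℝ) ≤ (2 * r ^ 2) / d := by
        refine hAle.trans ?_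
        gcongr
        linarith
      have h5 : (2 * r ^ 2) / d ≤ r / d := by
        gcongr
        nlinarith
      linarith
    have h6 : ((B + 1 : ℕ) : ℝ) ≤ A := by exact_mod_cast hBA
    push_cast at h6
    linarith
  have hH := harm_lower hA1 hAB
  set H := ∑ s ∈ Finset.Icc A B, ((s : ℝ))⁻¹ with hHdef
  have hHL : L ≤ H := by
    refine le_trans ?_ hH
    rw [Real.le_log_iff_exp_le (by positivity)]
    refine le_trans ?_ hratio
    rw [le_div_iff₀ (by positivity)]
    calc Real.exp L * (2 * r) ≤ Real.exp L * Real.exp (-L) := by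
          gcongr
          linarith
      _ = 1 := by rw [← Real.exp_add]; simp
  have key := green_near (hO n) (hP n) (hu n) (m := M * d ^ 2) (E := E0) (by positivity) (by
      intro x
      unfold phin
      rw [abs_mul, abs_of_nonneg (by positivity), mul_comm]
      gcongr
      exact hM _) hEn hA1 hAB hp (x := y) (by
      have h2 := le_norm_pos hd (a n) p y
      have h3 : ((dinf p y : ℤ) : ℝ) ≤ (A : ℝ) := by
        refine le_trans ?_ (Nat.le_ceil (r ^ 2 / d))
        rw [le_div_iff₀ hd]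
        linarith
      exact_mod_cast h3)
  refine key.trans ?_
  have t1 : Real.sqrt (8 * E0 / H) ≤ ε / 2 := by
    apply Real.sqrt_le_iff.2
    refine ⟨by positivity, ?_⟩
    have hHpos : 0 < H := hLpos.trans_le hHL
    calc 8 * E0 / H ≤ 8 * E0 / L := by gcongr
      _ ≤ (ε / 2) ^ 2 := by
          rw [div_le_iff₀ hLpos, hL]
          have : (ε / 2) ^ 2 * (32 * E0 / ε ^ 2 + 1) = 8 * E0 + (ε / 2) ^ 2 := by
            field_simp
            ring
          rw [this]
          nlinarith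
  have t2 : M * d ^ 2 / 2 * (B : ℝ) ^ 2 ≤ ε / 2 := by
    have h2 : d * (B : ℝ) ≤ r := by
      have := Nat.floor_le (a := r / d) (by positivity)
      rw [← hB] at this
      calc d * (B : ℝ) ≤ d * (r / d) := by gcongr
        _ = r := by field_simp
    calc M * d ^ 2 / 2 * (B : ℝ) ^ 2 = M / 2 * (d * B) ^ 2 := by ring
      _ ≤ M / 2 * r ^ 2 := by gcongr
      _ ≤ M / 2 * r := by
          gcongr
          nlinarith
      _ ≤ M / 2 * (ε / (M + 1)) := by gcongr
      _ ≤ ε / 2 := by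
          rw [div_mul_div_comm, div_le_div_iff₀ (by positivity) (by positivity)]
          nlinarith
  linarith

include hδ hδ0 hO hφ hφc hu hϱ in
/-- K2: the discrete Green energies converge to the Green energy of the limit domain. -/
theorem green_limit (hP : ∀ n, PropP (O n)) {U : Set ℂ}
    (hβ : ∀ K : Set ℂ, IsCompact K → K ⊆ U → ∀ᶠ n in atTop, ∀ y, y ∉ O n → pos (δ n) (a n) y ∉ K)
    (hα : ∀ η > 0, ∀ᶠ n in atTop, ∀ z, z ∉ U → ∃ p, p ∉ O n ∧ ‖z - pos (δ n) (a n) p‖ < η) :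
    Gr U φ ≠ ⊤ ∧
      Tendsto (fun n => pair (phin (δ n) (a n) φ) (u n)) atTop (𝓝 (Gr U φ).toReal) := by
  obtain ⟨M0, hM00, hM0⟩ := sup_bound hδ hδ0 a hφ hφc hu hϱ
  obtain ⟨E0, hE00, hE0⟩ := energy_bound hδ hδ0 a hO hφ hφc hu hϱ
  have hnear := near_bound hδ hδ0 a hO hφ hφc hu hϱ hP
  have hpe : ∀ n, pair (phin (δ n) (a n) φ) (u n) = energy (u n) := fun n =>
    pair_green (hO n) (hu n)
  have hle : ∀ v, IsTest U v → dval φ v ≤ E0 := by
    intro v hv
    apply le_of_forall_pos_le_add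
    intro ε hε
    obtain ⟨n, h1, h2⟩ := ((lower hδ hδ0 a hO hφ hφc hu hβ hv hε).and hE0).exists
    rw [hpe] at h1
    linarith
  have hGle : Gr U φ ≤ ENNReal.ofReal E0 := by
    unfold Gr
    apply iSup_le
    rintro ⟨v, hv⟩
    exact ENNReal.ofReal_le_ofReal (hle v hv)
  have hfin : Gr U φ ≠ ⊤ := ne_top_of_le_ne_top ENNReal.ofReal_ne_top hGle
  refine ⟨hfin, ?_⟩
  rw [tendsto_order]
  constructor
  · intro c hc
    by_cases hc0 : c < 0
    · filter_upwards with n
      rw [hpe]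
      exact hc0.trans_le (energy_nonneg _)
    · push Not at hc0
      have h1 : ENNReal.ofReal c < Gr U φ := (ENNReal.ofReal_lt_iff_lt_toReal hc0 hfin).2 hc
      unfold Gr at h1
      obtain ⟨⟨v, hv⟩, h2⟩ := lt_iSup_iff.1 h1
      have h3 : c < dval φ v := by
        have := (ENNReal.ofReal_lt_ofReal_iff' ).1 h2
        exact this.1
      filter_upwards [lower hδ hδ0 a hO hφ hφc hu hβ hv (ε := (dval φ v - c) / 2) (by linarith)]
        with n hn
      linarith
  · intro c hc
    filter_upwards [upper hδ hδ0 a hO hφ hφc hu hϱ hM0 hE0 hnear hα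
      (ε' := (c - (Gr U φ).toReal) / 2) (by linarith)] with n hn
    obtain ⟨v, hv, hv2⟩ := hn
    have h1 : ENNReal.ofReal (dval φ v) ≤ Gr U φ := by
      unfold Gr
      exact le_iSup (fun v : {v : ℂ → ℝ // IsTest U v} => ENNReal.ofReal (dval φ v)) ⟨v, hv⟩
    have h2 : dval φ v ≤ (Gr U φ).toReal := by
      rcases le_or_gt (dval φ v) 0 with h | h
      · exact h.trans ENNReal.toReal_nonneg
      · exact (ENNReal.ofReal_le_iff_le_toReal hfin).1 h1
    linarith

end

end Vale.Agent.P155.K
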