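import Vale.Agent.P155.K.Null2
import Vale.Agent.P155.K1.Main

/-!
# P155 block K: the main statement follows from the discrete identity `J_star`
-/

namespace Vale.Agent.P155.K

open Vale.Agent.P155 MeasureTheory Filter Topology TopologicalSpace

/-- The main statement, from the discrete identity. -/
theorem mainStatement_of_J (hJ : J.J_star) : MainStatement := by
  intro Ω hΩ hb _ _ S ns hns
  obtain ⟨ms, hms, Θ, mΘ, P, G, H, hP, hG, hH, hzero, hrep, hmono, hconn, hsign, hlim⟩ :=
    K1.k1_main hΩ hb S ns hns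
  have L : LimData S (fun j => ns (ms j)) P G H :=
    ⟨hns.tendsto_atTop.comp hms.tendsto_atTop, hG, hH, hlim⟩
  refine ⟨ms, hms, Θ, mΘ, P, G, H, hP, ?_, hlim⟩
  refine ⟨hzero, hrep, hmono, hconn, ?_, hsign, ?_, ?_⟩
  · exact L.null hΩ hb hJ (hzero.mono fun x hx => hx.1) hrep
  · intro k
    exact ⟨hG k, fun φ hφ => ⟨hH k φ hφ, measurable_greenEnergy S hb hφ (hG k)⟩⟩
  · intro k m χ φ hχ hφ F hF hFb
    exact L.gff hΩ hb hJ k m χ φ hχ hφ F hF hFb

end Vale.Agent.P155.K
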