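import Vale.Agent.P155.Defs

/-!
# P155 block K: discrete summation by parts and the discrete Dirichlet principle
-/

namespace Vale.Agent.P155.K

open Vale.Agent.P155 Finset

/-- shift to the right -/
def sh1 : Pt ≃ Pt := Equiv.prodCongr (Equiv.addRight 1) (Equiv.refl ℤ)

/-- shift upwards -/
def sh2 : Pt ≃ Pt := Equiv.prodCongr (Equiv.refl ℤ) (Equiv.addRight 1)

theorem sh1_apply (x : Pt) : sh1 x = (x.1 + 1, x.2) := rfl
theorem sh2_apply (x : Pt) : sh2 x = (x.1, x.2 + 1) := rfl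
theorem sh1_symm_apply (x : Pt) : sh1.symm x = (x.1 - 1, x.2) := rfl
theorem sh2_symm_apply (x : Pt) : sh2.symm x = (x.1, x.2 - 1) := rfl

theorem finsum_sh1 (f : Pt → ℝ) : ∑ᶠ x : Pt, f (x.1 + 1, x.2) = ∑ᶠ x, f x :=
  finsum_comp_equiv sh1 (f := f)

theorem finsum_sh2 (f : Pt → ℝ) : ∑ᶠ x : Pt, f (x.1, x.2 + 1) = ∑ᶠ x, f x :=
  finsum_comp_equiv sh2 (f := f)

/-- finitely supported -/
def Fin0 (f : Pt → ℝ) : Prop := (Function.support f).Finite

theorem Fin0.sub {f g : Pt → ℝ} (hf : Fin0 f) (hg : Fin0 g) : Fin0 (fun x => f x - g x) :=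
  (hf.union hg).subset (by
    intro x hx
    by_contra h
    simp only [Set.mem_union, Function.mem_support, ne_eq, not_or, not_not] at h
    simp [h.1, h.2] at hx)

theorem Fin0.add {f g : Pt → ℝ} (hf : Fin0 f) (hg : Fin0 g) : Fin0 (fun x => f x + g x) :=
  (hf.union hg).subset (by
    intro x hx
    by_contra h
    simp only [Set.mem_union, Function.mem_support, ne_eq, not_or, not_not] at h
    simp [h.1, h.2] at hx)

theorem Fin0.mul_left {f : Pt → ℝ} (g : Pt → ℝ) (hf : Fin0 f) : Fin0 (fun x => g x * f x) :=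
  hf.subset (by
    intro x hx h0
    exact hx (by simp [h0]))

theorem Fin0.mul_right {f : Pt → ℝ} (g : Pt → ℝ) (hf : Fin0 f) : Fin0 (fun x => f x * g x) :=
  hf.subset (by
    intro x hx h0
    exact hx (by simp [h0]))

theorem Fin0.comp1 {f : Pt → ℝ} (hf : Fin0 f) : Fin0 (fun x => f (x.1 + 1, x.2)) := by
  have : Function.support (fun x : Pt => f (x.1 + 1, x.2)) = sh1 ⁻¹' Function.support f := rfl
  unfold Fin0
  rw [this]
  exact hf.preimage sh1.injective.injOn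

theorem Fin0.comp2 {f : Pt → ℝ} (hf : Fin0 f) : Fin0 (fun x => f (x.1, x.2 + 1)) := by
  have : Function.support (fun x : Pt => f (x.1, x.2 + 1)) = sh2 ⁻¹' Function.support f := rfl
  unfold Fin0
  rw [this]
  exact hf.preimage sh2.injective.injOn

theorem Fin0.d1 {f : Pt → ℝ} (hf : Fin0 f) : Fin0 (fun x => f (x.1 + 1, x.2) - f x) :=
  hf.comp1.sub hf

theorem Fin0.d2 {f : Pt → ℝ} (hf : Fin0 f) : Fin0 (fun x => f (x.1, x.2 + 1) - f x) :=
  hf.comp2.sub hf

theorem Fin0.of_sub {O : Set Pt} (hO : O.Finite) {f : Pt → ℝ} (hf : ∀ x, x ∉ O → f x = 0) : Fin0 f :=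
  hO.subset (by
    intro x hx
    by_contra h
    exact hx (hf x h))

theorem fsum_add {f g : Pt → ℝ} (hf : Fin0 f) (hg : Fin0 g) :
    ∑ᶠ x, (f x + g x) = ∑ᶠ x, f x + ∑ᶠ x, g x := finsum_add_distrib hf hg

theorem fsum_sub {f g : Pt → ℝ} (hf : Fin0 f) (hg : Fin0 g) :
    ∑ᶠ x, (f x - g x) = ∑ᶠ x, f x - ∑ᶠ x, g x := finsum_sub_distrib hf hg

theorem fsum_mul (c : ℝ) (f : Pt → ℝ) : ∑ᶠ x, c * f x = c * ∑ᶠ x, f x := (mul_finsum f c).symm

theorem fsum_nonneg {f : Pt → ℝ} (hf : ∀ x, 0 ≤ f x) : 0 ≤ ∑ᶠ x, f x :=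
  finsum_nonneg hf

/-- The energy form. -/
noncomputable def eform (u v : Pt → ℝ) : ℝ :=
  ∑ᶠ x : Pt, ((u (x.1 + 1, x.2) - u x) * (v (x.1 + 1, x.2) - v x)
    + (u (x.1, x.2 + 1) - u x) * (v (x.1, x.2 + 1) - v x))

theorem eform_self (u : Pt → ℝ) : eform u u = energy u := by
  unfold eform energy
  congr 1
  funext x
  ring

theorem eform_eq {u v : Pt → ℝ} (hv : Fin0 v) :
    eform u v = ∑ᶠ x : Pt, (- lap u x) * v x := by
  unfold eform
  have e1 : ∀ x : Pt, (u (x.1 + 1, x.2) - u x) * (v (x.1 + 1, x.2) - v x)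
      + (u (x.1, x.2 + 1) - u x) * (v (x.1, x.2 + 1) - v x)
      = ((fun y : Pt => (u y - u (y.1 - 1, y.2)) * v y) (x.1 + 1, x.2)
        + (fun y : Pt => (u y - u (y.1, y.2 - 1)) * v y) (x.1, x.2 + 1))
        - ((u (x.1 + 1, x.2) - u x) * v x + (u (x.1, x.2 + 1) - u x) * v x) := by
    intro x
    simp only [add_sub_cancel_right]
    ring
  simp_rw [e1]
  have f1 : Fin0 (fun y : Pt => (u y - u (y.1 - 1, y.2)) * v y) := hv.mul_left _
  have f2 : Fin0 (fun y : Pt => (u y - u (y.1, y.2 - 1)) * v y) := hv.mul_left _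
  have f3 : Fin0 (fun x : Pt => (u (x.1 + 1, x.2) - u x) * v x) := hv.mul_left _
  have f4 : Fin0 (fun x : Pt => (u (x.1, x.2 + 1) - u x) * v x) := hv.mul_left _
  rw [fsum_sub (f1.comp1.add f2.comp2) (f3.add f4), fsum_add f1.comp1 f2.comp2,
    finsum_sh1 (fun y : Pt => (u y - u (y.1 - 1, y.2)) * v y),
    finsum_sh2 (fun y : Pt => (u y - u (y.1, y.2 - 1)) * v y), ← fsum_add f1 f2,
    ← fsum_sub (f1.add f2) (f3.add f4)]
  congr 1
  funext x
  unfold lap
  ring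

theorem eform_green {O : Set Pt} (hO : O.Finite) {φ u v : Pt → ℝ} (hu : IsGreen O φ u)
    (hv : ∀ x, x ∉ O → v x = 0) : eform u v = pair φ v := by
  rw [eform_eq (Fin0.of_sub hO hv)]
  unfold pair
  congr 1
  funext x
  by_cases hx : x ∈ O
  · rw [hu.eq x hx]
  · rw [hv x hx, mul_zero, mul_zero]

theorem pair_green {O : Set Pt} (hO : O.Finite) {φ u : Pt → ℝ} (hu : IsGreen O φ u) :
    pair φ u = energy u := by
  rw [← eform_self, eform_green hO hu hu.off]

theorem energy_nonneg (u : Pt → ℝ) : 0 ≤ energy u :=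
  fsum_nonneg (fun x => by positivity)

theorem Fin0.e {u v : Pt → ℝ} (hu : Fin0 u) (_hv : Fin0 v) :
    Fin0 (fun x : Pt => (u (x.1 + 1, x.2) - u x) * (v (x.1 + 1, x.2) - v x)
      + (u (x.1, x.2 + 1) - u x) * (v (x.1, x.2 + 1) - v x)) :=
  (hu.d1.mul_right _).add (hu.d2.mul_right _)

/-- The discrete Dirichlet principle. -/
theorem dirichlet {O : Set Pt} (hO : O.Finite) {φ u v : Pt → ℝ} (hu : IsGreen O φ u)
    (hv : ∀ x, x ∉ O → v x = 0) : 2 * pair φ v - energy v ≤ pair φ u := by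
  have fu := Fin0.of_sub hO hu.off
  have fv := Fin0.of_sub hO hv
  have h0 := energy_nonneg (fun x => u x - v x)
  have e1 : energy (fun x => u x - v x) = energy u - 2 * eform u v + energy v := by
    rw [← eform_self, ← eform_self, ← eform_self]
    unfold eform
    rw [← fsum_mul 2, ← fsum_sub (fu.e fu) ((fu.e fv).mul_left _),
      ← fsum_add ((fu.e fu).sub ((fu.e fv).mul_left _)) (fv.e fv)]
    congr 1
    funext x
    ring
  rw [eform_green hO hu hv] at e1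
  have e2 := pair_green hO hu
  linarith

end Vale.Agent.P155.K
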