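import Mathlib.MeasureTheory.Integral.DominatedConvergence
import Mathlib.MeasureTheory.Constructions.BorelSpace.Metrizable

/-!
# P155 block K: extended continuous mapping theorem for weak limits of finite laws

`D n` are finite sets of configurations with the uniform law, `Y n : ι → E` random variables
converging in law to `Z : Θ → E`.  If `Φ n (ω n) → Φ x` whenever `Y n (ω n) → Z x`, then
`E Φ n → E Φ`; moreover almost every `Z x` is a limit of `Y (n j) (ω j)`.
No compactness is needed: the proof uses Lipschitz envelopes.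
-/

namespace Vale.Agent.P155.K

open MeasureTheory Filter Topology

/-- uniform average -/
noncomputable def avg {ι : Type*} {E : Type*} [AddCommMonoid E] [Module ℝ E] (D : Finset ι)
    (g : ι → E) : E := ((D.card : ℝ))⁻¹ • ∑ i ∈ D, g i

theorem avg_mono {ι : Type*} (D : Finset ι) {f g : ι → ℝ} (h : ∀ i ∈ D, f i ≤ g i) :
    avg D f ≤ avg D g := by
  unfold avg
  rw [smul_eq_mul, smul_eq_mul]
  exact mul_le_mul_of_nonneg_left (Finset.sum_le_sum h) (by positivity)

theorem avg_neg {ι : Type*} (D : Finset ι) (f : ι → ℝ) : avg D (fun i => - f i) = - avg D f := by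
  unfold avg
  rw [Finset.sum_neg_distrib, smul_neg]

section
variable {ι E : Type*} [PseudoMetricSpace E] (D : ℕ → Finset ι) (Y : ℕ → ι → E)

/-- the values entering the upper envelope -/
def envS (Φn : ℕ → ι → ℝ) (M : ℝ) (m : ℕ) (y : E) : Set ℝ :=
  {t | t = -M ∨ ∃ n, m ≤ n ∧ ∃ i ∈ D n, t = Φn n i - m * dist (Y n i) y}

/-- the upper envelope, Lipschitz with constant `m` -/
noncomputable def env (Φn : ℕ → ι → ℝ) (M : ℝ) (m : ℕ) (y : E) : ℝ := sSup (envS D Y Φn M m y)

variable {D Y} {Φn : ℕ → ι → ℝ} {M : ℝ}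

theorem envS_bdd (hM0 : 0 ≤ M) (hM : ∀ n, ∀ i ∈ D n, |Φn n i| ≤ M) (m : ℕ) (y : E) :
    ∀ t ∈ envS D Y Φn M m y, t ≤ M := by
  rintro t (rfl | ⟨n, _, i, hi, rfl⟩)
  · linarith
  · have h1 := (abs_le.1 (hM n i hi)).2
    have h2 : 0 ≤ (m : ℝ) * dist (Y n i) y := by positivity
    linarith

theorem envS_nonempty (m : ℕ) (y : E) : (envS D Y Φn M m y).Nonempty := ⟨-M, Or.inl rfl⟩

theorem le_env (hM0 : 0 ≤ M) (hM : ∀ n, ∀ i ∈ D n, |Φn n i| ≤ M) {m : ℕ} {y : E} {t : ℝ}
    (ht : t ∈ envS D Y Φn M m y) : t ≤ env D Y Φn M m y :=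
  le_csSup ⟨M, envS_bdd hM0 hM m y⟩ ht

theorem env_le (hM0 : 0 ≤ M) (hM : ∀ n, ∀ i ∈ D n, |Φn n i| ≤ M) (m : ℕ) (y : E) :
    env D Y Φn M m y ≤ M := csSup_le (envS_nonempty m y) (envS_bdd hM0 hM m y)

theorem neg_le_env (hM0 : 0 ≤ M) (hM : ∀ n, ∀ i ∈ D n, |Φn n i| ≤ M) (m : ℕ) (y : E) :
    -M ≤ env D Y Φn M m y := le_env hM0 hM (Or.inl rfl)

theorem abs_env_le (hM0 : 0 ≤ M) (hM : ∀ n, ∀ i ∈ D n, |Φn n i| ≤ M) (m : ℕ) (y : E) :
    |env D Y Φn M m y| ≤ M := abs_le.2 ⟨neg_le_env hM0 hM m y, env_le hM0 hM m y⟩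

theorem env_lip (hM0 : 0 ≤ M) (hM : ∀ n, ∀ i ∈ D n, |Φn n i| ≤ M) (m : ℕ) (y y' : E) :
    env D Y Φn M m y ≤ env D Y Φn M m y' + m * dist y y' := by
  apply csSup_le (envS_nonempty m y)
  rintro t (rfl | ⟨n, hn, i, hi, rfl⟩)
  · have := neg_le_env (D := D) (Y := Y) hM0 hM m y'
    have : 0 ≤ (m : ℝ) * dist y y' := by positivity
    linarith
  · have h1 : Φn n i - m * dist (Y n i) y' ≤ env D Y Φn M m y' :=
      le_env hM0 hM (Or.inr ⟨n, hn, i, hi, rfl⟩)
    have h2 : dist (Y n i) y' ≤ dist (Y n i) y + dist y y' := dist_triangle _ _ _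
    have h3 : (m : ℝ) * dist (Y n i) y' ≤ m * dist (Y n i) y + m * dist y y' := by
      rw [← mul_add]
      gcongr
    linarith

theorem env_cont (hM0 : 0 ≤ M) (hM : ∀ n, ∀ i ∈ D n, |Φn n i| ≤ M) (m : ℕ) :
    Continuous (env D Y Φn M m) := by
  have : LipschitzWith m (env D Y Φn M m) := by
    apply LipschitzWith.of_le_add_mul
    intro y y'
    exact env_lip hM0 hM m y y'
  exact this.continuous

theorem env_anti (hM0 : 0 ≤ M) (hM : ∀ n, ∀ i ∈ D n, |Φn n i| ≤ M) (y : E) :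
    Antitone (fun m => env D Y Φn M m y) := by
  intro m m' hmm
  apply csSup_le (envS_nonempty m' y)
  rintro t (rfl | ⟨n, hn, i, hi, rfl⟩)
  · exact neg_le_env hM0 hM m y
  · have h1 : Φn n i - m * dist (Y n i) y ≤ env D Y Φn M m y :=
      le_env hM0 hM (Or.inr ⟨n, hmm.trans hn, i, hi, rfl⟩)
    have h2 : (m : ℝ) * dist (Y n i) y ≤ m' * dist (Y n i) y := by
      gcongr
    linarith

/-- `y` is a limit of values of `Y`. -/
def IsLim (D : ℕ → Finset ι) (Y : ℕ → ι → E) (y : E) : Prop :=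
  ∃ (n : ℕ → ℕ) (ω : ℕ → ι), Tendsto n atTop atTop ∧ (∀ j, ω j ∈ D (n j)) ∧
    Tendsto (fun j => Y (n j) (ω j)) atTop (𝓝 y)

theorem not_isLim {y : E} (h : ¬ IsLim D Y y) : ∃ c > 0, ∃ m, ∀ n, m ≤ n → ∀ i ∈ D n, c ≤ dist (Y n i) y := by
  by_contra hcon
  push Not at hcon
  apply h
  choose n hn ω hω hd using fun j : ℕ => hcon (1 / (j + 1 : ℝ)) (by positivity) j
  refine ⟨n, ω, tendsto_atTop_mono hn tendsto_id, hω, ?_⟩
  rw [tendsto_iff_dist_tendsto_zero]
  exact squeeze_zero (fun _ => dist_nonneg) (fun j => (hd j).le) tendsto_one_div_add_atTop_nhds_zero_nat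

theorem env_tendsto_of_not (hM0 : 0 ≤ M) (hM : ∀ n, ∀ i ∈ D n, |Φn n i| ≤ M) {y : E}
    (h : ¬ IsLim D Y y) : Tendsto (fun m => env D Y Φn M m y) atTop (𝓝 (-M)) := by
  obtain ⟨c, hc, m0, hm0⟩ := not_isLim h
  obtain ⟨m1, hm1⟩ := exists_nat_gt (2 * M / c)
  apply tendsto_const_nhds.congr'
  filter_upwards [eventually_ge_atTop (max m0 m1)] with m hm
  have h0 : m0 ≤ m := (le_max_left _ _).trans hm
  have h1 : m1 ≤ m := (le_max_right _ _).trans hm
  apply le_antisymm (neg_le_env hM0 hM m y)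
  apply csSup_le (envS_nonempty m y)
  rintro t (rfl | ⟨n, hn, i, hi, rfl⟩)
  · exact le_rfl
  · have h2 := (abs_le.1 (hM n i hi)).2
    have h3 := hm0 n (h0.trans hn) i hi
    have h4 : 2 * M / c < m := hm1.trans_le (by exact_mod_cast h1)
    rw [div_lt_iff₀ hc] at h4
    have h5 : (m : ℝ) * c ≤ m * dist (Y n i) y := by gcongr
    linarith

theorem env_tendsto_of_lim (hM0 : 0 ≤ M) (hM : ∀ n, ∀ i ∈ D n, |Φn n i| ≤ M) {y : E} {φ : ℝ}
    (h : IsLim D Y y)
    (hφ : ∀ (n : ℕ → ℕ) (ω : ℕ → ι), Tendsto n atTop atTop → (∀ j, ω j ∈ D (n j)) →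
      Tendsto (fun j => Y (n j) (ω j)) atTop (𝓝 y) → Tendsto (fun j => Φn (n j) (ω j)) atTop (𝓝 φ)) :
    Tendsto (fun m => env D Y Φn M m y) atTop (𝓝 φ) := by
  rw [tendsto_order]
  constructor
  · -- `φ ≤ env m y` for every `m`
    intro c hc
    filter_upwards with m
    refine hc.trans_le ?_
    obtain ⟨n, ω, hn, hω, hY⟩ := h
    have h1 := hφ n ω hn hω hY
    have h2 : Tendsto (fun j => Φn (n j) (ω j) - m * dist (Y (n j) (ω j)) y) atTop (𝓝 φ) := by
      have h3 := (tendsto_iff_dist_tendsto_zero.1 hY).const_mul (m : ℝ)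
      simpa using h1.sub h3
    apply le_of_tendsto h2
    filter_upwards [hn.eventually_ge_atTop m] with j hj
    exact le_env hM0 hM (Or.inr ⟨n j, hj, ω j, hω j, rfl⟩)
  · intro c hc
    by_contra hcon
    rw [not_eventually] at hcon
    -- for every `m`, `c ≤ env m y`
    have hall : ∀ m, c ≤ env D Y Φn M m y := by
      intro m
      obtain ⟨m', hm', hc'⟩ := (frequently_atTop.1 hcon) m
      exact (not_lt.1 hc').trans (env_anti hM0 hM y hm')
    set c' := (φ + c) / 2 with hc'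
    have hcc : c' < c := by rw [hc']; linarith
    have hφc : φ < c' := by rw [hc']; linarith
    -- there is a value above `c'`
    have key : ∀ m : ℕ, ∃ t ∈ envS D Y Φn M m y, c' < t := fun m =>
      exists_lt_of_lt_csSup (envS_nonempty m y) (hcc.trans_le (hall m))
    have hMc : -M ≤ φ := by
      obtain ⟨n, ω, hn, hω, hY⟩ := h
      apply ge_of_tendsto (hφ n ω hn hω hY)
      filter_upwards with j
      exact (abs_le.1 (hM _ _ (hω j))).1
    have key2 : ∀ m : ℕ, ∃ n, m ≤ n ∧ ∃ i ∈ D n, c' < Φn n i - m * dist (Y n i) y := by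
      intro m
      obtain ⟨t, ht, htc⟩ := key m
      rcases ht with rfl | ⟨n, hn, i, hi, rfl⟩
      · linarith
      · exact ⟨n, hn, i, hi, htc⟩
    choose n hn ω hω hd using key2
    have hdist : Tendsto (fun j => Y (n j) (ω j)) atTop (𝓝 y) := by
      rw [tendsto_iff_dist_tendsto_zero]
      have hb : ∀ j : ℕ, 1 ≤ j → dist (Y (n j) (ω j)) y ≤ 2 * M / j := by
        intro j hj
        have hj0 : (0 : ℝ) < j := by positivity
        rw [le_div_iff₀ hj0]
        have h1 := hd j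
        have h2 := (abs_le.1 (hM _ _ (hω j))).2
        linarith
      apply squeeze_zero' (Eventually.of_forall (fun _ => dist_nonneg))
        (g := fun j : ℕ => 2 * M / (j : ℝ))
      · filter_upwards [eventually_ge_atTop 1] with j hj
        exact hb j hj
      · exact tendsto_const_div_atTop_nhds_zero_nat _
    have h1 := hφ n ω (tendsto_atTop_mono hn tendsto_id) hω hdist
    have h2 : c' ≤ φ := by
      apply ge_of_tendsto h1
      filter_upwards with j
      have := hd j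
      have h3 : 0 ≤ (j : ℝ) * dist (Y (n j) (ω j)) y := by positivity
      linarith
    linarith

end

/-- Extended continuous mapping theorem for limits of finite laws. -/
theorem ecmt {ι E Θ : Type*} [PseudoMetricSpace E] [MeasurableSpace Θ] (P : Measure Θ)
    [IsProbabilityMeasure P] {D : ℕ → Finset ι} {Y : ℕ → ι → E} {Z : Θ → E}
    (hZ : ∀ F : E → ℝ, Continuous F → AEStronglyMeasurable (fun x => F (Z x)) P)
    (hLIM : ∀ F : E → ℝ, Continuous F → (∃ C, ∀ y, |F y| ≤ C) →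
      Tendsto (fun n => avg (D n) (fun i => F (Y n i))) atTop (𝓝 (∫ x, F (Z x) ∂P)))
    {Φn : ℕ → ι → ℝ} {Φ : Θ → ℝ} {M : ℝ} (hM : ∀ n, ∀ i ∈ D n, |Φn n i| ≤ M)
    (hlim : ∀ᵐ x ∂P, ∀ (n : ℕ → ℕ) (ω : ℕ → ι), Tendsto n atTop atTop → (∀ j, ω j ∈ D (n j)) →
      Tendsto (fun j => Y (n j) (ω j)) atTop (𝓝 (Z x)) →
      Tendsto (fun j => Φn (n j) (ω j)) atTop (𝓝 (Φ x))) :
    AEStronglyMeasurable Φ P ∧ Tendsto (fun n => avg (D n) (Φn n)) atTop (𝓝 (∫ x, Φ x ∂P)) ∧
      ∀ᵐ x ∂P, IsLim D Y (Z x) := by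
  set M' := |M| + 1 with hM'
  have hM'pos : 0 < M' := by positivity
  have hM1 : ∀ n, ∀ i ∈ D n, |Φn n i| ≤ M' := fun n i hi =>
    (hM n i hi).trans ((le_abs_self M).trans (by linarith))
  have hM2 : ∀ n, ∀ i ∈ D n, |(fun n i => - Φn n i) n i| ≤ M' := fun n i hi => by
    simpa using hM1 n i hi
  -- the limits of the envelopes
  set W : ℕ → Θ → ℝ := fun m x => env D Y Φn M' m (Z x) with hW
  set L : ℕ → Θ → ℝ := fun m x => env D Y (fun n i => - Φn n i) M' m (Z x) with hL
  have hWlim : ∀ᵐ x ∂P, (IsLim D Y (Z x) ∧ Tendsto (fun m => W m x) atTop (𝓝 (Φ x)) ∧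
      Tendsto (fun m => L m x) atTop (𝓝 (-Φ x))) ∨
      (¬ IsLim D Y (Z x) ∧ Tendsto (fun m => W m x) atTop (𝓝 (-M')) ∧
      Tendsto (fun m => L m x) atTop (𝓝 (-M'))) := by
    filter_upwards [hlim] with x hx
    by_cases h : IsLim D Y (Z x)
    · left
      refine ⟨h, env_tendsto_of_lim hM'pos.le hM1 h hx, ?_⟩
      apply env_tendsto_of_lim hM'pos.le hM2 h
      intro n ω hn hω hY
      exact (hx n ω hn hω hY).neg
    · right
      exact ⟨h, env_tendsto_of_not hM'pos.le hM1 h, env_tendsto_of_not hM'pos.le hM2 h⟩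
  have mW : ∀ m, AEStronglyMeasurable (W m) P := fun m => hZ _ (env_cont hM'pos.le hM1 m)
  have mL : ∀ m, AEStronglyMeasurable (L m) P := fun m => hZ _ (env_cont hM'pos.le hM2 m)
  classical
  set Winf : Θ → ℝ := fun x => if IsLim D Y (Z x) then Φ x else -M' with hWinf
  set Linf : Θ → ℝ := fun x => if IsLim D Y (Z x) then -Φ x else -M' with hLinf
  have cW : ∀ᵐ x ∂P, Tendsto (fun m => W m x) atTop (𝓝 (Winf x)) := by
    filter_upwards [hWlim] with x hx
    rcases hx with ⟨h, h1, _⟩ | ⟨h, h1, _⟩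
    · simpa only [hWinf, h, if_true] using h1
    · simpa only [hWinf, h, if_false] using h1
  have cL : ∀ᵐ x ∂P, Tendsto (fun m => L m x) atTop (𝓝 (Linf x)) := by
    filter_upwards [hWlim] with x hx
    rcases hx with ⟨h, _, h1⟩ | ⟨h, _, h1⟩
    · simpa only [hLinf, h, if_true] using h1
    · simpa only [hLinf, h, if_false] using h1
  have mWinf : AEStronglyMeasurable Winf P := aestronglyMeasurable_of_tendsto_ae atTop mW cW
  have mLinf : AEStronglyMeasurable Linf P := aestronglyMeasurable_of_tendsto_ae atTop mL cL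
  have bW : ∀ m x, ‖W m x‖ ≤ M' := fun m x => abs_env_le hM'pos.le hM1 m _
  have bL : ∀ m x, ‖L m x‖ ≤ M' := fun m x => abs_env_le hM'pos.le hM2 m _
  have iW : Tendsto (fun m => ∫ x, W m x ∂P) atTop (𝓝 (∫ x, Winf x ∂P)) :=
    tendsto_integral_of_dominated_convergence (fun _ => M') mW (integrable_const _)
      (fun m => Eventually.of_forall (bW m)) cW
  have iL : Tendsto (fun m => ∫ x, L m x ∂P) atTop (𝓝 (∫ x, Linf x ∂P)) :=
    tendsto_integral_of_dominated_convergence (fun _ => M') mL (integrable_const _)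
      (fun m => Eventually.of_forall (bL m)) cL
  -- upper and lower bounds for the averages
  have up : ∀ ε > 0, ∀ᶠ n in atTop, avg (D n) (Φn n) < (∫ x, Winf x ∂P) + ε := by
    intro ε hε
    obtain ⟨m, hm⟩ := ((tendsto_order.1 iW).2 ((∫ x, Winf x ∂P) + ε / 2) (by linarith)).exists
    have h1 := hLIM (env D Y Φn M' m) (env_cont hM'pos.le hM1 m) ⟨M', abs_env_le hM'pos.le hM1 m⟩
    have h2 := (tendsto_order.1 h1).2 ((∫ x, Winf x ∂P) + ε) (by
      have : ∫ x, env D Y Φn M' m (Z x) ∂P = ∫ x, W m x ∂P := rfl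
      rw [this]
      linarith)
    filter_upwards [h2, eventually_ge_atTop m] with n hn hnm
    refine lt_of_le_of_lt (avg_mono _ ?_) hn
    intro i hi
    have h3 : Φn n i - m * dist (Y n i) (Y n i) ≤ env D Y Φn M' m (Y n i) :=
      le_env hM'pos.le hM1 (Or.inr ⟨n, hnm, i, hi, rfl⟩)
    simpa using h3
  have low : ∀ ε > 0, ∀ᶠ n in atTop, - (∫ x, Linf x ∂P) - ε < avg (D n) (Φn n) := by
    intro ε hε
    obtain ⟨m, hm⟩ := ((tendsto_order.1 iL).2 ((∫ x, Linf x ∂P) + ε / 2) (by linarith)).exists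
    have h1 := hLIM (env D Y (fun n i => - Φn n i) M' m) (env_cont hM'pos.le hM2 m)
      ⟨M', abs_env_le hM'pos.le hM2 m⟩
    have h2 := (tendsto_order.1 h1).2 ((∫ x, Linf x ∂P) + ε) (by
      have : ∫ x, env D Y (fun n i => - Φn n i) M' m (Z x) ∂P = ∫ x, L m x ∂P := rfl
      rw [this]
      linarith)
    filter_upwards [h2, eventually_ge_atTop m] with n hn hnm
    have h4 : avg (D n) (fun i => - Φn n i) < (∫ x, Linf x ∂P) + ε := by
      refine lt_of_le_of_lt (avg_mono _ ?_) hn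
      intro i hi
      have h3 : - Φn n i - m * dist (Y n i) (Y n i) ≤ env D Y (fun n i => - Φn n i) M' m (Y n i) :=
        le_env hM'pos.le hM2 (Or.inr ⟨n, hnm, i, hi, rfl⟩)
      simpa using h3
    rw [avg_neg] at h4
    linarith
  have intW : Integrable Winf P := by
    refine Integrable.of_bound mWinf M' ?_
    filter_upwards [cW] with x hx
    exact le_of_tendsto hx.norm (Eventually.of_forall (fun m => bW m x))
  have intL : Integrable Linf P := by
    refine Integrable.of_bound mLinf M' ?_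
    filter_upwards [cL] with x hx
    exact le_of_tendsto hx.norm (Eventually.of_forall (fun m => bL m x))
  -- `-Linf = Winf` almost everywhere
  have hge : 0 ≤ ∫ x, (Winf x + Linf x) ∂P := by
    rw [integral_add intW intL]
    by_contra hcon
    push Not at hcon
    set ε := -((∫ x, Winf x ∂P) + ∫ x, Linf x ∂P) / 2 with hε
    obtain ⟨n, h1, h2⟩ := ((up ε (by linarith)).and (low ε (by linarith))).exists
    linarith
  have hle : ∀ x, Winf x + Linf x ≤ 0 := by
    intro x
    simp only [hWinf, hLinf]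
    split_ifs
    · linarith
    · linarith
  have hz : ∀ᵐ x ∂P, Winf x + Linf x = 0 := by
    have h1 : ∫ x, -(Winf x + Linf x) ∂P = 0 := by
      rw [integral_neg]
      have : ∫ x, (Winf x + Linf x) ∂P ≤ 0 := integral_nonpos hle
      linarith
    have h2 := (integral_eq_zero_iff_of_nonneg (μ := P) (f := fun x => -(Winf x + Linf x))
      (fun x => by
        have := hle x
        show (0 : ℝ) ≤ -(Winf x + Linf x)
        linarith) (intW.add intL).neg).1 h1
    filter_upwards [h2] with x hx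
    have h3 : -(Winf x + Linf x) = 0 := hx
    linarith
  have hIs : ∀ᵐ x ∂P, IsLim D Y (Z x) := by
    filter_upwards [hz] with x hx
    by_contra h
    simp only [hWinf, hLinf, h, if_false] at hx
    linarith
  have hWΦ : Winf =ᵐ[P] Φ := by
    filter_upwards [hIs] with x hx
    simp only [hWinf, hx, if_true]
  refine ⟨mWinf.congr hWΦ, ?_, hIs⟩
  rw [← integral_congr_ae hWΦ]
  have hLΦ : ∫ x, Linf x ∂P = - ∫ x, Winf x ∂P := by
    have : ∫ x, (Winf x + Linf x) ∂P = 0 := by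
      rw [integral_congr_ae hz]
      simp
    rw [integral_add intW intL] at this
    linarith
  rw [tendsto_order]
  constructor
  · intro c hc
    filter_upwards [low ((∫ x, Winf x ∂P) - c) (by linarith)] with n hn
    rw [hLΦ] at hn
    linarith
  · intro c hc
    filter_upwards [up (c - ∫ x, Winf x ∂P) (by linarith)] with n hn
    linarith

end Vale.Agent.P155.K
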