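import Vale.Agent.P155.K.Disc
import Vale.Agent.P155.K.Supp
import Mathlib.MeasureTheory.Constructions.BorelSpace.Order

/-!
# P155 block K: the field `gff` of the limit
-/

namespace Vale.Agent.P155.K

open Vale.Agent.P155 MeasureTheory Filter Topology TopologicalSpace

theorem avg_re {ι : Type*} (D : Finset ι) (f : ι → ℂ) : (avg D f).re = avg D (fun i => (f i).re) := by
  unfold avg
  rw [Complex.real_smul, Complex.re_ofReal_mul, Complex.re_sum, smul_eq_mul]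

theorem avg_im {ι : Type*} (D : Finset ι) (f : ι → ℂ) : (avg D f).im = avg D (fun i => (f i).im) := by
  unfold avg
  rw [Complex.real_smul, Complex.im_ofReal_mul, Complex.im_sum, smul_eq_mul]

/-- complex version of the extended continuous mapping theorem -/
theorem ecmtC {ι E Θ : Type*} [PseudoMetricSpace E] [MeasurableSpace Θ] (P : Measure Θ)
    [IsProbabilityMeasure P] {D : ℕ → Finset ι} {Y : ℕ → ι → E} {Z : Θ → E}
    (hZ : ∀ F : E → ℝ, Continuous F → AEStronglyMeasurable (fun x => F (Z x)) P)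
    (hLIM : ∀ F : E → ℝ, Continuous F → (∃ C, ∀ y, |F y| ≤ C) →
      Tendsto (fun n => avg (D n) (fun i => F (Y n i))) atTop (𝓝 (∫ x, F (Z x) ∂P)))
    {Φn : ℕ → ι → ℂ} {Φ : Θ → ℂ} {M : ℝ} (hM : ∀ n, ∀ i ∈ D n, ‖Φn n i‖ ≤ M)
    (hlim : ∀ᵐ x ∂P, ∀ (n : ℕ → ℕ) (ω : ℕ → ι), Tendsto n atTop atTop → (∀ j, ω j ∈ D (n j)) →
      Tendsto (fun j => Y (n j) (ω j)) atTop (𝓝 (Z x)) →
      Tendsto (fun j => Φn (n j) (ω j)) atTop (𝓝 (Φ x))) :
    AEStronglyMeasurable Φ P ∧ Tendsto (fun n => avg (D n) (Φn n)) atTop (𝓝 (∫ x, Φ x ∂P)) ∧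
      ∀ᵐ x ∂P, IsLim D Y (Z x) := by
  have h1 := ecmt P hZ hLIM (Φn := fun n i => (Φn n i).re) (Φ := fun x => (Φ x).re) (M := M)
    (fun n i hi => (Complex.abs_re_le_norm _).trans (hM n i hi)) (by
      filter_upwards [hlim] with x hx n ω hn hω hY
      exact (Complex.continuous_re.tendsto _).comp (hx n ω hn hω hY))
  have h2 := ecmt P hZ hLIM (Φn := fun n i => (Φn n i).im) (Φ := fun x => (Φ x).im) (M := M)
    (fun n i hi => (Complex.abs_im_le_norm _).trans (hM n i hi)) (by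
      filter_upwards [hlim] with x hx n ω hn hω hY
      exact (Complex.continuous_im.tendsto _).comp (hx n ω hn hω hY))
  have hmeas : AEStronglyMeasurable Φ P := by
    have h3 : AEStronglyMeasurable (fun x => (((Φ x).re : ℝ) : ℂ) + ((Φ x).im : ℝ) * Complex.I) P :=
      (Complex.continuous_ofReal.comp_aestronglyMeasurable h1.1).add
        ((Complex.continuous_ofReal.comp_aestronglyMeasurable h2.1).mul_const _)
    refine h3.congr ?_
    filter_upwards with x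
    exact Complex.re_add_im _
  refine ⟨hmeas, ?_, h1.2.2⟩
  have hbd : ∀ᵐ x ∂P, ‖Φ x‖ ≤ M := by
    filter_upwards [hlim, h1.2.2] with x hx hx2
    obtain ⟨n, ω, hn, hω, hY⟩ := hx2
    exact le_of_tendsto (hx n ω hn hω hY).norm (Eventually.of_forall (fun j => hM _ _ (hω j)))
  have hint : Integrable Φ P := Integrable.of_bound hmeas M hbd
  have e1 : (∫ x, Φ x ∂P).re = ∫ x, (Φ x).re ∂P := by
    have := integral_re (𝕜 := ℂ) hint
    exact this.symm
  have e2 : (∫ x, Φ x ∂P).im = ∫ x, (Φ x).im ∂P := by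
    have := integral_im (𝕜 := ℂ) hint
    exact this.symm
  rw [← Complex.re_add_im (∫ x, Φ x ∂P), e1, e2]
  have e3 : ∀ n, avg (D n) (Φn n) = ((avg (D n) (fun i => (Φn n i).re) : ℝ) : ℂ) +
      ((avg (D n) (fun i => (Φn n i).im) : ℝ) : ℂ) * Complex.I := by
    intro n
    rw [← avg_re, ← avg_im, Complex.re_add_im]
  simp_rw [e3]
  exact ((Complex.continuous_ofReal.tendsto _).comp h1.2.1).add
    (((Complex.continuous_ofReal.tendsto _).comp h2.2.1).mul_const _)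

/-- Data of a subsequential limit. -/
structure LimData {Ω : Set ℂ} (S : TempApprox Ω) (n : ℕ → ℕ) {Θ : Type} [MeasurableSpace Θ]
    (P : Measure Θ) (G : ℕ → Θ → NonemptyCompacts ℂ) (H : ℕ → Θ → (ℂ → ℝ) → ℝ) : Prop where
  tends : Tendsto n atTop atTop
  mG : ∀ k, @Measurable _ _ _ (borel (NonemptyCompacts ℂ)) (G k)
  mH : ∀ k φ, Vale.Agent.P155.IsTest Ω φ → Measurable (fun x => H k x φ)
  lim : ∀ (k m : ℕ) (χ : Fin m → ℂ → ℝ), (∀ i, Vale.Agent.P155.IsTest Ω (χ i)) →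
    ∀ F : (Fin k → NonemptyCompacts ℂ) × (Fin k → Fin m → ℝ) → ℝ, Continuous F →
    (∃ C, ∀ y, |F y| ≤ C) →
    Tendsto (fun j => Ex (S.T (n j)).V (fun ω => F (fun l => toNC (gasket (S.δ (n j)) (S.a (n j))
        (S.T (n j)) l ω), fun l i => heightInt (S.δ (n j)) (S.a (n j)) l ω (χ i)))) atTop
      (𝓝 (∫ x, F (fun l => G l x, fun l i => H l x (χ i)) ∂P))

section
variable {Ω : Set ℂ} {S : TempApprox Ω} {n : ℕ → ℕ} {Θ : Type} [MeasurableSpace Θ]
  {P : Measure Θ} [IsProbabilityMeasure P] {G : ℕ → Θ → NonemptyCompacts ℂ}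
  {H : ℕ → Θ → (ℂ → ℝ) → ℝ}

/-- the discrete random variable -/
noncomputable def Yv (S : TempApprox Ω) (n : ℕ → ℕ) (k : ℕ) {m : ℕ} (χ : Fin m → ℂ → ℝ) (j : ℕ)
    (ω : Conf) : (Fin k → NonemptyCompacts ℂ) × (Fin k → Fin m → ℝ) :=
  (fun l => toNC (gasket (S.δ (n j)) (S.a (n j)) (S.T (n j)) l ω),
    fun l i => heightInt (S.δ (n j)) (S.a (n j)) l ω (χ i))

/-- the limiting random variable -/
def Zv (G : ℕ → Θ → NonemptyCompacts ℂ) (H : ℕ → Θ → (ℂ → ℝ) → ℝ) (k : ℕ) {m : ℕ}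
    (χ : Fin m → ℂ → ℝ) (x : Θ) : (Fin k → NonemptyCompacts ℂ) × (Fin k → Fin m → ℝ) :=
  (fun l => G l x, fun l i => H l x (χ i))

omit [IsProbabilityMeasure P] in
theorem LimData.hZ (L : LimData S n P G H) (k : ℕ) {m : ℕ} {χ : Fin m → ℂ → ℝ}
    (hχ : ∀ i, Vale.Agent.P155.IsTest Ω (χ i))
    (F : (Fin k → NonemptyCompacts ℂ) × (Fin k → Fin m → ℝ) → ℝ) (hF : Continuous F) :
    AEStronglyMeasurable (fun x => F (Zv G H k χ x)) P := by
  let _ : MeasurableSpace (NonemptyCompacts ℂ) := borel _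
  have : BorelSpace (NonemptyCompacts ℂ) := ⟨rfl⟩
  have h1 : Measurable (fun x => (fun l : Fin k => G l x)) :=
    measurable_pi_lambda _ (fun l => L.mG l)
  have h2 : Measurable (fun x => (fun (l : Fin k) (i : Fin m) => H l x (χ i))) :=
    measurable_pi_lambda _ (fun l => measurable_pi_lambda _ (fun i => L.mH l (χ i) (hχ i)))
  have h3 : Measurable (Zv G H k χ) := h1.prodMk h2
  exact (hF.measurable.comp h3).aestronglyMeasurable

/-- the functional identity in the limit, at the level of the extended mapping theorem -/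
theorem LimData.ecm (L : LimData S n P G H) (k : ℕ) {m : ℕ} {χ : Fin m → ℂ → ℝ}
    (hχ : ∀ i, Vale.Agent.P155.IsTest Ω (χ i)) {Φn : ℕ → Conf → ℂ} {Φ : Θ → ℂ} {M : ℝ}
    (hM : ∀ j, ∀ ω ∈ DD (S.T (n j)).V, ‖Φn j ω‖ ≤ M)
    (hlim : ∀ᵐ x ∂P, ∀ (j : ℕ → ℕ) (ω : ℕ → Conf), Tendsto j atTop atTop →
      (∀ i, ω i ∈ DD (S.T (n (j i))).V) →
      Tendsto (fun i => Yv S n k χ (j i) (ω i)) atTop (𝓝 (Zv G H k χ x)) →
      Tendsto (fun i => Φn (j i) (ω i)) atTop (𝓝 (Φ x))) :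
    AEStronglyMeasurable Φ P ∧
      Tendsto (fun j => Ex (S.T (n j)).V (Φn j)) atTop (𝓝 (∫ x, Φ x ∂P)) ∧
      ∀ᵐ x ∂P, IsLim (fun j => DD (S.T (n j)).V) (Yv S n k χ) (Zv G H k χ x) :=
  ecmtC P (D := fun j => DD (S.T (n j)).V) (Y := Yv S n k χ) (Z := Zv G H k χ)
    (fun F hF => L.hZ k hχ F hF) (fun F hF hb => L.lim k m χ hχ F hF hb) hM hlim

theorem norm_Ex_le {V : Finset Pt} {g : Conf → ℂ} {M : ℝ} (hM : 0 ≤ M) (h : ∀ ω ∈ DD V, ‖g ω‖ ≤ M) :
    ‖Ex V g‖ ≤ M := by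
  unfold Ex
  rw [norm_smul, norm_inv, Real.norm_of_nonneg (by positivity)]
  rcases Nat.eq_zero_or_pos (DD V).card with h0 | h0
  · rw [h0]
    simpa using hM
  · rw [inv_mul_le_iff₀ (by exact_mod_cast h0)]
    calc ‖∑ ω ∈ DD V, g ω‖ ≤ ∑ ω ∈ DD V, ‖g ω‖ := norm_sum_le _ _
      _ ≤ ∑ _ω ∈ DD V, M := Finset.sum_le_sum h
      _ = (DD V).card * M := by rw [Finset.sum_const, nsmul_eq_mul]

theorem Ex_sub {V : Finset Pt} (f g : Conf → ℂ) :
    Ex V (fun ω => f ω - g ω) = Ex V f - Ex V g := by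
  unfold Ex
  rw [Finset.sum_sub_distrib, smul_sub]

theorem Ex_const_mul {V : Finset Pt} (c : ℂ) (f : Conf → ℂ) :
    Ex V (fun ω => c * f ω) = c * Ex V f := by
  unfold Ex
  rw [← Finset.mul_sum, mul_smul_comm]

theorem exp_diff_le (a b : ℝ) : ‖Complex.exp (Complex.I * a) - Complex.exp (Complex.I * b)‖ ≤ |a - b| := by
  have e : Complex.exp (Complex.I * a) - Complex.exp (Complex.I * b) =
      Complex.exp (Complex.I * b) * (Complex.exp (Complex.I * ((a - b : ℝ) : ℂ)) - 1) := by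
    rw [mul_sub, mul_one, ← Complex.exp_add]
    congr 2
    push_cast
    ring
  rw [e, norm_mul]
  have h1 : ‖Complex.exp (Complex.I * b)‖ = 1 := by
    rw [mul_comm]
    exact Complex.norm_exp_ofReal_mul_I b
  rw [h1, one_mul]
  exact Real.norm_exp_I_mul_ofReal_sub_one_le

/-- a choice of the Green functions -/
noncomputable def uG (S : TempApprox Ω) (φ : ℂ → ℝ) (k n : ℕ) (ω : Conf) : Pt → ℝ :=
  Classical.choose (KConn.exists_green_Ok (S.T n) k ω (phin (S.δ n) (S.a n) φ))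

theorem uG_spec (S : TempApprox Ω) (φ : ℂ → ℝ) (k n : ℕ) (ω : Conf) :
    IsGreen (Ok (S.T n) k ω) (phin (S.δ n) (S.a n) φ) (uG S φ k n ω) :=
  Classical.choose_spec (KConn.exists_green_Ok (S.T n) k ω (phin (S.δ n) (S.a n) φ))

/-- the Green energy at level `k` -/
noncomputable def pe (S : TempApprox Ω) (φ : ℂ → ℝ) (k n : ℕ) (ω : Conf) : ℝ :=
  pair (phin (S.δ n) (S.a n) φ) (uG S φ k n ω)

theorem pe_nonneg (S : TempApprox Ω) (φ : ℂ → ℝ) (k n : ℕ) (ω : Conf) : 0 ≤ pe S φ k n ω := by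
  unfold pe
  rw [pair_green (KConn.Ok_finite (S.T n) k ω) (uG_spec S φ k n ω)]
  exact energy_nonneg _

theorem pe_tendsto (hΩ : IsOpen Ω) (hb : Bornology.IsBounded Ω) (k : ℕ) {φ : ℂ → ℝ}
    (hφ : K.IsTest Ω φ) {N : ℕ → ℕ} (hN : Tendsto N atTop atTop)
    {ω : ℕ → Conf} (hω : ∀ j, ω j ∈ DD (S.T (N j)).V) {G : NonemptyCompacts ℂ}
    (hG : Tendsto (fun j => toNC (gasket (S.δ (N j)) (S.a (N j)) (S.T (N j)) k (ω j))) atTop (𝓝 G)) :
    Tendsto (fun j => pe S φ k (N j) (ω j)) atTop (𝓝 (greenEnergy (Ω \ (G : Set ℂ)) φ)) :=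
  green_gasket S hΩ hb k hφ.smooth.continuous hφ.cpt hN hω hG (fun j => uG_spec S φ k (N j) (ω j))

/-- restriction to the first `k + 1` levels and the functions `χ` -/
def restr {k m : ℕ} (y : (Fin (k + 2) → NonemptyCompacts ℂ) × (Fin (k + 2) → Fin (m + 1) → ℝ)) :
    (Fin (k + 1) → NonemptyCompacts ℂ) × (Fin (k + 1) → Fin m → ℝ) :=
  (fun j => y.1 j.castSucc, fun j i => y.2 j.castSucc i.succ)

theorem continuous_restr {k m : ℕ} : Continuous (restr (k := k) (m := m)) := by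
  unfold restr
  fun_prop

/-- the increment of the last level -/
def dif {k m : ℕ} (y : (Fin (k + 2) → NonemptyCompacts ℂ) × (Fin (k + 2) → Fin (m + 1) → ℝ)) : ℝ :=
  y.2 (Fin.last (k + 1)) 0 - y.2 (Fin.castSucc (Fin.last k)) 0

theorem continuous_dif {k m : ℕ} : Continuous (dif (k := k) (m := m)) := by
  unfold dif
  fun_prop

/-- The discrete identity, in the limit. -/
theorem disc_limit (hΩ : IsOpen Ω) (hb : Bornology.IsBounded Ω) (hJ : J.J_star)
    (hn : Tendsto n atTop atTop) (k : ℕ) {m : ℕ} {χ : Fin m → ℂ → ℝ} {φ : ℂ → ℝ}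
    (hφ : K.IsTest Ω φ) {F : (Fin (k + 1) → NonemptyCompacts ℂ) × (Fin (k + 1) → Fin m → ℝ) → ℝ}
    (hF : ∃ C, ∀ y, |F y| ≤ C) :
    Tendsto (fun j =>
      Ex (S.T (n j)).V (fun ω => (F (restr (Yv S n (k + 2) (Fin.cons φ χ : Fin (m + 1) → ℂ → ℝ) j ω)) : ℂ) *
        Complex.exp (Complex.I * (Real.sqrt (Real.pi / 2) : ℝ) *
          (dif (Yv S n (k + 2) (Fin.cons φ χ : Fin (m + 1) → ℂ → ℝ) j ω) : ℝ)
          - (pe S φ (k + 1) (n j) ω : ℝ) / 2)) -
      Ex (S.T (n j)).V (fun ω => (F (restr (Yv S n (k + 2) (Fin.cons φ χ : Fin (m + 1) → ℂ → ℝ) j ω)) : ℂ) *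
        Complex.exp (- (pe S φ k (n j) ω : ℝ) / 2))) atTop (𝓝 0) := by
  obtain ⟨C, hC⟩ := hF
  set C' := |C| + 1 with hC'
  have hC'pos : 0 < C' := by positivity
  have hCC : ∀ y, |F y| ≤ C' := fun y => (hC y).trans ((le_abs_self C).trans (by linarith))
  rw [Metric.tendsto_nhds]
  intro ε hε
  set θ := Real.sqrt (Real.pi / 2) with hθ
  have hθ0 : 0 ≤ θ := Real.sqrt_nonneg _
  filter_upwards [hn.eventually (jstar_seq S hΩ hJ hb k hφ (ε := ε / (4 * C')) (by positivity)),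
    hn.eventually (disc_close S k hφ.smooth.continuous hφ.cpt (ε := ε / (4 * C' * (θ + 1)))
      (by positivity))] with j hj hclose
  set N := n j with hN
  set Ft : Conf → ℂ := fun ω => ((F (restr (Yv S n (k + 2) (Fin.cons φ χ : Fin (m + 1) → ℂ → ℝ) j ω))
    / C' : ℝ) : ℂ) with hFt
  have hFt1 : ∀ ω ∈ DD (S.T N).V, ‖Ft ω‖ ≤ 1 := by
    intro ω _
    rw [hFt]
    simp only [Complex.norm_real, Real.norm_eq_abs]
    rw [abs_div, abs_of_pos hC'pos, div_le_one hC'pos]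
    exact hCC _
  have hFtm : ∀ ω ∈ DD (S.T N).V, ∀ ω' ∈ DD (S.T N).V, AgreeOff (Fk (S.T N).V k ω) ω ω' →
      Ft ω' = Ft ω := by
    intro ω hω ω' hω' hA
    have : restr (Yv S n (k + 2) (Fin.cons φ χ : Fin (m + 1) → ℂ → ℝ) j ω') =
        restr (Yv S n (k + 2) (Fin.cons φ χ : Fin (m + 1) → ℂ → ℝ) j ω) := by
      unfold restr Yv
      simp only [Prod.mk.injEq]
      constructor
      · funext l
        have hl : ((Fin.castSucc l : Fin (k + 2)) : ℕ) ≤ k := by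
          have := l.2
          simp only [Fin.val_castSucc]
          omega
        rw [KConn.gasket_meas _ _ hω hω' hl hA]
      · funext l i
        have hl : ((Fin.castSucc l : Fin (k + 2)) : ℕ) ≤ k := by
          have := l.2
          simp only [Fin.val_castSucc]
          omega
        rw [KConn.heightInt_meas _ _ hω hω' hl hA]
    rw [hFt]
    simp only [this]
  have h1 := hj (fun ω => uG S φ k N ω) (fun ω => uG S φ (k + 1) N ω)
    (fun ω _ => uG_spec S φ k N ω) (fun ω _ => uG_spec S φ (k + 1) N ω) Ft hFt1 hFtm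
  -- names
  set Xd : Conf → ℝ := fun ω => ∑ᶠ x : Pt, phin (S.δ N) (S.a N) φ x *
    ((hk (k + 1) ω x : ℝ) - hk k ω x) with hXd
  set X : Conf → ℝ := fun ω => dif (Yv S n (k + 2) (Fin.cons φ χ : Fin (m + 1) → ℂ → ℝ) j ω) with hX
  have hXX : ∀ ω ∈ DD (S.T N).V, |Xd ω - X ω| ≤ ε / (4 * C' * (θ + 1)) := by
    intro ω hω
    exact hclose ω hω
  -- replace `Xd` by `X`
  have h2 : ‖Ex (S.T N).V (fun ω => Ft ω * Complex.exp (Complex.I * θ * (Xd ω : ℝ)) *
        (Real.exp (-(1 / 2) * pe S φ (k + 1) N ω) : ℝ)) -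
      Ex (S.T N).V (fun ω => Ft ω * Complex.exp (Complex.I * θ * (X ω : ℝ)) *
        (Real.exp (-(1 / 2) * pe S φ (k + 1) N ω) : ℝ))‖ ≤ ε / (4 * C') := by
    rw [← Ex_sub]
    apply norm_Ex_le (by positivity)
    intro ω hω
    have e1 : Ft ω * Complex.exp (Complex.I * θ * (Xd ω : ℝ)) *
        (Real.exp (-(1 / 2) * pe S φ (k + 1) N ω) : ℝ) -
        Ft ω * Complex.exp (Complex.I * θ * (X ω : ℝ)) *
        (Real.exp (-(1 / 2) * pe S φ (k + 1) N ω) : ℝ) =
        Ft ω * (Complex.exp (Complex.I * ((θ * Xd ω : ℝ) : ℂ)) -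
          Complex.exp (Complex.I * ((θ * X ω : ℝ) : ℂ))) *
        (Real.exp (-(1 / 2) * pe S φ (k + 1) N ω) : ℝ) := by
      push_cast
      rw [mul_assoc Complex.I, mul_assoc Complex.I]
      ring
    rw [e1, norm_mul, norm_mul]
    have b1 := hFt1 ω hω
    have b2 := exp_diff_le (θ * Xd ω) (θ * X ω)
    have b3 : ‖((Real.exp (-(1 / 2) * pe S φ (k + 1) N ω) : ℝ) : ℂ)‖ ≤ 1 := by
      rw [Complex.norm_real, Real.norm_of_nonneg (Real.exp_pos _).le, Real.exp_le_one_iff]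
      have := pe_nonneg S φ (k + 1) N ω
      linarith
    have b4 : |θ * Xd ω - θ * X ω| ≤ ε / (4 * C') := by
      rw [← mul_sub, abs_mul, abs_of_nonneg hθ0]
      calc θ * |Xd ω - X ω| ≤ θ * (ε / (4 * C' * (θ + 1))) := by
            gcongr
            exact hXX ω hω
        _ = (ε / (4 * C')) * (θ / (θ + 1)) := by
            field_simp
        _ ≤ (ε / (4 * C')) * 1 := by
            gcongr
            rw [div_le_one (by positivity)]
            linarith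
        _ = _ := mul_one _
    calc _ ≤ 1 * (ε / (4 * C')) * 1 := by
          gcongr
          exact b2.trans b4
      _ = _ := by ring
  -- combine
  have h3 : ‖Ex (S.T N).V (fun ω => Ft ω * Complex.exp (Complex.I * θ * (X ω : ℝ)) *
        (Real.exp (-(1 / 2) * pe S φ (k + 1) N ω) : ℝ)) -
      Ex (S.T N).V (fun ω => Ft ω * (Real.exp (-(1 / 2) * pe S φ k N ω) : ℝ))‖ ≤ ε / (2 * C') := by
    have := norm_sub_le_norm_sub_add_norm_sub
      (Ex (S.T N).V (fun ω => Ft ω * Complex.exp (Complex.I * θ * (X ω : ℝ)) *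
        (Real.exp (-(1 / 2) * pe S φ (k + 1) N ω) : ℝ)))
      (Ex (S.T N).V (fun ω => Ft ω * Complex.exp (Complex.I * θ * (Xd ω : ℝ)) *
        (Real.exp (-(1 / 2) * pe S φ (k + 1) N ω) : ℝ)))
      (Ex (S.T N).V (fun ω => Ft ω * (Real.exp (-(1 / 2) * pe S φ k N ω) : ℝ)))
    rw [norm_sub_rev] at h2
    have h1' : ‖Ex (S.T N).V (fun ω => Ft ω * Complex.exp (Complex.I * θ * (Xd ω : ℝ)) *
        (Real.exp (-(1 / 2) * pe S φ (k + 1) N ω) : ℝ)) -
      Ex (S.T N).V (fun ω => Ft ω * (Real.exp (-(1 / 2) * pe S φ k N ω) : ℝ))‖ ≤ ε / (4 * C') := h1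
    calc _ ≤ _ := this
      _ ≤ ε / (4 * C') + ε / (4 * C') := add_le_add h2 h1'
      _ = ε / (2 * C') := by field_simp; ring
  rw [dist_zero_right]
  have e4 : ∀ ω, (F (restr (Yv S n (k + 2) (Fin.cons φ χ : Fin (m + 1) → ℂ → ℝ) j ω)) : ℂ) *
        Complex.exp (Complex.I * θ * (X ω : ℝ) - (pe S φ (k + 1) N ω : ℝ) / 2) =
      (C' : ℂ) * (Ft ω * Complex.exp (Complex.I * θ * (X ω : ℝ)) *
        (Real.exp (-(1 / 2) * pe S φ (k + 1) N ω) : ℝ)) := by
    intro ω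
    have e5 : Complex.exp (Complex.I * θ * (X ω : ℝ) - (pe S φ (k + 1) N ω : ℝ) / 2) =
        Complex.exp (Complex.I * θ * (X ω : ℝ)) *
        (Real.exp (-(1 / 2) * pe S φ (k + 1) N ω) : ℝ) := by
      rw [sub_eq_add_neg, Complex.exp_add]
      congr 1
      rw [Complex.ofReal_exp]
      congr 1
      push_cast
      ring
    have e6 : (C' : ℂ) * Ft ω = (F (restr (Yv S n (k + 2) (Fin.cons φ χ : Fin (m + 1) → ℂ → ℝ) j ω)) : ℂ) := by
      rw [hFt]
      push_cast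
      rw [mul_div_cancel₀]
      exact_mod_cast hC'pos.ne'
    rw [e5, ← e6]
    ring
  have e7 : ∀ ω, (F (restr (Yv S n (k + 2) (Fin.cons φ χ : Fin (m + 1) → ℂ → ℝ) j ω)) : ℂ) *
        Complex.exp (- (pe S φ k N ω : ℝ) / 2) =
      (C' : ℂ) * (Ft ω * (Real.exp (-(1 / 2) * pe S φ k N ω) : ℝ)) := by
    intro ω
    have e5 : Complex.exp (- (pe S φ k N ω : ℝ) / 2) =
        (Real.exp (-(1 / 2) * pe S φ k N ω) : ℝ) := by
      rw [Complex.ofReal_exp]
      congr 1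
      push_cast
      ring
    have e6 : (C' : ℂ) * Ft ω = (F (restr (Yv S n (k + 2) (Fin.cons φ χ : Fin (m + 1) → ℂ → ℝ) j ω)) : ℂ) := by
      rw [hFt]
      push_cast
      rw [mul_div_cancel₀]
      exact_mod_cast hC'pos.ne'
    rw [e5, ← e6]
    ring
  have h5 : ‖Ex (S.T N).V (fun ω => (F (restr (Yv S n (k + 2) (Fin.cons φ χ : Fin (m + 1) → ℂ → ℝ) j ω)) : ℂ) *
        Complex.exp (Complex.I * θ * (X ω : ℝ) - (pe S φ (k + 1) N ω : ℝ) / 2)) -
      Ex (S.T N).V (fun ω => (F (restr (Yv S n (k + 2) (Fin.cons φ χ : Fin (m + 1) → ℂ → ℝ) j ω)) : ℂ) *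
        Complex.exp (- (pe S φ k N ω : ℝ) / 2))‖ ≤ C' * (ε / (2 * C')) := by
    simp_rw [e4, e7]
    rw [Ex_const_mul, Ex_const_mul, ← mul_sub, norm_mul, Complex.norm_real,
      Real.norm_of_nonneg hC'pos.le]
    gcongr
  refine lt_of_le_of_lt h5 ?_
  have : C' * (ε / (2 * C')) = ε / 2 := by field_simp
  rw [this]
  linarith

/-- The field `gff` of `IsSignedCarpets`. -/
theorem LimData.gff (hΩ : IsOpen Ω) (hb : Bornology.IsBounded Ω) (hJ : J.J_star)
    (L : LimData S n P G H) (k m : ℕ) (χ : Fin m → ℂ → ℝ) (φ : ℂ → ℝ)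
    (hχ : ∀ i, Vale.Agent.P155.IsTest Ω (χ i)) (hφ : Vale.Agent.P155.IsTest Ω φ)
    (F : (Fin (k + 1) → NonemptyCompacts ℂ) × (Fin (k + 1) → Fin m → ℝ) → ℝ)
    (hF : Continuous F) (hFb : ∃ C, ∀ y, |F y| ≤ C) :
    ∫ x, (F (fun j => G j x, fun j i => H j x (χ i)) : ℂ) *
        Complex.exp (Complex.I * Real.sqrt (Real.pi / 2) * (H (k + 1) x φ - H k x φ) -
          greenEnergy (Ω \ G (k + 1) x) φ / 2) ∂P =
      ∫ x, (F (fun j => G j x, fun j i => H j x (χ i)) : ℂ) *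
        Complex.exp (- greenEnergy (Ω \ G k x) φ / 2) ∂P := by
  have hφ' := isTest_iff.1 hφ
  have hχ' : ∀ i, Vale.Agent.P155.IsTest Ω ((Fin.cons φ χ : Fin (m + 1) → ℂ → ℝ) i) := by
    intro i
    refine Fin.cases ?_ ?_ i
    · exact hφ
    · intro i
      exact hχ i
  obtain ⟨C, hC⟩ := hFb
  have hlimG : ∀ (l : Fin (k + 2)) (x : Θ) (j : ℕ → ℕ) (ω : ℕ → Conf),
      Tendsto (fun i => Yv S n (k + 2) (Fin.cons φ χ : Fin (m + 1) → ℂ → ℝ) (j i) (ω i)) atTop
        (𝓝 (Zv G H (k + 2) (Fin.cons φ χ : Fin (m + 1) → ℂ → ℝ) x)) →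
      Tendsto (fun i => toNC (gasket (S.δ (n (j i))) (S.a (n (j i))) (S.T (n (j i))) l (ω i))) atTop
        (𝓝 (G l x)) := by
    intro l x j ω hY
    exact ((continuous_apply l).comp continuous_fst).tendsto _ |>.comp hY
  have T1 := L.ecm (k + 2) hχ' (Φn := fun j ω =>
      (F (restr (Yv S n (k + 2) (Fin.cons φ χ : Fin (m + 1) → ℂ → ℝ) j ω)) : ℂ) *
        Complex.exp (Complex.I * (Real.sqrt (Real.pi / 2) : ℝ) *
          (dif (Yv S n (k + 2) (Fin.cons φ χ : Fin (m + 1) → ℂ → ℝ) j ω) : ℝ)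
          - (pe S φ (k + 1) (n j) ω : ℝ) / 2))
    (Φ := fun x => (F (fun j => G j x, fun j i => H j x (χ i)) : ℂ) *
        Complex.exp (Complex.I * Real.sqrt (Real.pi / 2) * (H (k + 1) x φ - H k x φ) -
          greenEnergy (Ω \ G (k + 1) x) φ / 2)) (M := C) (by
      intro j ω _
      rw [norm_mul, Complex.norm_real, Real.norm_eq_abs, Complex.norm_exp]
      have h1 : (Complex.I * (Real.sqrt (Real.pi / 2) : ℝ) *
          (dif (Yv S n (k + 2) (Fin.cons φ χ : Fin (m + 1) → ℂ → ℝ) j ω) : ℝ)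
          - (pe S φ (k + 1) (n j) ω : ℝ) / 2).re = - pe S φ (k + 1) (n j) ω / 2 := by
        simp
        ring
      rw [h1]
      have h2 : Real.exp (- pe S φ (k + 1) (n j) ω / 2) ≤ 1 := by
        rw [Real.exp_le_one_iff]
        have := pe_nonneg S φ (k + 1) (n j) ω
        linarith
      have h3 := hC (restr (Yv S n (k + 2) (Fin.cons φ χ : Fin (m + 1) → ℂ → ℝ) j ω))
      have h4 := abs_nonneg (F (restr (Yv S n (k + 2) (Fin.cons φ χ : Fin (m + 1) → ℂ → ℝ) j ω)))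
      have h5 := (Real.exp_pos (- pe S φ (k + 1) (n j) ω / 2)).le
      nlinarith) (by
      filter_upwards with x j ω hj hω hY
      have t1 := pe_tendsto hΩ hb (k + 1) hφ' (L.tends.comp hj) hω (hlimG (Fin.last (k + 1)) x j ω hY)
      have t2 := ((hF.comp continuous_restr).tendsto _).comp hY
      have t3 := (continuous_dif.tendsto _).comp hY
      have t4 := ((Complex.continuous_ofReal.tendsto _).comp t2).mul
        ((Complex.continuous_exp.tendsto _).comp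
          ((((Complex.continuous_ofReal.tendsto _).comp t3).const_mul
            (Complex.I * (Real.sqrt (Real.pi / 2) : ℝ))).sub
            (((Complex.continuous_ofReal.tendsto _).comp t1).div_const 2)))
      have e : (F (fun j => G j x, fun j i => H j x (χ i)) : ℂ) *
          Complex.exp (Complex.I * Real.sqrt (Real.pi / 2) * (H (k + 1) x φ - H k x φ) -
          greenEnergy (Ω \ G (k + 1) x) φ / 2) =
          (((F ∘ restr) (Zv G H (k + 2) (Fin.cons φ χ : Fin (m + 1) → ℂ → ℝ) x) : ℝ) : ℂ) *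
          Complex.exp (Complex.I * (Real.sqrt (Real.pi / 2) : ℝ) *
            ((dif (Zv G H (k + 2) (Fin.cons φ χ : Fin (m + 1) → ℂ → ℝ) x) : ℝ) : ℂ) -
            ((greenEnergy (Ω \ (G (Fin.last (k + 1) : Fin (k + 2)) x : Set ℂ)) φ : ℝ) : ℂ) / 2) := by
        have e1 : dif (Zv G H (k + 2) (Fin.cons φ χ : Fin (m + 1) → ℂ → ℝ) x) =
            H (k + 1) x φ - H k x φ := rfl
        rw [e1]
        push_cast
        rfl
      rw [e]
      exact t4)
  have T2 := L.ecm (k + 2) hχ' (Φn := fun j ω =>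
      (F (restr (Yv S n (k + 2) (Fin.cons φ χ : Fin (m + 1) → ℂ → ℝ) j ω)) : ℂ) *
        Complex.exp (- (pe S φ k (n j) ω : ℝ) / 2))
    (Φ := fun x => (F (fun j => G j x, fun j i => H j x (χ i)) : ℂ) *
        Complex.exp (- greenEnergy (Ω \ G k x) φ / 2)) (M := C) (by
      intro j ω _
      rw [norm_mul, Complex.norm_real, Real.norm_eq_abs, Complex.norm_exp]
      have h1 : (- (pe S φ k (n j) ω : ℂ) / 2).re = - pe S φ k (n j) ω / 2 := by
        simp
      rw [h1]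
      have h2 : Real.exp (- pe S φ k (n j) ω / 2) ≤ 1 := by
        rw [Real.exp_le_one_iff]
        have := pe_nonneg S φ k (n j) ω
        linarith
      have h3 := hC (restr (Yv S n (k + 2) (Fin.cons φ χ : Fin (m + 1) → ℂ → ℝ) j ω))
      have h4 := abs_nonneg (F (restr (Yv S n (k + 2) (Fin.cons φ χ : Fin (m + 1) → ℂ → ℝ) j ω)))
      have h5 := (Real.exp_pos (- pe S φ k (n j) ω / 2)).le
      nlinarith) (by
      filter_upwards with x j ω hj hω hY
      have t1 := pe_tendsto hΩ hb k hφ' (L.tends.comp hj) hω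
        (hlimG (Fin.castSucc (Fin.last k)) x j ω hY)
      have t2 := ((hF.comp continuous_restr).tendsto _).comp hY
      have t4 := ((Complex.continuous_ofReal.tendsto _).comp t2).mul
        ((Complex.continuous_exp.tendsto _).comp
            (((Complex.continuous_ofReal.tendsto _).comp t1).neg.div_const 2))
      exact t4)
  have hD := disc_limit (S := S) (χ := χ) hΩ hb hJ L.tends k hφ' (F := F) ⟨C, hC⟩
  have hD2 := T1.2.1.sub T2.2.1
  have := tendsto_nhds_unique hD2 hD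
  exact sub_eq_zero.1 this

end

end Vale.Agent.P155.K
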