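import Vale.Agent.P155.K.Cell
import Mathlib.Analysis.Calculus.ContDiff.Basic
import Mathlib.Analysis.Calculus.ContDiff.RCLike
import Mathlib.Analysis.Calculus.ContDiff.Convolution

/-!
# P155 block K: the Green energy of a planar open set by the Dirichlet principle, and the
discrete-to-continuum lower bound
-/

namespace Vale.Agent.P155.K

open Vale.Agent.P155 Finset MeasureTheory Filter Topology
open scoped ContDiff

/-- The square of the length of the gradient. -/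
noncomputable def gradSq (v : ℂ → ℝ) (z : ℂ) : ℝ :=
  (fderiv ℝ v z 1) ^ 2 + (fderiv ℝ v z Complex.I) ^ 2

/-- Test functions: smooth functions with compact support in `U`. -/
structure IsTest (U : Set ℂ) (v : ℂ → ℝ) : Prop where
  smooth : ContDiff ℝ ∞ v
  cpt : HasCompactSupport v
  sub : tsupport v ⊆ U

/-- The Dirichlet principle functional. -/
noncomputable def dval (φ v : ℂ → ℝ) : ℝ := 2 * (∫ z, φ z * v z) - ∫ z, gradSq v z

/-- The Green energy `⟨φ, (-Δ_U)⁻¹ φ⟩` of `φ` in the open set `U` (Dirichlet principle). -/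
noncomputable def Gr (U : Set ℂ) (φ : ℂ → ℝ) : ENNReal :=
  ⨆ v : {v : ℂ → ℝ // IsTest U v}, ENNReal.ofReal (dval φ v)

/-- The lattice charge of a function `φ` on the plane. -/
noncomputable def phin (δ : ℝ) (a : ℂ) (φ : ℂ → ℝ) (y : Pt) : ℝ := δ ^ 2 * φ (pos δ a y)

/-- Restriction to the lattice. -/
noncomputable def res (δ : ℝ) (a : ℂ) (v : ℂ → ℝ) (y : Pt) : ℝ := v (pos δ a y)

theorem pos_add1 (δ : ℝ) (a : ℂ) (y : Pt) : pos δ a (y.1 + 1, y.2) = pos δ a y + (δ : ℂ) := by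
  apply Complex.ext
  · simp [pos]
    ring
  · simp [pos]

theorem pos_add2 (δ : ℝ) (a : ℂ) (y : Pt) : pos δ a (y.1, y.2 + 1) = pos δ a y + δ * Complex.I := by
  apply Complex.ext
  · simp [pos]
  · simp [pos]
    ring

theorem finite_pos_le {δ : ℝ} (hδ : 0 < δ) (a : ℂ) (ϱ : ℝ) : {y : Pt | ‖pos δ a y‖ ≤ ϱ}.Finite := by
  apply ((Set.finite_Icc (⌊(-ϱ - a.re) / δ⌋) (⌈(ϱ - a.re) / δ⌉)).prod
    (Set.finite_Icc (⌊(-ϱ - a.im) / δ⌋) (⌈(ϱ - a.im) / δ⌉))).subset
  rintro ⟨y1, y2⟩ hy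
  have h1 := (abs_le.1 ((Complex.abs_re_le_norm _).trans hy))
  have h2 := (abs_le.1 ((Complex.abs_im_le_norm _).trans hy))
  simp only [pos] at h1 h2
  simp only [Set.mem_prod, Set.mem_Icc]
  refine ⟨⟨?_, ?_⟩, ?_, ?_⟩
  · have : (-ϱ - a.re) / δ ≤ y1 := by rw [div_le_iff₀ hδ]; linarith
    exact_mod_cast (Int.floor_le _).trans this
  · have : (y1 : ℝ) ≤ (ϱ - a.re) / δ := by rw [le_div_iff₀ hδ]; linarith
    exact_mod_cast this.trans (Int.le_ceil _)
  · have : (-ϱ - a.im) / δ ≤ y2 := by rw [div_le_iff₀ hδ]; linarith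
    exact_mod_cast (Int.floor_le _).trans this
  · have : (y2 : ℝ) ≤ (ϱ - a.im) / δ := by rw [le_div_iff₀ hδ]; linarith
    exact_mod_cast this.trans (Int.le_ceil _)

/-- A compactly supported function vanishes outside a ball. -/
theorem exists_ball {v : ℂ → ℝ} (hv : HasCompactSupport v) : ∃ ϱ : ℝ, 0 < ϱ ∧ ∀ z, v z ≠ 0 → ‖z‖ ≤ ϱ := by
  obtain ⟨ϱ, hϱ⟩ := hv.isCompact.isBounded.subset_closedBall 0
  refine ⟨max ϱ 1, by positivity, fun z hz => ?_⟩
  have := hϱ (subset_tsupport v hz)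
  rw [mem_closedBall_zero_iff] at this
  exact this.trans (le_max_left _ _)

theorem fin0_res {δ : ℝ} (hδ : 0 < δ) (a : ℂ) {v : ℂ → ℝ} (hv : HasCompactSupport v) :
    Fin0 (res δ a v) := by
  obtain ⟨ϱ, -, hϱ⟩ := exists_ball hv
  exact (finite_pos_le hδ a ϱ).subset (fun y hy => hϱ _ hy)

theorem exists_bound {v : ℂ → ℝ} (hc : Continuous v) (hv : HasCompactSupport v) :
    ∃ M : ℝ, 0 ≤ M ∧ ∀ z, |v z| ≤ M := by
  obtain ⟨M, hM⟩ := hv.exists_bound_of_continuous hc
  exact ⟨M, (norm_nonneg _).trans (hM 0), hM⟩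

/-- Convergence of the lattice pairing. -/
theorem tendsto_pair {δ : ℕ → ℝ} (hδ : ∀ n, 0 < δ n) (hδ0 : Tendsto δ atTop (𝓝 0)) (a : ℕ → ℂ)
    {φ v : ℂ → ℝ} (hφ : Continuous φ) (hφc : HasCompactSupport φ) (hv : Continuous v)
    (hvc : HasCompactSupport v) :
    Tendsto (fun n => pair (phin (δ n) (a n) φ) (res (δ n) (a n) v)) atTop (𝓝 (∫ z, φ z * v z)) := by
  obtain ⟨Mφ, hM0, hMφ⟩ := exists_bound hφ hφc
  obtain ⟨Mv, hN0, hMv⟩ := exists_bound hv hvc
  obtain ⟨ϱ, -, hϱ⟩ := exists_ball hvc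
  have e : ∀ n, pair (phin (δ n) (a n) φ) (res (δ n) (a n) v) =
      δ n ^ 2 * ∑ᶠ y, φ (pos (δ n) (a n) y) * v (pos (δ n) (a n) y) := by
    intro n
    rw [← fsum_mul]
    unfold pair phin res
    congr 1
    funext y
    ring
  simp_rw [e]
  apply tendsto_sum hδ hδ0 a (g := fun n y => φ (pos (δ n) (a n) y) * v (pos (δ n) (a n) y))
    (G := fun z => φ z * v z) (M := Mφ * Mv) (ϱ := ϱ)
  · intro n
    exact (fin0_res (hδ n) (a n) hvc).mul_left (fun y => φ (pos (δ n) (a n) y))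
  · filter_upwards with n y
    rw [abs_mul]
    exact mul_le_mul (hMφ _) (hMv _) (abs_nonneg _) hM0
  · filter_upwards with n y hy
    exact hϱ _ (right_ne_zero_of_mul hy)
  · filter_upwards with z
    have h := tendsto_pos_cell hδ hδ0 a z
    exact ((hφ.tendsto z).comp h).mul ((hv.tendsto z).comp h)

theorem quot_tendsto {v : ℂ → ℝ} (hv : ContDiff ℝ ∞ v) {δ : ℕ → ℝ} (hδ : ∀ n, 0 < δ n)
    (hδ0 : Tendsto δ atTop (𝓝 0)) {z : ℂ} {x : ℕ → ℂ} (hx : Tendsto x atTop (𝓝 z)) (e : ℂ) :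
    Tendsto (fun n => (v (x n + δ n * e) - v (x n)) / δ n) atTop (𝓝 (fderiv ℝ v z e)) := by
  have hs : HasStrictFDerivAt v (fderiv ℝ v z) z :=
    hv.contDiffAt.hasStrictFDerivAt (by simp)
  have hx2 : Tendsto (fun n => x n + δ n * e) atTop (𝓝 z) := by
    have h1 : Tendsto (fun n => ((δ n : ℝ) : ℂ) * e) atTop (𝓝 0) := by
      have := (Complex.continuous_ofReal.tendsto 0).comp hδ0
      simpa using this.mul_const e
    simpa using hx.add h1
  have h1 := hs.isLittleO.comp_tendsto (hx2.prodMk_nhds hx)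
  rw [tendsto_iff_norm_sub_tendsto_zero]
  have h2 : (fun n => v (x n + δ n * e) - v (x n) - fderiv ℝ v z (δ n * e)) =o[atTop]
      (fun n => δ n) := by
    have h3 : (fun n => v (x n + δ n * e) - v (x n) - fderiv ℝ v z (δ n * e)) =o[atTop]
        (fun n => (δ n : ℂ) * e) := by
      refine (h1.congr ?_ ?_)
      · intro n
        simp
      · intro n
        simp
    refine h3.trans_isBigO ?_
    apply Asymptotics.IsBigO.of_bound ‖e‖
    filter_upwards with n
    rw [norm_mul, Complex.norm_real, mul_comm]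
  have h4 := h2.tendsto_div_nhds_zero
  rw [tendsto_zero_iff_norm_tendsto_zero] at h4
  refine h4.congr ?_
  intro n
  congr 1
  have h5 : fderiv ℝ v z (δ n * e) = δ n * fderiv ℝ v z e := by
    have : ((δ n : ℝ) : ℂ) * e = (δ n) • e := (Complex.real_smul).symm
    rw [this, map_smul, smul_eq_mul]
  rw [h5, sub_div, mul_div_assoc, mul_comm (δ n), div_mul_cancel₀ _ (hδ n).ne']

theorem quot_bound {v : ℂ → ℝ} (hv : ContDiff ℝ ∞ v) (hc : HasCompactSupport v) :
    ∃ C : ℝ, 0 ≤ C ∧ ∀ (δ : ℝ), 0 < δ → ∀ (x e : ℂ), ‖e‖ = 1 → |(v (x + δ * e) - v x) / δ| ≤ C := by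
  obtain ⟨C, hC⟩ := ContDiff.lipschitzWith_of_hasCompactSupport hc hv (by simp)
  refine ⟨C, C.2, fun δ hδ x e he => ?_⟩
  have := hC.dist_le_mul (x + δ * e) x
  rw [Real.dist_eq, dist_eq_norm, add_sub_cancel_left, norm_mul, Complex.norm_real, he,
    mul_one, Real.norm_of_nonneg hδ.le] at this
  rw [abs_div, abs_of_pos hδ, div_le_iff₀ hδ]
  exact this

/-- Convergence of the lattice energy. -/
theorem tendsto_energy {δ : ℕ → ℝ} (hδ : ∀ n, 0 < δ n) (hδ0 : Tendsto δ atTop (𝓝 0)) (a : ℕ → ℂ)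
    {v : ℂ → ℝ} (hv : ContDiff ℝ ∞ v) (hvc : HasCompactSupport v) :
    Tendsto (fun n => energy (res (δ n) (a n) v)) atTop (𝓝 (∫ z, gradSq v z)) := by
  obtain ⟨C, hC0, hC⟩ := quot_bound hv hvc
  obtain ⟨ϱ, -, hϱ⟩ := exists_ball hvc
  set q : ℕ → ℂ → Pt → ℝ := fun n e y =>
    (v (pos (δ n) (a n) y + δ n * e) - v (pos (δ n) (a n) y)) / δ n with hq
  have fr : ∀ n, Fin0 (res (δ n) (a n) v) := fun n => fin0_res (hδ n) (a n) hvc
  have e : ∀ n, energy (res (δ n) (a n) v) =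
      δ n ^ 2 * ∑ᶠ y, (q n 1 y ^ 2 + q n Complex.I y ^ 2) := by
    intro n
    have hd := (hδ n).ne'
    rw [← fsum_mul]
    unfold energy
    congr 1
    funext y
    simp only [res, pos_add1, pos_add2, hq, mul_one]
    field_simp
  have hfin : ∀ n, Fin0 (fun y => q n 1 y ^ 2 + q n Complex.I y ^ 2) := by
    intro n
    apply ((fr n).d1.union (fr n).d2).subset
    intro y hy
    by_contra h
    simp only [Set.mem_union, Function.mem_support, ne_eq, not_or, not_not, res, pos_add1,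
      pos_add2] at h
    apply hy
    simp only [hq, mul_one, h.1, h.2]
    simp
  simp_rw [e]
  apply tendsto_sum hδ hδ0 a (g := fun n y => q n 1 y ^ 2 + q n Complex.I y ^ 2)
    (G := gradSq v) (M := 2 * C ^ 2) (ϱ := ϱ + 1) hfin
  · filter_upwards with n y
    have h1 := hC (δ n) (hδ n) (pos (δ n) (a n) y) 1 (by simp)
    have h2 := hC (δ n) (hδ n) (pos (δ n) (a n) y) Complex.I (by simp)
    rw [abs_of_nonneg (by positivity)]
    have h3 : q n 1 y ^ 2 ≤ C ^ 2 := by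
      rw [← sq_abs]
      exact pow_le_pow_left₀ (abs_nonneg _) h1 2
    have h4 : q n Complex.I y ^ 2 ≤ C ^ 2 := by
      rw [← sq_abs]
      exact pow_le_pow_left₀ (abs_nonneg _) h2 2
    linarith
  · have h1 : ∀ᶠ n in atTop, δ n < 1 := (tendsto_order.1 hδ0).2 1 one_pos
    filter_upwards [h1] with n hn y hy
    have step : ∀ e : ℂ, ‖e‖ = 1 → q n e y ≠ 0 → ‖pos (δ n) (a n) y‖ ≤ ϱ + 1 := by
      intro e he hq0
      by_cases h2 : v (pos (δ n) (a n) y) = 0
      · have h3 : v (pos (δ n) (a n) y + δ n * e) ≠ 0 := by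
          intro h3
          apply hq0
          simp [hq, h2, h3]
        have h4 := hϱ _ h3
        calc ‖pos (δ n) (a n) y‖ = ‖(pos (δ n) (a n) y + δ n * e) - δ n * e‖ := by
              rw [add_sub_cancel_right]
          _ ≤ ϱ + ‖(δ n : ℂ) * e‖ := (norm_sub_le _ _).trans (by linarith)
          _ ≤ ϱ + 1 := by
              rw [norm_mul, he, Complex.norm_real, Real.norm_of_nonneg (hδ n).le]
              linarith
      · have := hϱ _ h2
        linarith
    by_cases h5 : q n 1 y = 0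
    · apply step Complex.I (by simp)
      intro h6
      apply hy
      simp [h5, h6]
    · exact step 1 (by simp) h5
  · filter_upwards with z
    have h := tendsto_pos_cell hδ hδ0 a z
    exact ((quot_tendsto hv hδ hδ0 h 1).pow 2).add ((quot_tendsto hv hδ hδ0 h Complex.I).pow 2)

/-- K2, lower bound: every test function is a competitor of the discrete problem. -/
theorem lower {δ : ℕ → ℝ} (hδ : ∀ n, 0 < δ n) (hδ0 : Tendsto δ atTop (𝓝 0)) (a : ℕ → ℂ)
    {O : ℕ → Set Pt} (hO : ∀ n, (O n).Finite) {φ : ℂ → ℝ} (hφ : Continuous φ)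
    (hφc : HasCompactSupport φ) {u : ℕ → Pt → ℝ}
    (hu : ∀ n, IsGreen (O n) (phin (δ n) (a n) φ) (u n)) {U : Set ℂ}
    (hβ : ∀ K : Set ℂ, IsCompact K → K ⊆ U → ∀ᶠ n in atTop, ∀ y, y ∉ O n → pos (δ n) (a n) y ∉ K)
    {v : ℂ → ℝ} (hv : IsTest U v) {ε : ℝ} (hε : 0 < ε) :
    ∀ᶠ n in atTop, dval φ v - ε ≤ pair (phin (δ n) (a n) φ) (u n) := by
  have h1 := (tendsto_pair hδ hδ0 a hφ hφc hv.smooth.continuous hv.cpt).const_mul 2
  have h2 := tendsto_energy hδ hδ0 a hv.smooth hv.cpt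
  have h3 := h1.sub h2
  have h4 : ∀ᶠ n in atTop, dval φ v - ε < 2 * pair (phin (δ n) (a n) φ) (res (δ n) (a n) v)
      - energy (res (δ n) (a n) v) := (tendsto_order.1 h3).1 _ (by unfold dval; linarith)
  filter_upwards [h4, hβ _ hv.cpt hv.sub] with n h5 h6
  refine h5.le.trans (dirichlet (hO n) (hu n) ?_)
  intro y hy
  by_contra h7
  exact h6 y hy (subset_tsupport v h7)

end Vale.Agent.P155.K
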