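import Vale.Agent.P155.K.Gr
import Mathlib.Analysis.Calculus.BumpFunction.InnerProduct
import Mathlib.MeasureTheory.Integral.IntervalIntegral.FundThmCalculus
import Mathlib.Analysis.SpecialFunctions.Log.Deriv
import Mathlib.Analysis.Calculus.LineDeriv.IntegrationByParts

/-!
# P155 block K: logarithmic cut-off functions and their Laplacians
-/

namespace Vale.Agent.P155.K

open Vale.Agent.P155 MeasureTheory Filter Topology

/-- a bump on `(0,1)`, equal to `1` on `[1/4,3/4]` -/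
noncomputable def bf : ContDiffBump (1 / 2 : ℝ) := ⟨1 / 4, 1 / 2, by norm_num, by norm_num⟩

theorem bf_zero {t : ℝ} (h : t ≤ 0 ∨ 1 ≤ t) : bf t = 0 := by
  apply bf.zero_of_le_dist
  have h1 : bf.rOut = 1 / 2 := rfl
  rw [h1, Real.dist_eq]
  rcases h with h | h
  · rw [abs_of_nonpos (by linarith)]
    linarith
  · rw [abs_of_nonneg (by linarith)]
    linarith

theorem bf_one {t : ℝ} (h1 : 1 / 4 ≤ t) (h2 : t ≤ 3 / 4) : bf t = 1 := by
  apply bf.one_of_mem_closedBall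
  have h3 : bf.rIn = 1 / 4 := rfl
  rw [Metric.mem_closedBall, h3, Real.dist_eq, abs_le]
  constructor <;> linarith

theorem bf_contDiff : ContDiff ℝ ((⊤ : ℕ∞) : WithTop ℕ∞) (bf : ℝ → ℝ) := bf.contDiff

/-- the primitive of the bump -/
noncomputable def gI (t : ℝ) : ℝ := ∫ s in (0 : ℝ)..t, bf s

theorem gI_deriv (t : ℝ) : HasDerivAt gI (bf t) t := by
  unfold gI
  exact intervalIntegral.integral_hasDerivAt_right
    (bf_contDiff.continuous.intervalIntegrable _ _)
    (bf_contDiff.continuous.stronglyMeasurableAtFilter _ _) bf_contDiff.continuous.continuousAt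

theorem gI_contDiff : ContDiff ℝ ((⊤ : ℕ∞) : WithTop ℕ∞) gI := by
  rw [contDiff_infty_iff_deriv]
  constructor
  · exact fun t => (gI_deriv t).differentiableAt
  · have : deriv gI = bf := by
      funext t
      exact (gI_deriv t).deriv
    rw [this]
    exact bf_contDiff

theorem gI_const {s t : ℝ} (h : (s ≤ 0 ∧ t ≤ 0) ∨ (1 ≤ s ∧ 1 ≤ t)) : gI s = gI t := by
  wlog hst : s ≤ t generalizing s t with H
  · exact (H (by tauto) (by linarith)).symm
  have h1 : gI t - gI s = ∫ x in s..t, bf x := by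
    unfold gI
    rw [intervalIntegral.integral_interval_sub_left] <;>
      exact bf_contDiff.continuous.intervalIntegrable _ _
  have h2 : ∫ x in s..t, bf x = 0 := by
    rw [intervalIntegral.integral_congr (g := fun _ => (0 : ℝ))]
    · simp
    · intro x hx
      rw [Set.uIcc_of_le hst] at hx
      apply bf_zero
      rcases h with h | h
      · left
        linarith [hx.2, h.2]
      · right
        linarith [hx.1, h.1]
  linarith

theorem gI_zero {t : ℝ} (h : t ≤ 0) : gI t = 0 := by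
  rw [gI_const (t := 0) (Or.inl ⟨h, le_rfl⟩)]
  simp [gI]

/-! ### the two-dimensional cut-off -/

section
variable (z0 : ℂ) (t1 T : ℝ)

/-- squared distance -/
noncomputable def ns (z : ℂ) : ℝ := (z.re - z0.re) ^ 2 + (z.im - z0.im) ^ 2

/-- the logarithmic coordinate -/
noncomputable def tau (z : ℂ) : ℝ := (t1 - Real.log (ns z0 z)) * T⁻¹

theorem ns_eq (z : ℂ) : ns z0 z = ‖z - z0‖ ^ 2 := by
  rw [Complex.sq_norm, Complex.normSq_apply, ns, Complex.sub_re, Complex.sub_im]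
  ring

theorem ns_deriv (z : ℂ) : HasFDerivAt (ns z0)
    ((2 * (z.re - z0.re)) • Complex.reCLM + (2 * (z.im - z0.im)) • Complex.imCLM) z := by
  have hx : HasFDerivAt (fun z : ℂ => z.re - z0.re) Complex.reCLM z :=
    Complex.reCLM.hasFDerivAt.sub_const _
  have hy : HasFDerivAt (fun z : ℂ => z.im - z0.im) Complex.imCLM z :=
    Complex.imCLM.hasFDerivAt.sub_const _
  have h1 := HasFDerivAt.pow hx 2
  have h2 := HasFDerivAt.pow hy 2
  have h3 := HasFDerivAt.fun_add h1 h2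
  have e : (ns z0) = fun w : ℂ => (w.re - z0.re) ^ 2 + (w.im - z0.im) ^ 2 := rfl
  rw [e]
  refine h3.congr_fderiv ?_
  ext w
  simp

theorem tau_deriv {z : ℂ} (hz : ns z0 z ≠ 0) : HasFDerivAt (tau z0 t1 T)
    ((-(T⁻¹ * (ns z0 z)⁻¹)) • ((2 * (z.re - z0.re)) • Complex.reCLM +
      (2 * (z.im - z0.im)) • Complex.imCLM)) z := by
  have h1 := (((ns_deriv z0 z).log hz).const_sub t1).mul_const T⁻¹
  refine HasFDerivAt.congr_fderiv (f := tau z0 t1 T) h1 ?_
  ext w
  simp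
  ring

theorem ns_contDiff : ContDiff ℝ ((⊤ : ℕ∞) : WithTop ℕ∞) (ns z0) := by
  have hx : ContDiff ℝ ((⊤ : ℕ∞) : WithTop ℕ∞) (fun z : ℂ => z.re - z0.re) :=
    Complex.reCLM.contDiff.sub contDiff_const
  have hy : ContDiff ℝ ((⊤ : ℕ∞) : WithTop ℕ∞) (fun z : ℂ => z.im - z0.im) :=
    Complex.imCLM.contDiff.sub contDiff_const
  exact (hx.pow 2).add (hy.pow 2)

theorem tau_contDiffAt {z : ℂ} (hz : ns z0 z ≠ 0) :
    ContDiffAt ℝ ((⊤ : ℕ∞) : WithTop ℕ∞) (tau z0 t1 T) z := by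
  unfold tau
  exact (contDiffAt_const.sub ((ns_contDiff z0).contDiffAt.log hz)).mul contDiffAt_const

/-- the cut-off function; `r2` is the square of the inner radius -/
noncomputable def psi (r2 : ℝ) (z : ℂ) : ℝ := if ns z0 z < r2 then gI 1 else gI (tau z0 t1 T z)

variable {t1 T} {r2 : ℝ} (hr2 : 0 < r2) (hT : 0 < T) (hcomp : t1 - Real.log r2 = T)

include hT hcomp in
theorem tau_ge {z : ℂ} (h0 : 0 < ns z0 z) (h : ns z0 z ≤ r2) : 1 ≤ tau z0 t1 T z := by
  unfold tau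
  rw [← div_eq_mul_inv, le_div_iff₀ hT, one_mul]
  have := Real.log_le_log h0 h
  linarith

include hr2 hT hcomp in
/-- near a point at distance at least the inner radius, `psi` is the smooth formula -/
theorem psi_eq_near {z : ℂ} (hz : r2 ≤ ns z0 z) :
    psi z0 t1 T r2 =ᶠ[𝓝 z] fun w => gI (tau z0 t1 T w) := by
  have h1 : ∀ᶠ w in 𝓝 z, r2 / 2 < ns z0 w :=
    (ns_contDiff z0).continuous.continuousAt.eventually_const_lt (by linarith)
  filter_upwards [h1] with w hw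
  unfold psi
  split_ifs with h
  · exact gI_const (Or.inr ⟨le_rfl, tau_ge z0 hT hcomp (by linarith) h.le⟩)
  · rfl

theorem psi_eq_const {z : ℂ} (hz : ns z0 z < r2) : psi z0 t1 T r2 =ᶠ[𝓝 z] fun _ => gI 1 := by
  have h1 : ∀ᶠ w in 𝓝 z, ns z0 w < r2 :=
    (ns_contDiff z0).continuous.continuousAt.eventually_lt_const hz
  filter_upwards [h1] with w hw
  unfold psi
  rw [if_pos hw]

include hr2 hT hcomp in
theorem psi_contDiff : ContDiff ℝ ((⊤ : ℕ∞) : WithTop ℕ∞) (psi z0 t1 T r2) := by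
  rw [contDiff_iff_contDiffAt]
  intro z
  rcases lt_or_ge (ns z0 z) r2 with h | h
  · exact contDiffAt_const.congr_of_eventuallyEq (psi_eq_const z0 h)
  · exact (gI_contDiff.contDiffAt.comp z (tau_contDiffAt z0 t1 T (by linarith))).congr_of_eventuallyEq
      (psi_eq_near z0 hr2 hT hcomp h)

/-- the gradient -/
noncomputable def Dpsi (e : ℂ) (z : ℂ) : ℝ :=
  -(2 * T⁻¹) * bf (tau z0 t1 T z) * ((z.re - z0.re) * e.re + (z.im - z0.im) * e.im) * (ns z0 z)⁻¹

include hr2 hT hcomp in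
theorem fderiv_psi (z e : ℂ) : fderiv ℝ (psi z0 t1 T r2) z e = Dpsi z0 (t1 := t1) (T := T) e z := by
  rcases lt_or_ge (ns z0 z) r2 with h | h
  · rw [(psi_eq_const z0 h).fderiv_eq]
    have h0 : fderiv ℝ (fun _ : ℂ => gI 1) z = 0 := by simp
    rw [h0]
    unfold Dpsi
    rcases eq_or_ne (ns z0 z) 0 with h1 | h1
    · rw [h1]
      simp
    · have hpos : 0 < ns z0 z := lt_of_le_of_ne (by unfold ns; positivity) (Ne.symm h1)
      rw [bf_zero (Or.inr (tau_ge z0 hT hcomp hpos h.le))]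
      simp
  · have hne : ns z0 z ≠ 0 := by linarith
    rw [(psi_eq_near z0 hr2 hT hcomp h).fderiv_eq]
    have h1 := (gI_deriv (tau z0 t1 T z)).comp_hasFDerivAt z (tau_deriv z0 t1 T hne)
    have h2 : HasFDerivAt (fun w => gI (tau z0 t1 T w)) _ z := h1
    rw [h2.fderiv]
    simp [Dpsi]
    ring

/-- minus the Laplacian -/
noncomputable def phi0 (z : ℂ) : ℝ :=
  -(fderiv ℝ (fun w => fderiv ℝ (psi z0 t1 T r2) w 1) z 1 +
    fderiv ℝ (fun w => fderiv ℝ (psi z0 t1 T r2) w Complex.I) z Complex.I)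

theorem bf_hasDerivAt (t : ℝ) : HasDerivAt (bf : ℝ → ℝ) (deriv bf t) t :=
  ((bf_contDiff.differentiable (by simp)) t).hasDerivAt

/-- derivative of the gradient formula -/
theorem Dpsi_deriv {z : ℂ} (hz : ns z0 z ≠ 0) (e v : ℂ) :
    fderiv ℝ (Dpsi z0 (t1 := t1) (T := T) e) z v =
      -(2 * T⁻¹) * ((deriv bf (tau z0 t1 T z) * (-(T⁻¹ * (ns z0 z)⁻¹) *
        (2 * (z.re - z0.re) * v.re + 2 * (z.im - z0.im) * v.im))) *
        ((z.re - z0.re) * e.re + (z.im - z0.im) * e.im) * (ns z0 z)⁻¹ +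
        bf (tau z0 t1 T z) * (v.re * e.re + v.im * e.im) * (ns z0 z)⁻¹ +
        bf (tau z0 t1 T z) * ((z.re - z0.re) * e.re + (z.im - z0.im) * e.im) *
          (-((ns z0 z)⁻¹ ^ 2) * (2 * (z.re - z0.re) * v.re + 2 * (z.im - z0.im) * v.im))) := by
  have h1 : HasFDerivAt (fun w => bf (tau z0 t1 T w)) (deriv bf (tau z0 t1 T z) •
      ((-(T⁻¹ * (ns z0 z)⁻¹)) • ((2 * (z.re - z0.re)) • Complex.reCLM +
      (2 * (z.im - z0.im)) • Complex.imCLM))) z :=
    (bf_hasDerivAt (tau z0 t1 T z)).comp_hasFDerivAt z (tau_deriv z0 t1 T hz)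
  have h2 : HasFDerivAt (fun w : ℂ => (w.re - z0.re) * e.re + (w.im - z0.im) * e.im)
      (e.re • Complex.reCLM + e.im • Complex.imCLM) z := by
    have hx : HasFDerivAt (fun z : ℂ => z.re - z0.re) Complex.reCLM z :=
      Complex.reCLM.hasFDerivAt.sub_const _
    have hy : HasFDerivAt (fun z : ℂ => z.im - z0.im) Complex.imCLM z :=
      Complex.imCLM.hasFDerivAt.sub_const _
    exact HasFDerivAt.fun_add (hx.mul_const e.re) (hy.mul_const e.im)
  have h3 : HasFDerivAt (fun w => (ns z0 w)⁻¹) ((-(ns z0 z ^ 2)⁻¹) •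
      ((2 * (z.re - z0.re)) • Complex.reCLM + (2 * (z.im - z0.im)) • Complex.imCLM)) z :=
    (hasDerivAt_inv hz).comp_hasFDerivAt z (ns_deriv z0 z)
  have h4 := (HasFDerivAt.mul (HasFDerivAt.mul h1 h2) h3).const_mul (-(2 * T⁻¹) : ℝ)
  have h5 := h4.congr_of_eventuallyEq (f₁ := Dpsi z0 (t1 := t1) (T := T) e)
    (Eventually.of_forall fun w => by
      simp only [Dpsi, Pi.mul_apply]
      ring)
  rw [h5.fderiv]
  simp only [smul_apply, add_apply, smul_eq_mul,
    Complex.reCLM_apply, Complex.imCLM_apply, Pi.mul_apply]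
  ring

include hr2 hT hcomp in
theorem phi0_eq (z : ℂ) : phi0 z0 (t1 := t1) (T := T) (r2 := r2) z =
    -(4 * T⁻¹ ^ 2) * deriv bf (tau z0 t1 T z) * (ns z0 z)⁻¹ := by
  unfold phi0
  have hf : ∀ e, (fun w => fderiv ℝ (psi z0 t1 T r2) w e) = Dpsi z0 (t1 := t1) (T := T) e :=
    fun e => funext fun w => fderiv_psi z0 hr2 hT hcomp w e
  rw [hf, hf]
  rcases eq_or_ne (ns z0 z) 0 with h | h
  · have hc := psi_eq_const z0 (t1 := t1) (T := T) (z := z) (r2 := r2) (by rw [h]; exact hr2)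
    have h0 : ∀ e, Dpsi z0 (t1 := t1) (T := T) e =ᶠ[𝓝 z] fun _ => 0 := by
      intro e
      rw [← hf e]
      filter_upwards [hc.eventuallyEq_nhds] with w hw
      rw [hw.fderiv_eq]
      simp
    rw [(h0 1).fderiv_eq, (h0 Complex.I).fderiv_eq, h]
    simp
  · rw [Dpsi_deriv z0 h, Dpsi_deriv z0 h]
    simp only [Complex.one_re, Complex.one_im, Complex.I_re, Complex.I_im]
    have hns : ((z.re - z0.re) ^ 2 + (z.im - z0.im) ^ 2) * (ns z0 z)⁻¹ = 1 := by
      have : (z.re - z0.re) ^ 2 + (z.im - z0.im) ^ 2 = ns z0 z := rfl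
      rw [this]
      exact mul_inv_cancel₀ h
    linear_combination (-(4 * T⁻¹ ^ 2) * deriv bf (tau z0 t1 T z) * (ns z0 z)⁻¹ -
      4 * T⁻¹ * bf (tau z0 t1 T z) * (ns z0 z)⁻¹) * hns

end

end Vale.Agent.P155.K
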