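import Vale.Agent.P155.K.LogCut
import Vale.Agent.P155.K1.Polar

/-!
# P155 block K: charges of capacity two, small mass, and small Green energy when a point is
removed
-/

namespace Vale.Agent.P155.K

open Vale.Agent.P155 MeasureTheory Filter Topology

/-- bound of the derivative of the bump -/
theorem exists_Cb : ∃ C : ℝ, 0 ≤ C ∧ ∀ t, |deriv bf t| ≤ C := by
  have hc : HasCompactSupport (deriv bf) := bf.hasCompactSupport.deriv
  have hd : Continuous (deriv bf) := bf_contDiff.continuous_deriv (by simp)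
  obtain ⟨C, hC⟩ := hc.exists_bound_of_continuous hd
  exact ⟨C, (norm_nonneg _).trans (hC 0), hC⟩

theorem deriv_bf_ne {t : ℝ} (h : deriv bf t ≠ 0) : 0 ≤ t ∧ t ≤ 1 := by
  have h1 : t ∈ tsupport (deriv bf) := subset_tsupport _ h
  have h2 := tsupport_deriv_subset (𝕜 := ℝ) h1
  rw [bf.tsupport_eq] at h2
  have h3 : bf.rOut = 1 / 2 := rfl
  rw [Metric.mem_closedBall, h3, Real.dist_eq, abs_le] at h2
  constructor <;> linarith [h2.1, h2.2]

section
variable (z0 : ℂ) {t1 T r2 : ℝ} (hr2 : 0 < r2) (hT : 0 < T) (hcomp : t1 - Real.log r2 = T)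
  {R2 : ℝ} (hR2 : 0 < R2) (ht1 : t1 = Real.log R2)

theorem ns_nonneg (z : ℂ) : 0 ≤ ns z0 z := by
  unfold ns
  positivity

include hT hcomp hR2 ht1 in
theorem r2_lt_R2 : r2 < R2 := by
  by_contra h
  have := Real.log_le_log hR2 (not_lt.1 h)
  linarith

include hT hcomp hR2 ht1 in
theorem psi_zero {z : ℂ} (h : R2 ≤ ns z0 z) : psi z0 t1 T r2 z = 0 := by
  have h1 := r2_lt_R2 hT hcomp hR2 ht1
  unfold psi
  rw [if_neg (by linarith)]
  apply gI_zero
  unfold tau
  have h2 := Real.log_le_log hR2 h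
  exact mul_nonpos_of_nonpos_of_nonneg (by linarith) (inv_nonneg.2 hT.le)

include hT hcomp hR2 ht1 in
theorem psi_support : tsupport (psi z0 t1 T r2) ⊆ Metric.closedBall z0 (Real.sqrt R2) := by
  apply closure_minimal _ Metric.isClosed_closedBall
  intro z hz
  rw [Metric.mem_closedBall, dist_eq_norm]
  by_contra h
  apply hz
  apply psi_zero z0 hT hcomp hR2 ht1
  rw [ns_eq]
  rw [not_le] at h
  have := Real.sq_sqrt hR2.le
  nlinarith [Real.sqrt_nonneg R2]

include hT hcomp hR2 ht1 in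
theorem psi_cpt : HasCompactSupport (psi z0 t1 T r2) :=
  HasCompactSupport.of_support_subset_isCompact (isCompact_closedBall z0 (Real.sqrt R2))
    ((subset_tsupport _).trans (psi_support z0 hT hcomp hR2 ht1))

/-- directional derivatives are smooth -/
theorem contDiff_fderiv_apply' {f : ℂ → ℝ} (hf : ContDiff ℝ ((⊤ : ℕ∞) : WithTop ℕ∞) f) (e : ℂ) :
    ContDiff ℝ ((⊤ : ℕ∞) : WithTop ℕ∞) (fun w => fderiv ℝ f w e) :=
  (hf.fderiv_right (m := ((⊤ : ℕ∞) : WithTop ℕ∞)) (by simp)).clm_apply contDiff_const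

theorem cpt_fderiv_apply' {f : ℂ → ℝ} (hf : HasCompactSupport f) (e : ℂ) :
    HasCompactSupport (fun w => fderiv ℝ f w e) := hf.fderiv_apply ℝ e

theorem support_fderiv_apply' (f : ℂ → ℝ) (e : ℂ) :
    tsupport (fun w => fderiv ℝ f w e) ⊆ tsupport f :=
  tsupport_fderiv_apply_subset ℝ e

include hr2 hT hcomp in
theorem phi0_contDiff : ContDiff ℝ ((⊤ : ℕ∞) : WithTop ℕ∞)
    (phi0 z0 (t1 := t1) (T := T) (r2 := r2)) := by
  have h := psi_contDiff z0 hr2 hT hcomp
  unfold phi0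
  exact ((contDiff_fderiv_apply' (contDiff_fderiv_apply' h 1) 1).add
    (contDiff_fderiv_apply' (contDiff_fderiv_apply' h Complex.I) Complex.I)).neg

include hr2 hT hcomp hR2 ht1 in
theorem phi0_bounds {z : ℂ} (h : phi0 z0 (t1 := t1) (T := T) (r2 := r2) z ≠ 0) :
    r2 ≤ ns z0 z ∧ ns z0 z ≤ R2 := by
  rw [phi0_eq z0 hr2 hT hcomp] at h
  have h1 : deriv bf (tau z0 t1 T z) ≠ 0 := by
    intro h0
    exact h (by rw [h0]; ring)
  have h2 : ns z0 z ≠ 0 := by
    intro h0
    exact h (by rw [h0]; simp)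
  have hpos : 0 < ns z0 z := lt_of_le_of_ne (ns_nonneg z0 z) (Ne.symm h2)
  obtain ⟨h3, h4⟩ := deriv_bf_ne h1
  unfold tau at h3 h4
  rw [← div_eq_mul_inv] at h3 h4
  have h5 : 0 ≤ t1 - Real.log (ns z0 z) := by
    by_contra h5
    have := div_neg_of_neg_of_pos (not_le.1 h5) hT
    linarith
  rw [div_le_one hT] at h4
  constructor
  · exact (Real.log_le_log_iff hr2 hpos).1 (by linarith)
  · exact (Real.log_le_log_iff hpos hR2).1 (by linarith)

include hr2 hT hcomp hR2 ht1 in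
theorem phi0_support : tsupport (phi0 z0 (t1 := t1) (T := T) (r2 := r2)) ⊆
    Metric.closedBall z0 (Real.sqrt R2) := by
  apply closure_minimal _ Metric.isClosed_closedBall
  intro z hz
  rw [Metric.mem_closedBall, dist_eq_norm]
  have := (phi0_bounds z0 hr2 hT hcomp hR2 ht1 hz).2
  rw [ns_eq] at this
  exact Real.le_sqrt_of_sq_le this

include hr2 hT hcomp in
theorem phi0_abs {C : ℝ} (hC : ∀ t, |deriv bf t| ≤ C) (z : ℂ) :
    |phi0 z0 (t1 := t1) (T := T) (r2 := r2) z| ≤ 4 * C / T ^ 2 * (ns z0 z)⁻¹ := by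
  rw [phi0_eq z0 hr2 hT hcomp, abs_mul, abs_mul, abs_neg,
    abs_of_nonneg (inv_nonneg.2 (ns_nonneg z0 z)), abs_of_nonneg (by positivity)]
  apply mul_le_mul_of_nonneg_right _ (inv_nonneg.2 (ns_nonneg z0 z))
  have := mul_le_mul_of_nonneg_left (hC (tau z0 t1 T z)) (by positivity : 0 ≤ 4 * T⁻¹ ^ 2)
  refine this.trans (le_of_eq ?_)
  field_simp

include hr2 hT hcomp hR2 ht1 in
/-- integration by parts -/
theorem ibp {v : ℂ → ℝ} (hv : ContDiff ℝ ((⊤ : ℕ∞) : WithTop ℕ∞) v) :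
    ∫ z, phi0 z0 (t1 := t1) (T := T) (r2 := r2) z * v z =
      ∫ z, (fderiv ℝ (psi z0 t1 T r2) z 1 * fderiv ℝ v z 1 +
        fderiv ℝ (psi z0 t1 T r2) z Complex.I * fderiv ℝ v z Complex.I) := by
  have hs := psi_contDiff z0 hr2 hT hcomp
  have hc := psi_cpt z0 hT hcomp hR2 ht1
  have i1 : ∀ e, Integrable (fun x => fderiv ℝ v x e * fderiv ℝ (psi z0 t1 T r2) x e) := by
    intro e
    apply Continuous.integrable_of_hasCompactSupport
    · exact (contDiff_fderiv_apply' hv e).continuous.mul (contDiff_fderiv_apply' hs e).continuous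
    · exact (cpt_fderiv_apply' hc e).mul_left
  have i2 : ∀ e, Integrable (fun x => v x * fderiv ℝ (fun w => fderiv ℝ (psi z0 t1 T r2) w e) x e) := by
    intro e
    apply Continuous.integrable_of_hasCompactSupport
    · exact hv.continuous.mul
        (contDiff_fderiv_apply' (contDiff_fderiv_apply' hs e) e).continuous
    · exact (cpt_fderiv_apply' (cpt_fderiv_apply' hc e) e).mul_left
  have i3 : ∀ e, Integrable (fun x => v x * fderiv ℝ (psi z0 t1 T r2) x e) := by
    intro e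
    apply Continuous.integrable_of_hasCompactSupport
    · exact hv.continuous.mul (contDiff_fderiv_apply' hs e).continuous
    · exact (cpt_fderiv_apply' hc e).mul_left
  have key : ∀ e, ∫ x, v x * fderiv ℝ (fun w => fderiv ℝ (psi z0 t1 T r2) w e) x e =
      - ∫ x, fderiv ℝ v x e * fderiv ℝ (psi z0 t1 T r2) x e := by
    intro e
    apply integral_mul_fderiv_eq_neg_fderiv_mul_of_integrable (i1 e) (i2 e) (i3 e)
    · intro x _
      exact hv.differentiable (by simp) x
    · intro x _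
      exact (contDiff_fderiv_apply' hs e).differentiable (by simp) x
  have e1 : ∀ z, phi0 z0 (t1 := t1) (T := T) (r2 := r2) z * v z =
      -(v z * fderiv ℝ (fun w => fderiv ℝ (psi z0 t1 T r2) w 1) z 1 +
        v z * fderiv ℝ (fun w => fderiv ℝ (psi z0 t1 T r2) w Complex.I) z Complex.I) := by
    intro z
    unfold phi0
    ring
  simp_rw [e1]
  rw [integral_neg, integral_add (i2 1) (i2 Complex.I), key, key]
  have e2 : ∀ z, fderiv ℝ (psi z0 t1 T r2) z 1 * fderiv ℝ v z 1 +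
        fderiv ℝ (psi z0 t1 T r2) z Complex.I * fderiv ℝ v z Complex.I =
      fderiv ℝ v z 1 * fderiv ℝ (psi z0 t1 T r2) z 1 +
        fderiv ℝ v z Complex.I * fderiv ℝ (psi z0 t1 T r2) z Complex.I := by
    intro z
    ring
  simp_rw [e2]
  rw [integral_add (i1 1) (i1 Complex.I)]
  ring

theorem integrable_gradSq {v : ℂ → ℝ} (hv : ContDiff ℝ ((⊤ : ℕ∞) : WithTop ℕ∞) v)
    (hc : HasCompactSupport v) : Integrable (gradSq v) := by
  apply Continuous.integrable_of_hasCompactSupport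
  · exact ((contDiff_fderiv_apply' hv 1).continuous.pow 2).add
      ((contDiff_fderiv_apply' hv Complex.I).continuous.pow 2)
  · have h1 := (cpt_fderiv_apply' hc 1)
    have h2 := (cpt_fderiv_apply' hc Complex.I)
    apply HasCompactSupport.of_support_subset_isCompact hc.isCompact
    intro z hz
    by_contra h
    apply hz
    have e1 : fderiv ℝ v z = 0 := by
      by_contra h3
      exact h (tsupport_fderiv_subset ℝ (subset_tsupport _ h3))
    simp [gradSq, e1]

include hr2 hT hcomp hR2 ht1 in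
theorem dval_le {v : ℂ → ℝ} (hv : ContDiff ℝ ((⊤ : ℕ∞) : WithTop ℕ∞) v)
    (hc : HasCompactSupport v) (lam : ℝ) :
    dval (fun z => lam * phi0 z0 (t1 := t1) (T := T) (r2 := r2) z) v ≤
      lam ^ 2 * ∫ z, gradSq (psi z0 t1 T r2) z := by
  have hs := psi_contDiff z0 hr2 hT hcomp
  have hcp := psi_cpt z0 hT hcomp hR2 ht1
  unfold dval
  have e1 : ∫ z, lam * phi0 z0 (t1 := t1) (T := T) (r2 := r2) z * v z =
      lam * ∫ z, phi0 z0 (t1 := t1) (T := T) (r2 := r2) z * v z := by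
    rw [← integral_const_mul]
    simp_rw [mul_assoc]
  rw [e1, ibp z0 hr2 hT hcomp hR2 ht1 hv]
  have i0 : Integrable (fun z => fderiv ℝ (psi z0 t1 T r2) z 1 * fderiv ℝ v z 1 +
        fderiv ℝ (psi z0 t1 T r2) z Complex.I * fderiv ℝ v z Complex.I) := by
    apply Integrable.add
    · apply Continuous.integrable_of_hasCompactSupport
      · exact (contDiff_fderiv_apply' hs 1).continuous.mul (contDiff_fderiv_apply' hv 1).continuous
      · exact (cpt_fderiv_apply' hcp 1).mul_right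
    · apply Continuous.integrable_of_hasCompactSupport
      · exact (contDiff_fderiv_apply' hs _).continuous.mul (contDiff_fderiv_apply' hv _).continuous
      · exact (cpt_fderiv_apply' hcp _).mul_right
  have i1 := integrable_gradSq hv hc
  have i2 := integrable_gradSq hs hcp
  have key : 0 ≤ ∫ z, (lam ^ 2 * gradSq (psi z0 t1 T r2) z -
      2 * lam * (fderiv ℝ (psi z0 t1 T r2) z 1 * fderiv ℝ v z 1 +
        fderiv ℝ (psi z0 t1 T r2) z Complex.I * fderiv ℝ v z Complex.I) + gradSq v z) := by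
    apply integral_nonneg
    intro z
    simp only [Pi.zero_apply, gradSq]
    nlinarith [sq_nonneg (lam * fderiv ℝ (psi z0 t1 T r2) z 1 - fderiv ℝ v z 1),
      sq_nonneg (lam * fderiv ℝ (psi z0 t1 T r2) z Complex.I - fderiv ℝ v z Complex.I)]
  have h1 : Integrable (fun z => lam ^ 2 * gradSq (psi z0 t1 T r2) z -
      2 * lam * (fderiv ℝ (psi z0 t1 T r2) z 1 * fderiv ℝ v z 1 +
        fderiv ℝ (psi z0 t1 T r2) z Complex.I * fderiv ℝ v z Complex.I)) :=
    (i2.const_mul _).sub (i0.const_mul _)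
  rw [integral_add h1 i1, integral_sub (i2.const_mul _) (i0.const_mul _), integral_const_mul,
    integral_const_mul] at key
  linarith

include hr2 hT hcomp hR2 ht1 in
theorem dval_psi (lam : ℝ) :
    dval (fun z => lam * phi0 z0 (t1 := t1) (T := T) (r2 := r2) z)
      (fun z => lam * psi z0 t1 T r2 z) = lam ^ 2 * ∫ z, gradSq (psi z0 t1 T r2) z := by
  have hs := psi_contDiff z0 hr2 hT hcomp
  have e0 : ∀ z e, fderiv ℝ (fun z => lam * psi z0 t1 T r2 z) z e =
      lam * fderiv ℝ (psi z0 t1 T r2) z e := by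
    intro z e
    rw [fderiv_const_mul (hs.differentiable (by simp) z)]
    rfl
  unfold dval
  have e1 : ∫ z, lam * phi0 z0 (t1 := t1) (T := T) (r2 := r2) z * (lam * psi z0 t1 T r2 z) =
      lam ^ 2 * ∫ z, phi0 z0 (t1 := t1) (T := T) (r2 := r2) z * psi z0 t1 T r2 z := by
    rw [← integral_const_mul]
    congr 1
    funext z
    ring
  rw [e1, ibp z0 hr2 hT hcomp hR2 ht1 hs]
  have e2 : ∀ z, gradSq (fun z => lam * psi z0 t1 T r2 z) z = lam ^ 2 * gradSq (psi z0 t1 T r2) z := by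
    intro z
    unfold gradSq
    rw [e0, e0]
    ring
  simp_rw [e2]
  rw [integral_const_mul]
  have e3 : ∀ z, fderiv ℝ (psi z0 t1 T r2) z 1 * fderiv ℝ (psi z0 t1 T r2) z 1 +
      fderiv ℝ (psi z0 t1 T r2) z Complex.I * fderiv ℝ (psi z0 t1 T r2) z Complex.I =
      gradSq (psi z0 t1 T r2) z := by
    intro z
    unfold gradSq
    ring
  simp_rw [e3]
  ring

/-- the energy as an integral over the annulus -/
theorem gradSq_psi_eq (hr2 : 0 < r2) (hT : 0 < T) (hcomp : t1 - Real.log r2 = T) (z : ℂ) :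
    gradSq (psi z0 t1 T r2) z = 4 / T ^ 2 * (bf (tau z0 t1 T z)) ^ 2 * (ns z0 z)⁻¹ := by
  unfold gradSq
  rw [fderiv_psi z0 hr2 hT hcomp, fderiv_psi z0 hr2 hT hcomp]
  unfold Dpsi
  simp only [Complex.one_re, Complex.one_im, Complex.I_re, Complex.I_im]
  rcases eq_or_ne (ns z0 z) 0 with h | h
  · rw [h]
    simp
  · have hns : ((z.re - z0.re) ^ 2 + (z.im - z0.im) ^ 2) * (ns z0 z)⁻¹ = 1 := by
      have : (z.re - z0.re) ^ 2 + (z.im - z0.im) ^ 2 = ns z0 z := rfl
      rw [this]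
      exact mul_inv_cancel₀ h
    have hT2 : (4 : ℝ) / T ^ 2 = 4 * T⁻¹ ^ 2 := by
      field_simp
    rw [hT2]
    linear_combination (4 * T⁻¹ ^ 2 * (bf (tau z0 t1 T z)) ^ 2 * (ns z0 z)⁻¹) * hns

include hr2 hT hcomp hR2 ht1 in
/-- lower bound of the energy -/
theorem energy_ge : 2 * Real.pi / T ≤ ∫ z, gradSq (psi z0 t1 T r2) z := by
  set ρ := Real.sqrt R2 with hρ
  have hρ0 : 0 < ρ := Real.sqrt_pos.2 hR2
  have hlog : Real.log ρ = t1 / 2 := by rw [hρ, Real.log_sqrt hR2.le, ht1]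
  set ra := ρ * Real.exp (-(3 * T / 8)) with hra
  set rb := ρ * Real.exp (-(T / 8)) with hrb
  have ha0 : 0 < ra := by positivity
  have hab : ra < rb := by
    apply mul_lt_mul_of_pos_left _ hρ0
    apply Real.exp_lt_exp.2
    linarith
  have hla : Real.log ra = t1 / 2 - 3 * T / 8 := by
    rw [hra, Real.log_mul hρ0.ne' (Real.exp_pos _).ne', Real.log_exp, hlog]
    ring
  have hlb : Real.log rb = t1 / 2 - T / 8 := by
    rw [hrb, Real.log_mul hρ0.ne' (Real.exp_pos _).ne', Real.log_exp, hlog]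
    ring
  obtain ⟨p1, p2⟩ := K1.polar z0 ha0 hab
  have h1 : ∫ z : ℂ, 4 / T ^ 2 * Set.indicator {z : ℂ | ra ≤ ‖z - z0‖ ∧ ‖z - z0‖ ≤ rb}
      (fun z => (‖z - z0‖ ^ 2)⁻¹) z ≤ ∫ z, gradSq (psi z0 t1 T r2) z := by
    apply integral_mono (p1.const_mul _)
      (integrable_gradSq (psi_contDiff z0 hr2 hT hcomp) (psi_cpt z0 hT hcomp hR2 ht1))
    intro z
    simp only
    rw [gradSq_psi_eq z0 hr2 hT hcomp]
    by_cases hz : z ∈ {z : ℂ | ra ≤ ‖z - z0‖ ∧ ‖z - z0‖ ≤ rb}
    · rw [Set.indicator_of_mem hz, ← ns_eq]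
      have hz0 : 0 < ‖z - z0‖ := ha0.trans_le hz.1
      have h2 : Real.log (ns z0 z) = 2 * Real.log ‖z - z0‖ := by
        rw [ns_eq, Real.log_pow]
        norm_num
      have h3 := Real.log_le_log ha0 hz.1
      have h4 := Real.log_le_log hz0 hz.2
      have h5 : 1 / 4 ≤ tau z0 t1 T z := by
        unfold tau
        rw [← div_eq_mul_inv, le_div_iff₀ hT]
        linarith
      have h6 : tau z0 t1 T z ≤ 3 / 4 := by
        unfold tau
        rw [← div_eq_mul_inv, div_le_iff₀ hT]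
        linarith
      rw [bf_one h5 h6]
      simp
    · rw [Set.indicator_of_notMem hz, mul_zero]
      have := ns_nonneg z0 z
      positivity
  rw [integral_const_mul, p2] at h1
  have h2 : Real.log (rb / ra) = T / 4 := by
    rw [Real.log_div (by positivity) ha0.ne', hla, hlb]
    ring
  rw [h2] at h1
  refine le_trans (le_of_eq ?_) h1
  field_simp

include hr2 hT hcomp hR2 ht1 in
/-- upper bound of the mass -/
theorem mass_le {C : ℝ} (hC : ∀ t, |deriv bf t| ≤ C) (hC0 : 0 ≤ C) :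
    ∫ z, |phi0 z0 (t1 := t1) (T := T) (r2 := r2) z| ≤ 4 * Real.pi * C / T := by
  set ρ := Real.sqrt R2 with hρ
  have hρ0 : 0 < ρ := Real.sqrt_pos.2 hR2
  set r := Real.sqrt r2 with hr
  have hr0 : 0 < r := Real.sqrt_pos.2 hr2
  have hrρ : r < ρ := Real.sqrt_lt_sqrt hr2.le (r2_lt_R2 hT hcomp hR2 ht1)
  obtain ⟨p1, p2⟩ := K1.polar z0 hr0 hrρ
  have h1 : ∫ z, |phi0 z0 (t1 := t1) (T := T) (r2 := r2) z| ≤
      ∫ z : ℂ, 4 * C / T ^ 2 * Set.indicator {z : ℂ | r ≤ ‖z - z0‖ ∧ ‖z - z0‖ ≤ ρ}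
      (fun z => (‖z - z0‖ ^ 2)⁻¹) z := by
    apply integral_mono_of_nonneg (Eventually.of_forall fun z => abs_nonneg _) (p1.const_mul _)
    apply Eventually.of_forall
    intro z
    simp only
    by_cases hz : phi0 z0 (t1 := t1) (T := T) (r2 := r2) z = 0
    · rw [hz, abs_zero]
      apply mul_nonneg (by positivity)
      apply Set.indicator_nonneg
      intro w _
      positivity
    · have hb := phi0_bounds z0 hr2 hT hcomp hR2 ht1 hz
      have hz2 : z ∈ {z : ℂ | r ≤ ‖z - z0‖ ∧ ‖z - z0‖ ≤ ρ} := by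
        rw [ns_eq] at hb
        exact ⟨Real.sqrt_le_iff.2 ⟨norm_nonneg _, hb.1⟩, Real.le_sqrt_of_sq_le hb.2⟩
      rw [Set.indicator_of_mem hz2, ← ns_eq]
      exact phi0_abs z0 hr2 hT hcomp hC z
  refine h1.trans (le_of_eq ?_)
  rw [integral_const_mul, p2]
  have h2 : Real.log (ρ / r) = T / 2 := by
    rw [Real.log_div hρ0.ne' hr0.ne', hρ, hr, Real.log_sqrt hR2.le, Real.log_sqrt hr2.le, ← ht1]
    linarith
  rw [h2]
  field_simp

end

/-- The charge used to show that a given point is not hit. -/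
theorem exists_logcut (z0 : ℂ) {ρ ε : ℝ} (hρ : 0 < ρ) (hε : 0 < ε) :
    ∃ (r A : ℝ) (φ : ℂ → ℝ), 0 < r ∧ r < ρ ∧ 0 ≤ A ∧
      ContDiff ℝ ((⊤ : ℕ∞) : WithTop ℕ∞) φ ∧ HasCompactSupport φ ∧
      tsupport φ ⊆ Metric.closedBall z0 ρ ∧
      (∀ z, φ z ≠ 0 → r ≤ ‖z - z0‖ ∧ ‖z - z0‖ ≤ ρ) ∧
      (∀ z, |φ z| ≤ A * (‖z - z0‖ ^ 2)⁻¹) ∧
      ∫ z, |φ z| ≤ ε ∧ 1152 * (2 * A) ^ 2 * (1 + Real.log (16 * ρ / (3 * r))) ≤ ε ∧
      (∀ U : Set ℂ, Gr U φ ≤ 2) ∧ (∀ U : Set ℂ, Metric.closedBall z0 ρ ⊆ U → Gr U φ = 2) := by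
  obtain ⟨C, hC0, hC⟩ := exists_Cb
  set K2 : ℝ := 1152 * 64 * C ^ 2 / Real.pi * 4 with hK2
  have hK20 : 0 ≤ K2 := by positivity
  set T : ℝ := 1 + 16 * Real.pi * C ^ 2 / ε ^ 2 + K2 / ε with hT
  have hT1 : 1 ≤ T := by
    have h1 : 0 ≤ 16 * Real.pi * C ^ 2 / ε ^ 2 := by positivity
    have h2 : 0 ≤ K2 / ε := by positivity
    linarith
  have hT0 : 0 < T := by linarith
  set r := ρ * Real.exp (-(T / 2)) with hr
  have hr0 : 0 < r := by positivity
  have hrρ : r < ρ := by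
    have : Real.exp (-(T / 2)) < 1 := by
      rw [Real.exp_lt_one_iff]
      linarith
    calc r < ρ * 1 := mul_lt_mul_of_pos_left this hρ
      _ = ρ := mul_one _
  have hlr : Real.log r = Real.log ρ - T / 2 := by
    rw [hr, Real.log_mul hρ.ne' (Real.exp_pos _).ne', Real.log_exp]
    ring
  set r2 := r ^ 2 with hr2
  set R2 := ρ ^ 2 with hR2
  set t1 := Real.log R2 with ht1
  have hr20 : 0 < r2 := by positivity
  have hR20 : 0 < R2 := by positivity
  have hcomp : t1 - Real.log r2 = T := by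
    rw [ht1, hr2, hR2, Real.log_pow, Real.log_pow, hlr]
    norm_num
    ring
  have hsR : Real.sqrt R2 = ρ := Real.sqrt_sq hρ.le
  set e := ∫ z, gradSq (psi z0 t1 T r2) z with he
  have he1 : 2 * Real.pi / T ≤ e := energy_ge z0 hr20 hT0 hcomp hR20 rfl
  have he0 : 0 < e := lt_of_lt_of_le (by positivity) he1
  set lam := Real.sqrt (2 / e) with hlam
  have hlam0 : 0 ≤ lam := Real.sqrt_nonneg _
  have hlam2 : lam ^ 2 = 2 / e := Real.sq_sqrt (by positivity)
  have hlam3 : lam ^ 2 ≤ T / Real.pi := by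
    rw [hlam2, div_le_div_iff₀ he0 Real.pi_pos]
    rw [div_le_iff₀ hT0] at he1
    linarith
  have hlame : lam ^ 2 * e = 2 := by
    rw [hlam2]
    field_simp
  have hmass := mass_le z0 hr20 hT0 hcomp hR20 rfl hC hC0
  have hb := phi0_abs z0 hr20 hT0 hcomp hC
  have hcd := phi0_contDiff z0 hr20 hT0 hcomp
  refine ⟨r, lam * (4 * C / T ^ 2), fun z => lam * phi0 z0 (t1 := t1) (T := T) (r2 := r2) z,
    hr0, hrρ, by positivity, contDiff_const.mul hcd, ?_, ?_, ?_, ?_, ?_, ?_, ?_, ?_⟩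
  · apply HasCompactSupport.of_support_subset_isCompact (isCompact_closedBall z0 ρ)
    intro z hz
    have h1 : phi0 z0 (t1 := t1) (T := T) (r2 := r2) z ≠ 0 := right_ne_zero_of_mul hz
    have h2 := phi0_support z0 hr20 hT0 hcomp hR20 rfl (subset_tsupport _ h1)
    rwa [hsR] at h2
  · refine closure_minimal ?_ Metric.isClosed_closedBall
    intro z hz
    have h1 : phi0 z0 (t1 := t1) (T := T) (r2 := r2) z ≠ 0 := right_ne_zero_of_mul hz
    have h2 := phi0_support z0 hr20 hT0 hcomp hR20 rfl (subset_tsupport _ h1)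
    rwa [hsR] at h2
  · intro z hz
    have h1 : phi0 z0 (t1 := t1) (T := T) (r2 := r2) z ≠ 0 := right_ne_zero_of_mul hz
    have h2 := phi0_bounds z0 hr20 hT0 hcomp hR20 rfl h1
    rw [ns_eq] at h2
    exact ⟨le_of_sq_le_sq h2.1 (norm_nonneg _), le_of_sq_le_sq h2.2 hρ.le⟩
  · intro z
    rw [abs_mul, abs_of_nonneg hlam0, ← ns_eq, mul_assoc]
    exact mul_le_mul_of_nonneg_left (hb z) hlam0
  · have e1 : ∀ z, |lam * phi0 z0 (t1 := t1) (T := T) (r2 := r2) z| =
        lam * |phi0 z0 (t1 := t1) (T := T) (r2 := r2) z| := by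
      intro z
      rw [abs_mul, abs_of_nonneg hlam0]
    simp_rw [e1]
    rw [integral_const_mul]
    have h1 : lam * ∫ z, |phi0 z0 (t1 := t1) (T := T) (r2 := r2) z| ≤
        lam * (4 * Real.pi * C / T) := mul_le_mul_of_nonneg_left hmass hlam0
    refine h1.trans ?_
    apply le_of_sq_le_sq _ hε.le
    have h2 : (lam * (4 * Real.pi * C / T)) ^ 2 ≤ T / Real.pi * (4 * Real.pi * C / T) ^ 2 := by
      rw [mul_pow]
      exact mul_le_mul_of_nonneg_right hlam3 (by positivity)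
    refine h2.trans ?_
    have h3 : T / Real.pi * (4 * Real.pi * C / T) ^ 2 = 16 * Real.pi * C ^ 2 / T := by
      field_simp
      ring
    rw [h3, div_le_iff₀ hT0]
    have h4 : 16 * Real.pi * C ^ 2 / ε ^ 2 ≤ T := by
      have h2 : 0 ≤ K2 / ε := by positivity
      linarith
    rw [div_le_iff₀ (by positivity)] at h4
    linarith
  · have hl : Real.log (16 * ρ / (3 * r)) = Real.log (16 / 3) + T / 2 := by
      have : 16 * ρ / (3 * r) = 16 / 3 * (ρ / r) := by
        field_simp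
      rw [this, Real.log_mul (by norm_num) (by positivity), Real.log_div hρ.ne' hr0.ne', hlr]
      ring
    have h163 : Real.log (16 / 3) ≤ 5 / 2 := by
      rw [Real.log_le_iff_le_exp (by norm_num)]
      have h1 := Real.add_one_le_exp (5 / 6 : ℝ)
      have h2 : Real.exp (5 / 2 : ℝ) = Real.exp (5 / 6) ^ 3 := by
        rw [← Real.exp_nat_mul]
        norm_num
      rw [h2]
      have h3 : (11 / 6 : ℝ) ^ 3 ≤ Real.exp (5 / 6) ^ 3 :=
        pow_le_pow_left₀ (by norm_num) (by linarith) 3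
      refine le_trans ?_ h3
      norm_num
    have h1 : (1 + Real.log (16 * ρ / (3 * r))) ≤ 4 * T := by
      rw [hl]
      linarith
    have h2 : 0 ≤ 1152 * (2 * (lam * (4 * C / T ^ 2))) ^ 2 := by positivity
    refine (mul_le_mul_of_nonneg_left h1 h2).trans ?_
    have h3 : 1152 * (2 * (lam * (4 * C / T ^ 2))) ^ 2 * (4 * T) =
        lam ^ 2 * (1152 * 64 * C ^ 2 / T ^ 3 * 4) := by
      field_simp
      ring
    rw [h3]
    have h4 : lam ^ 2 * (1152 * 64 * C ^ 2 / T ^ 3 * 4) ≤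
        T / Real.pi * (1152 * 64 * C ^ 2 / T ^ 3 * 4) :=
      mul_le_mul_of_nonneg_right hlam3 (by positivity)
    refine h4.trans ?_
    have h5 : T / Real.pi * (1152 * 64 * C ^ 2 / T ^ 3 * 4) = K2 / T ^ 2 := by
      rw [hK2]
      field_simp
    rw [h5, div_le_iff₀ (by positivity)]
    have h6 : K2 / ε ≤ T := by
      have h1 : 0 ≤ 16 * Real.pi * C ^ 2 / ε ^ 2 := by positivity
      linarith
    rw [div_le_iff₀ hε] at h6
    nlinarith
  · intro U
    unfold Gr
    apply iSup_le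
    rintro ⟨v, hv⟩
    have h1 := dval_le z0 hr20 hT0 hcomp hR20 rfl hv.smooth hv.cpt lam
    rw [← he, hlame] at h1
    calc ENNReal.ofReal _ ≤ ENNReal.ofReal 2 := ENNReal.ofReal_le_ofReal h1
      _ = 2 := by simp
  · intro U hU
    apply le_antisymm
    · unfold Gr
      apply iSup_le
      rintro ⟨v, hv⟩
      have h1 := dval_le z0 hr20 hT0 hcomp hR20 rfl hv.smooth hv.cpt lam
      rw [← he, hlame] at h1
      calc ENNReal.ofReal _ ≤ ENNReal.ofReal 2 := ENNReal.ofReal_le_ofReal h1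
        _ = 2 := by simp
    · have hps := psi_support z0 hT0 hcomp hR20 rfl
      rw [hsR] at hps
      have ht : K.IsTest U (fun z => lam * psi z0 t1 T r2 z) := by
        refine ⟨contDiff_const.mul (psi_contDiff z0 hr20 hT0 hcomp),
          (psi_cpt z0 hT0 hcomp hR20 rfl).mul_left, ?_⟩
        refine (closure_minimal ?_ (isClosed_tsupport (psi z0 t1 T r2))).trans (hps.trans hU)
        intro z hz
        exact subset_tsupport _ (right_ne_zero_of_mul hz)
      have h1 := dval_psi z0 hr20 hT0 hcomp hR20 rfl lam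
      rw [← he, hlame] at h1
      unfold Gr
      refine le_trans ?_ (le_iSup _ ⟨_, ht⟩)
      rw [h1]
      simp

end Vale.Agent.P155.K
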