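import Vale.Agent.P155.K.Contour

/-!
# P155 block K: maximum principle, smallness near the complement
-/

namespace Vale.Agent.P155.K

open Vale.Agent.P155 Finset

theorem mem_box {p x : Pt} {s : ℕ} : x ∈ box p s ↔ dinf p x ≤ s := by
  obtain ⟨p1, p2⟩ := p
  obtain ⟨x1, x2⟩ := x
  simp only [box, dinf, Finset.mem_product, Finset.mem_Icc, max_le_iff, abs_le]
  omega

/-- Comparison principle in a box. -/
theorem comparison {O : Set Pt} {u w : Pt → ℝ} {p : Pt} {s : ℕ}
    (hbd : ∀ y, dinf p y = s → u y ≤ w y) (hoff : ∀ y, y ∉ O → u y ≤ w y)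
    (hlap : ∀ y ∈ O, dinf p y < s → - lap u y ≤ - lap w y) {x : Pt} (hx : dinf p x ≤ s) :
    u x ≤ w x := by
  classical
  by_contra hcon
  push Not at hcon
  set f : Pt → ℝ := fun y => u y - w y with hf
  obtain ⟨x0, hx0, hmax⟩ := Finset.exists_max_image (box p s) f ⟨x, mem_box.2 hx⟩
  have hm : 0 < f x0 := by
    have := hmax x (mem_box.2 hx)
    have h2 : 0 < f x := by simp only [hf]; linarith
    linarith
  obtain ⟨y, hy, hymax⟩ := Finset.exists_max_image ((box p s).filter (fun y => f y = f x0))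
    (fun y => y.1) ⟨x0, by simp [hx0]⟩
  simp only [Finset.mem_filter] at hy hymax
  obtain ⟨hyb, hyf⟩ := hy
  have hyb' := mem_box.1 hyb
  have hyO : y ∈ O := by
    by_contra h
    have := hoff y h
    simp only [hf] at hyf hm
    linarith
  have hys : dinf p y < s := by
    rcases lt_or_eq_of_le hyb' with h | h
    · exact h
    · have := hbd y h
      simp only [hf] at hyf hm
      linarith
  have nb : ∀ z : Pt, dinf y z ≤ 1 → f z ≤ f x0 := by
    intro z hz
    apply hmax z
    rw [mem_box]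
    have : dinf p z ≤ dinf p y + dinf y z := by
      simp only [dinf]
      refine max_le ?_ ?_
      · calc |p.1 - z.1| ≤ |p.1 - y.1| + |y.1 - z.1| := by
              have := abs_add_le (p.1 - y.1) (y.1 - z.1)
              simpa using this
          _ ≤ _ := add_le_add (le_max_left _ _) (le_max_left _ _)
      · calc |p.2 - z.2| ≤ |p.2 - y.2| + |y.2 - z.2| := by
              have := abs_add_le (p.2 - y.2) (y.2 - z.2)
              simpa using this
          _ ≤ _ := add_le_add (le_max_right _ _) (le_max_right _ _)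
    omega
  have h1 := nb (y.1 + 1, y.2) (by simp [dinf])
  have h2 := nb (y.1 - 1, y.2) (by simp [dinf])
  have h3 := nb (y.1, y.2 + 1) (by simp [dinf])
  have h4 := nb (y.1, y.2 - 1) (by simp [dinf])
  have hl := hlap y hyO hys
  have hright : f (y.1 + 1, y.2) = f x0 := by
    apply le_antisymm h1
    simp only [lap] at hl
    simp only [hf] at h1 h2 h3 h4 hyf ⊢
    linarith
  have := hymax (y.1 + 1, y.2) ⟨by
    rw [mem_box]
    have : dinf p (y.1 + 1, y.2) ≤ dinf p y + 1 := by
      simp only [dinf]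
      refine max_le ?_ ?_
      · have := abs_add_le (p.1 - y.1) (-1)
        have e : p.1 - (y.1 + 1) = p.1 - y.1 + -1 := by ring
        rw [e]
        refine this.trans ?_
        simp
      · exact (le_max_right _ _).trans (by linarith)
    omega, hright⟩
  simp at this

/-- The lap of a concave parabola. -/
theorem lap_parab (B m c : ℝ) (p1 : ℤ) (y : Pt) :
    - lap (fun y => B + m / 2 * (c - ((y.1 : ℝ) - p1) ^ 2)) y = m := by
  unfold lap
  push_cast
  ring

theorem green_le {O : Set Pt} {φ u : Pt → ℝ} (hu : IsGreen O φ u) {m B : ℝ} {p : Pt} {s : ℕ}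
    (hm : 0 ≤ m) (hφ : ∀ x, |φ x| ≤ m) (hB0 : 0 ≤ B) (hB : ∀ y, dinf p y = s → |u y| ≤ B)
    {x : Pt} (hx : dinf p x ≤ s) : |u x| ≤ B + m / 2 * (s : ℝ) ^ 2 := by
  have aux : ∀ y : Pt, dinf p y ≤ s → ((y.1 : ℝ) - p.1) ^ 2 ≤ (s : ℝ) ^ 2 := by
    intro y hy
    have h1 : |p.1 - y.1| ≤ (s : ℤ) := (le_max_left _ _).trans hy
    have h2 : |((y.1 : ℝ) - p.1)| ≤ (s : ℝ) := by
      rw [abs_sub_comm]
      exact_mod_cast h1
    rw [← sq_abs]
    gcongr
  have key : ∀ v : Pt → ℝ, ∀ ψ : Pt → ℝ, IsGreen O ψ v → (∀ x, |ψ x| ≤ m) →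
      (∀ y, dinf p y = s → |v y| ≤ B) → v x ≤ B + m / 2 * (s : ℝ) ^ 2 := by
    intro v ψ hv hψ hvB
    -- the comparison function, made nonnegative off the box by the positive part
    have h := comparison (O := O ∩ {y | dinf p y ≤ s}) (u := fun y => if dinf p y ≤ s then v y else 0)
      (w := fun y => if dinf p y ≤ s then B + m / 2 * ((s : ℝ) ^ 2 - ((y.1 : ℝ) - p.1) ^ 2) else 0)
      (p := p) (s := s) ?_ ?_ ?_ hx
    · simp only [hx, if_true] at h
      have := aux x hx
      have h3 : m / 2 * ((s : ℝ) ^ 2 - ((x.1 : ℝ) - p.1) ^ 2) ≤ m / 2 * (s : ℝ) ^ 2 := by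
        gcongr
        nlinarith [sq_nonneg ((x.1 : ℝ) - p.1)]
      linarith
    · intro y hy
      simp only [hy, le_refl, if_true]
      have := aux y hy.le
      have h3 : 0 ≤ m / 2 * ((s : ℝ) ^ 2 - ((y.1 : ℝ) - p.1) ^ 2) := by
        apply mul_nonneg (by positivity)
        linarith
      have := (abs_le.1 (hvB y hy)).2
      linarith
    · intro y hy
      by_cases hys : dinf p y ≤ s
      · simp only [hys, if_true]
        have hyO : y ∉ O := fun h => hy ⟨h, hys⟩
        rw [hv.off y hyO]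
        have := aux y hys
        have h3 : 0 ≤ m / 2 * ((s : ℝ) ^ 2 - ((y.1 : ℝ) - p.1) ^ 2) := by
          apply mul_nonneg (by positivity)
          linarith
        linarith
      · simp only [hys, if_false, le_refl]
    · rintro y ⟨hyO, -⟩ hys
      have nb : ∀ z : Pt, dinf y z ≤ 1 → dinf p z ≤ s := by
        intro z hz
        have : dinf p z ≤ dinf p y + dinf y z := by
          simp only [dinf]
          refine max_le ?_ ?_
          · calc |p.1 - z.1| ≤ |p.1 - y.1| + |y.1 - z.1| := by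
                  have := abs_add_le (p.1 - y.1) (y.1 - z.1)
                  simpa using this
              _ ≤ _ := add_le_add (le_max_left _ _) (le_max_left _ _)
          · calc |p.2 - z.2| ≤ |p.2 - y.2| + |y.2 - z.2| := by
                  have := abs_add_le (p.2 - y.2) (y.2 - z.2)
                  simpa using this
              _ ≤ _ := add_le_add (le_max_right _ _) (le_max_right _ _)
        omega
      have n0 := nb y (by simp [dinf])
      have n1 := nb (y.1 + 1, y.2) (by simp [dinf])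
      have n2 := nb (y.1 - 1, y.2) (by simp [dinf])
      have n3 := nb (y.1, y.2 + 1) (by simp [dinf])
      have n4 := nb (y.1, y.2 - 1) (by simp [dinf])
      have e1 : - lap (fun y => if dinf p y ≤ s then v y else 0) y = ψ y := by
        rw [← hv.eq y hyO]
        simp only [lap, n0, n1, n2, n3, n4, if_true]
      have e2 : - lap (fun y => if dinf p y ≤ s then
          B + m / 2 * ((s : ℝ) ^ 2 - ((y.1 : ℝ) - p.1) ^ 2) else 0) y = m := by
        have h5 := lap_parab B m ((s : ℝ) ^ 2) p.1 y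
        simp only [lap, n0, n1, n2, n3, n4, if_true] at h5 ⊢
        exact h5
      rw [e1, e2]
      exact (abs_le.1 (hψ y)).2
  rw [abs_le]
  constructor
  · have h := key (fun y => - u y) (fun y => - φ y) ⟨fun x hx => by simp [hu.off x hx], fun x hx => by
      have := hu.eq x hx
      simp only [lap] at this ⊢
      linarith⟩ (fun x => by simpa using hφ x) (fun y hy => by simpa using hB y hy)
    have h' : - u x ≤ B + m / 2 * (s : ℝ) ^ 2 := h
    linarith
  · exact key u φ hu hφ hB

/-- Global sup bound. -/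
theorem green_sup {O : Set Pt} {φ u : Pt → ℝ} (hu : IsGreen O φ u) {m : ℝ} {p : Pt} {s : ℕ}
    (hm : 0 ≤ m) (hφ : ∀ x, |φ x| ≤ m) (hO : ∀ y ∈ O, dinf p y < s) (x : Pt) :
    |u x| ≤ m / 2 * (s : ℝ) ^ 2 := by
  by_cases hx : x ∈ O
  · have := green_le hu (B := 0) (p := p) (s := s) hm hφ le_rfl (by
      intro y hy
      rw [hu.off y (fun h => by have := hO y h; omega)]
      simp) (hO x hx).le
    linarith
  · rw [hu.off x hx, abs_zero]
    positivity

/-- Smallness near the complement (Courant-Lebesgue). -/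
theorem green_near {O : Set Pt} (hO : O.Finite) (hP : ∀ p, p ∉ O → ∀ r : ℕ, ∃ q, q ∉ O ∧ dinf p q = r)
    {φ u : Pt → ℝ} (hu : IsGreen O φ u) {m E : ℝ} (hm : 0 ≤ m) (hφ : ∀ x, |φ x| ≤ m)
    (hE : energy u ≤ E) {a b : ℕ} (ha : 1 ≤ a) (hab : a ≤ b) {p x : Pt} (hp : p ∉ O)
    (hx : dinf p x ≤ a) :
    |u x| ≤ Real.sqrt (8 * E / ∑ s ∈ Finset.Icc a b, ((s : ℝ))⁻¹) + m / 2 * (b : ℝ) ^ 2 := by
  have fu := Fin0.of_sub hO hu.off
  set H := ∑ s ∈ Finset.Icc a b, ((s : ℝ))⁻¹ with hH
  have hHpos : 0 < H := by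
    apply Finset.sum_pos
    · intro s hs
      have : 1 ≤ s := ha.trans (Finset.mem_Icc.1 hs).1
      positivity
    · exact ⟨a, by simp [hab]⟩
  have hS : ∀ s ∈ Finset.Icc a b, 1 ≤ s := fun s hs => ha.trans (Finset.mem_Icc.1 hs).1
  have h1 := sum_en_le fu p (Finset.Icc a b) hS
  -- a good radius
  obtain ⟨s, hs, hgood⟩ : ∃ s ∈ Finset.Icc a b, (s : ℝ) * en u p s ≤ E / H := by
    by_contra hcon
    push Not at hcon
    have : ∑ s ∈ Finset.Icc a b, ((s : ℝ))⁻¹ * (E / H) < ∑ s ∈ Finset.Icc a b, en u p s := by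
      apply Finset.sum_lt_sum_of_nonempty ⟨a, by simp [hab]⟩
      intro s hs
      have h2 := hcon s hs
      have hs1 : (0 : ℝ) < s := by
        have := hS s hs
        positivity
      rw [inv_mul_lt_iff₀ hs1]
      exact h2
    rw [← Finset.sum_mul, ← hH, mul_div_cancel₀ _ hHpos.ne'] at this
    linarith
  have hs' := Finset.mem_Icc.1 hs
  obtain ⟨q, hqO, hq⟩ := hP p hp s
  have hVar : Var u p s ≤ Real.sqrt (8 * E / H) := by
    apply Real.le_sqrt_of_sq_le
    have := Var_sq_le u p s
    calc Var u p s ^ 2 ≤ 8 * s * en u p s := this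
      _ = 8 * (s * en u p s) := by ring
      _ ≤ 8 * (E / H) := by gcongr
      _ = 8 * E / H := by ring
  have h2 := green_le hu (B := Real.sqrt (8 * E / H)) (p := p) (s := s) hm hφ (Real.sqrt_nonneg _) (by
      intro y hy
      have := contour u p s hq hy
      rw [hu.off q hqO, sub_zero] at this
      exact this.trans hVar) (x := x) (by omega)
  refine h2.trans ?_
  gcongr
  exact hs'.2

end Vale.Agent.P155.K
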