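import Vale.Agent.P155.K.GFF
import Vale.Agent.P155.A.TempMain

/-!
# P155 block K: the Green energy is a measurable function of the carpet
-/

namespace Vale.Agent.P155.K

open Vale.Agent.P155 MeasureTheory Filter Topology TopologicalSpace

section
variable {Ω : Set ℂ} (S : TempApprox Ω)

theorem DD_nonempty (T : Temp) : (DD T.V).Nonempty := by
  obtain ⟨m, hm⟩ := Temp.exists_pm T
  exact ⟨(m, m), by
    unfold DD
    rw [Finset.mem_product]
    exact ⟨mem_PM.2 hm, mem_PM.2 hm⟩⟩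

theorem Ok_zero (T : Temp) (ω : Conf) : Ok T 0 ω = T.faceSet := by
  ext f
  simp [Ok]

include S in
theorem Gr_finite (hb : Bornology.IsBounded Ω) {φ : ℂ → ℝ}
    (hφ : Continuous φ) (hφc : HasCompactSupport φ) : Gr Ω φ ≠ ⊤ := by
  obtain ⟨ϱ, hϱ0, hϱ⟩ := bounded_face S hb
  have hex : ∀ n, ∃ u, IsGreen (S.T n).faceSet (phin (S.δ n) (S.a n) φ) u := fun n =>
    G45.exists_green (A1.faceSet_finite (S.T n)) _
  choose u hu using hex
  have key := green_limit (δ := S.δ) S.pos S.mesh S.a (O := fun n => (S.T n).faceSet)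
    (fun n => A1.faceSet_finite (S.T n)) hφ hφc hu (ϱ := ϱ)
    (by
      filter_upwards [hϱ] with n hn y hy
      exact hn y hy _ (pos_mem_sqr _ _))
    (fun n => by
      obtain ⟨ω, hω⟩ := DD_nonempty (S.T n)
      have := propP_Ok (S.T n) 0 hω
      rwa [Ok_zero] at this) (U := Ω) ?_ (alpha_face S)
  · exact key.1
  · intro K hK hKΩ
    filter_upwards [S.cara₁ K hKΩ hK] with n hn y hy hyK
    exact hy ((KConn.mem_interior_region_iff (S.pos _)).1 (hn hyK) y (pos_mem_sqr _ _))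

theorem Gr_mono {U U' : Set ℂ} (h : U ⊆ U') (φ : ℂ → ℝ) : Gr U φ ≤ Gr U' φ := by
  unfold Gr
  apply iSup_le
  rintro ⟨v, hv⟩
  exact le_iSup (fun v : {v : ℂ → ℝ // K.IsTest U' v} => ENNReal.ofReal (dval φ v))
    ⟨v, hv.smooth, hv.cpt, hv.sub.trans h⟩

theorem lsc_Gr (φ : ℂ → ℝ) :
    LowerSemicontinuous (fun C : NonemptyCompacts ℂ => Gr (Ω \ (C : Set ℂ)) φ) := by
  intro C y hy
  unfold Gr at hy
  obtain ⟨⟨v, hv⟩, hyv⟩ := lt_iSup_iff.1 hy
  have hdisj : Disjoint (tsupport v) (C : Set ℂ) := by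
    rw [Set.disjoint_left]
    intro z hz hzC
    exact (hv.sub hz).2 hzC
  obtain ⟨c, hc, hcK⟩ := Metric.exists_pos_forall_lt_edist hv.cpt.isCompact
    C.isCompact.isClosed hdisj
  have hc0 : (0 : ℝ) < c := hc
  filter_upwards [Metric.ball_mem_nhds C hc0] with C' hC'
  have hdist : Metric.hausdorffDist (C' : Set ℂ) (C : Set ℂ) < c := by
    rw [Metric.mem_ball, Metric.NonemptyCompacts.dist_eq] at hC'
    exact hC'
  have hfin : Metric.hausdorffEDist (C' : Set ℂ) (C : Set ℂ) ≠ ⊤ :=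
    Metric.hausdorffEDist_ne_top_of_nonempty_of_bounded C'.nonempty C.nonempty
      C'.isCompact.isBounded C.isCompact.isBounded
  have hv' : K.IsTest (Ω \ (C' : Set ℂ)) v := by
    refine ⟨hv.smooth, hv.cpt, fun z hz => ⟨(hv.sub hz).1, fun hzC' => ?_⟩⟩
    obtain ⟨g, hg, hgd⟩ := Metric.exists_dist_lt_of_hausdorffDist_lt hzC' hdist hfin
    have h3 := hcK _ hz g hg
    rw [edist_dist] at h3
    have h4 : ENNReal.ofReal (dist z g) < ENNReal.ofReal c := by
      rwa [ENNReal.ofReal_lt_ofReal_iff hc0]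
    rw [ENNReal.ofReal_coe_nnreal] at h4
    exact absurd h3 (not_lt.2 h4.le)
  refine hyv.trans_le ?_
  show ENNReal.ofReal (dval φ v) ≤ Gr (Ω \ (C' : Set ℂ)) φ
  unfold Gr
  exact le_iSup (fun v : {v : ℂ → ℝ // K.IsTest (Ω \ (C' : Set ℂ)) v} =>
    ENNReal.ofReal (dval φ v)) ⟨v, hv'⟩

include S in
theorem greenEnergy_toReal (hb : Bornology.IsBounded Ω) {φ : ℂ → ℝ}
    (hφ : Continuous φ) (hφc : HasCompactSupport φ) (C : Set ℂ) :
    greenEnergy (Ω \ C) φ = (Gr (Ω \ C) φ).toReal :=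
  greenEnergy_eq (ne_top_of_le_ne_top (Gr_finite S hb hφ hφc) (Gr_mono Set.sdiff_subset φ))

include S in
/-- the greenEnergy part of the field `meas` -/
theorem measurable_greenEnergy (hb : Bornology.IsBounded Ω) {φ : ℂ → ℝ}
    (hφ : Vale.Agent.P155.IsTest Ω φ) {Θ : Type} [MeasurableSpace Θ]
    {G : Θ → NonemptyCompacts ℂ} (hG : @Measurable _ _ _ (borel (NonemptyCompacts ℂ)) G) :
    Measurable (fun x => greenEnergy (Ω \ (G x : Set ℂ)) φ) := by
  let _ : MeasurableSpace (NonemptyCompacts ℂ) := borel _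
  have : BorelSpace (NonemptyCompacts ℂ) := ⟨rfl⟩
  have hφ' := isTest_iff.1 hφ
  have h1 : Measurable (fun C : NonemptyCompacts ℂ => Gr (Ω \ (C : Set ℂ)) φ) :=
    (lsc_Gr φ).measurable
  have h2 : (fun x => greenEnergy (Ω \ (G x : Set ℂ)) φ) =
      fun x => (Gr (Ω \ (G x : Set ℂ)) φ).toReal := by
    funext x
    exact greenEnergy_toReal S hb hφ'.smooth.continuous hφ'.cpt _
  rw [h2]
  exact (h1.comp hG).ennreal_toReal

end

end Vale.Agent.P155.K
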