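import Vale.Agent.P155.K.Gr
import Mathlib.Analysis.Calculus.BumpFunction.Normed
import Mathlib.Analysis.Calculus.BumpFunction.InnerProduct

/-!
# P155 block K: mollification of lattice functions
-/

namespace Vale.Agent.P155.K

open Vale.Agent.P155 Finset MeasureTheory Filter Topology
open scoped ContDiff

/-- A mollifier of radius `η`. -/
structure IsMoll (η : ℝ) (ρ : ℂ → ℝ) : Prop where
  smooth : ContDiff ℝ ∞ ρ
  cpt : HasCompactSupport ρ
  nonneg : ∀ z, 0 ≤ ρ z
  int : ∫ z, ρ z = 1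
  supp : ∀ z, ρ z ≠ 0 → ‖z‖ < η

theorem exists_moll {η : ℝ} (hη : 0 < η) : ∃ ρ, IsMoll η ρ := by
  let f : ContDiffBump (0 : ℂ) := ⟨η / 2, η, by positivity, by linarith⟩
  refine ⟨f.normed volume, ?_, ?_, ?_, ?_, ?_⟩
  · exact f.contDiff_normed
  · exact f.hasCompactSupport_normed
  · exact f.nonneg_normed
  · exact f.integral_normed
  · intro z hz
    have h1 : z ∈ Function.support (f.normed volume) := hz
    rw [f.support_normed_eq] at h1
    simpa using h1

theorem taylor {ρ : ℂ → ℝ} (hρ : ContDiff ℝ ∞ ρ) (hc : HasCompactSupport ρ) :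
    ∃ C : ℝ, 0 ≤ C ∧ ∀ δ : ℝ, 0 < δ → ∀ ζ e : ℂ, ‖e‖ = 1 →
      |fderiv ℝ ρ ζ e - (ρ ζ - ρ (ζ - δ * e)) / δ| ≤ C * δ := by
  have hd : ContDiff ℝ ∞ (fderiv ℝ ρ) := hρ.fderiv_right (by simp)
  obtain ⟨C, hC⟩ := ContDiff.lipschitzWith_of_hasCompactSupport (hc.fderiv ℝ) hd (by simp)
  refine ⟨C, C.2, fun δ hδ ζ e he => ?_⟩
  have hdiff : Differentiable ℝ ρ := hρ.differentiable (by simp)
  have key : ‖ρ (ζ - δ * e) - ρ ζ - fderiv ℝ ρ ζ ((ζ - δ * e) - ζ)‖ ≤ (C * δ) * ‖(ζ - δ * e) - ζ‖ := by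
    apply Convex.norm_image_sub_le_of_norm_hasFDerivWithin_le' (f' := fun x => fderiv ℝ ρ x)
      (s := Metric.closedBall ζ δ)
    · intro x _
      exact (hdiff x).hasFDerivAt.hasFDerivWithinAt
    · intro x hx
      have := hC.dist_le_mul x ζ
      rw [dist_eq_norm] at this
      refine this.trans ?_
      gcongr
      exact hx
    · exact convex_closedBall ζ δ
    · simp [hδ.le]
    · simp [he, abs_of_pos hδ]
  have e1 : (ζ - δ * e) - ζ = -(δ • e) := by
    rw [Complex.real_smul]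
    ring
  have e2 : ‖-(δ • e)‖ = δ := by
    rw [norm_neg, norm_smul, he, mul_one, Real.norm_of_nonneg hδ.le]
  rw [e1, e2, map_neg, map_smul, smul_eq_mul, Real.norm_eq_abs] at key
  have e3 : fderiv ℝ ρ ζ e - (ρ ζ - ρ (ζ - δ * e)) / δ
      = (ρ (ζ - δ * e) - ρ ζ - -(δ * fderiv ℝ ρ ζ e)) / δ := by
    field_simp
    ring
  rw [e3, abs_div, abs_of_pos hδ, div_le_iff₀ hδ]
  exact key

/-- Riemann sums of a mollifier. -/
theorem riemann_moll {η : ℝ} {ρ : ℂ → ℝ} (h : IsMoll η ρ) :
    ∃ C : ℝ, 0 ≤ C ∧ ∀ δ : ℝ, 0 < δ → δ ≤ 1 → ∀ a z : ℂ,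
      δ ^ 2 * ∑ᶠ y : Pt, ρ (z - pos δ a y) ≤ 1 + C * δ := by
  obtain ⟨L, hL⟩ := ContDiff.lipschitzWith_of_hasCompactSupport h.cpt h.smooth (by simp)
  set V := (volume (Metric.closedBall (0 : ℂ) (η + 2))).toReal with hV
  refine ⟨2 * L * V, by positivity, fun δ hδ hδ1 a z => ?_⟩
  have fin : Fin0 (fun y => ρ (z - pos δ a y)) := by
    apply (finite_pos_le hδ a (‖z‖ + η)).subset
    intro y hy
    have := h.supp _ hy
    calc ‖pos δ a y‖ = ‖z - (z - pos δ a y)‖ := by rw [sub_sub_cancel]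
      _ ≤ ‖z‖ + ‖z - pos δ a y‖ := norm_sub_le _ _
      _ ≤ ‖z‖ + η := by linarith
  rw [← integral_cell hδ a fin]
  have i0 : ∫ ζ, ρ (z - ζ) = 1 := by
    rw [integral_sub_left_eq_self (fun ζ => ρ ζ) volume z]
    exact h.int
  have int1 : Integrable (fun ζ => ρ (z - ζ)) :=
    (h.smooth.continuous.comp (continuous_const.sub continuous_id)).integrable_of_hasCompactSupport
      (h.cpt.comp_homeomorph (Homeomorph.subLeft z))
  set B := (Metric.closedBall z (η + 2)).indicator (fun _ : ℂ => 2 * L * δ) with hB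
  have intB : Integrable B := by
    apply (integrable_indicator_iff measurableSet_closedBall).2
    apply integrableOn_const
    · exact (isCompact_closedBall _ _).measure_ne_top
    · exact enorm_ne_top
  have hBint : ∫ ζ, B ζ = 2 * L * V * δ := by
    rw [hB, integral_indicator_const _ measurableSet_closedBall, Measure.real,
      Measure.addHaar_closedBall_center, smul_eq_mul, ← hV]
    ring
  calc ∫ ζ, ρ (z - pos δ a (cell δ a ζ)) ≤ ∫ ζ, (ρ (z - ζ) + B ζ) := by
        apply integral_mono_of_nonneg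
        · filter_upwards with ζ
          exact h.nonneg _
        · exact int1.add intB
        · filter_upwards with ζ
          have h1 := norm_sub_pos_cell hδ a ζ
          by_cases hz : ζ ∈ Metric.closedBall z (η + 2)
          · simp only [hB, Set.indicator_of_mem hz]
            have h2 := hL.dist_le_mul (z - pos δ a (cell δ a ζ)) (z - ζ)
            rw [Real.dist_eq, dist_eq_norm] at h2
            have h3 : (z - pos δ a (cell δ a ζ)) - (z - ζ) = ζ - pos δ a (cell δ a ζ) := by ring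
            rw [h3] at h2
            have h4 := (le_abs_self _).trans h2
            have h5 : (L : ℝ) * ‖ζ - pos δ a (cell δ a ζ)‖ ≤ L * (2 * δ) := by gcongr
            linarith
          · simp only [hB, Set.indicator_of_notMem hz, add_zero]
            have h6 : ρ (z - pos δ a (cell δ a ζ)) = 0 := by
              by_contra h7
              apply hz
              have h8 := h.supp _ h7
              rw [mem_closedBall_iff_norm]
              calc ‖ζ - z‖ = ‖(ζ - pos δ a (cell δ a ζ)) - (z - pos δ a (cell δ a ζ))‖ := by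
                    congr 1
                    ring
                _ ≤ 2 * δ + η := (norm_sub_le _ _).trans (by linarith)
                _ ≤ η + 2 := by linarith
            rw [h6]
            exact h.nonneg _
    _ = 1 + 2 * L * V * δ := by
        rw [integral_add int1 intB, i0, hBint]

/-- The mollified lattice function. -/
noncomputable def moll (δ : ℝ) (a : ℂ) (ρ : ℂ → ℝ) (w : Pt → ℝ) (z : ℂ) : ℝ :=
  δ ^ 2 * ∑ᶠ y : Pt, w y * ρ (z - pos δ a y)

theorem moll_eq {δ : ℝ} {a : ℂ} {ρ : ℂ → ℝ} {w : Pt → ℝ} {S : Finset Pt}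
    (hS : ∀ y, y ∉ S → w y = 0) (z : ℂ) :
    moll δ a ρ w z = δ ^ 2 * ∑ y ∈ S, w y * ρ (z - pos δ a y) := by
  unfold moll
  rw [finsum_eq_sum_of_support_subset (s := S)]
  intro y hy
  by_contra h
  exact hy (by simp [hS y (by simpa using h)])

theorem contDiff_moll {δ : ℝ} {a : ℂ} {ρ : ℂ → ℝ} {w : Pt → ℝ} (hρ : ContDiff ℝ ∞ ρ) (hw : Fin0 w) :
    ContDiff ℝ ∞ (moll δ a ρ w) := by
  have e : moll δ a ρ w = fun z => δ ^ 2 * ∑ y ∈ (Set.Finite.toFinset hw), w y * ρ (z - pos δ a y) := by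
    funext z
    apply moll_eq
    intro y hy
    by_contra h
    exact hy ((Set.Finite.mem_toFinset hw).2 h)
  rw [e]
  apply contDiff_const.mul
  apply ContDiff.sum
  intro y _
  exact contDiff_const.mul (hρ.comp (contDiff_id.sub contDiff_const))

theorem moll_ne {δ : ℝ} {a : ℂ} {ρ : ℂ → ℝ} {w : Pt → ℝ} {z : ℂ} (h : moll δ a ρ w z ≠ 0) :
    ∃ y, w y ≠ 0 ∧ ρ (z - pos δ a y) ≠ 0 := by
  by_contra hcon
  push Not at hcon
  apply h
  unfold moll
  rw [finsum_eq_zero_of_forall_eq_zero, mul_zero]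
  intro y
  by_cases hy : w y = 0
  · simp [hy]
  · simp [hcon y hy]

/-- The mollified function is a test function when `w` is supported far from the complement. -/
theorem isTest_moll {δ : ℝ} {a : ℂ} {η : ℝ} {ρ : ℂ → ℝ} (h : IsMoll η ρ) {w : Pt → ℝ} (hw : Fin0 w)
    {U : Set ℂ} (hU : ∀ y, w y ≠ 0 → ∀ z, z ∉ U → η < ‖z - pos δ a y‖) :
    IsTest U (moll δ a ρ w) := by
  have hsub : Function.support (moll δ a ρ w) ⊆
      ⋃ y ∈ Function.support w, Metric.closedBall (pos δ a y) η := by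
    intro z hz
    obtain ⟨y, hy, hy2⟩ := moll_ne hz
    simp only [Set.mem_iUnion, exists_prop]
    refine ⟨y, hy, ?_⟩
    rw [mem_closedBall_iff_norm]
    exact (h.supp _ hy2).le
  have hK : IsCompact (⋃ y ∈ Function.support w, Metric.closedBall (pos δ a y) η) :=
    hw.isCompact_biUnion (fun y _ => isCompact_closedBall _ _)
  refine ⟨contDiff_moll h.smooth hw, ?_, ?_⟩
  · exact HasCompactSupport.of_support_subset_isCompact hK hsub
  · have h1 : tsupport (moll δ a ρ w) ⊆ ⋃ y ∈ Function.support w, Metric.closedBall (pos δ a y) η :=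
      closure_minimal hsub hK.isClosed
    intro z hz
    by_contra hzU
    have h2 := h1 hz
    simp only [Set.mem_iUnion, exists_prop] at h2
    obtain ⟨y, hy, hy2⟩ := h2
    rw [mem_closedBall_iff_norm] at hy2
    exact absurd (hU y hy z hzU) (not_lt.2 hy2)

end Vale.Agent.P155.K
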