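import Vale.Agent.P155.K.Moll

/-!
# P155 block K: energy of a mollified lattice function
-/

namespace Vale.Agent.P155.K

open Vale.Agent.P155 Finset MeasureTheory Filter Topology
open scoped ContDiff

theorem fderiv_moll {δ : ℝ} {a : ℂ} {ρ : ℂ → ℝ} {w : Pt → ℝ} (hρ : ContDiff ℝ ∞ ρ) {S : Finset Pt}
    (hS : ∀ y, y ∉ S → w y = 0) (z e : ℂ) :
    fderiv ℝ (moll δ a ρ w) z e = δ ^ 2 * ∑ y ∈ S, w y * fderiv ℝ ρ (z - pos δ a y) e := by
  have hd : Differentiable ℝ ρ := hρ.differentiable (by simp)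
  have e1 : moll δ a ρ w = fun z => δ ^ 2 * ∑ y ∈ S, w y * ρ (z - pos δ a y) := by
    funext z
    exact moll_eq hS z
  have h1 : ∀ y ∈ S, HasFDerivAt (fun z => w y * ρ (z - pos δ a y))
      (w y • fderiv ℝ ρ (z - pos δ a y)) z := by
    intro y _
    have h2 : HasFDerivAt (fun z : ℂ => ρ (z - pos δ a y)) (fderiv ℝ ρ (z - pos δ a y)) z := by
      have := (hd (z - pos δ a y)).hasFDerivAt.comp z ((hasFDerivAt_id (𝕜 := ℝ) z).sub_const (pos δ a y))
      have h3 : HasFDerivAt (ρ ∘ fun x => x - pos δ a y) (fderiv ℝ ρ (z - pos δ a y)) z := by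
        simpa using this
      exact h3
    exact h2.const_mul (w y)
  have h3 := (HasFDerivAt.fun_sum h1).const_mul (δ ^ 2)
  rw [e1, h3.fderiv]
  simp

theorem dir_energy {η : ℝ} {ρ : ℂ → ℝ} (h : IsMoll η ρ) (ϱ : ℝ) {e : ℂ} (he : ‖e‖ = 1) (sh : Pt ≃ Pt) :
    ∃ C : ℝ, 0 ≤ C ∧ ∀ δ : ℝ, 0 < δ → δ ≤ 1 → ∀ a : ℂ,
      (∀ y, pos δ a (sh y) = pos δ a y + δ * e) → ∀ w : Pt → ℝ, Fin0 w →
      (∀ y, w y ≠ 0 → ‖pos δ a y‖ ≤ ϱ) →
      ∫ z, (fderiv ℝ (moll δ a ρ w) z e) ^ 2 ≤
        (1 + C * δ) * (∑ᶠ y : Pt, (w (sh y) - w y) ^ 2) + C * δ * (δ ^ 2 * ∑ᶠ y : Pt, |w y|) ^ 2 := by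
  classical
  obtain ⟨C1, hC1, hT⟩ := taylor h.smooth h.cpt
  obtain ⟨C2, hC2, hR⟩ := riemann_moll h
  set V := (volume (Metric.closedBall (0 : ℂ) (ϱ + η + 1))).toReal with hV
  have hV0 : 0 ≤ V := ENNReal.toReal_nonneg
  refine ⟨1 + 2 * C2 + 2 * C1 ^ 2 * V, by positivity, fun δ hδ hδ1 a hsh w hw hϱ => ?_⟩
  set S0 : Finset Pt := Set.Finite.toFinset hw with hS0
  set S : Finset Pt := S0 ∪ S0.map sh.toEmbedding with hS
  have hwS0 : ∀ y, y ∉ S0 → w y = 0 := by
    intro y hy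
    by_contra h0
    exact hy ((Set.Finite.mem_toFinset hw).2 h0)
  have hwS : ∀ y, y ∉ S → w y = 0 := fun y hy => hwS0 y (fun h0 => hy (Finset.mem_union_left _ h0))
  have hwS' : ∀ y, y ∉ S → w (sh.symm y) = 0 := by
    intro y hy
    apply hwS0
    intro h0
    apply hy
    rw [hS, Finset.mem_union]
    right
    rw [Finset.mem_map]
    exact ⟨sh.symm y, h0, by simp⟩
  set W := δ ^ 2 * ∑ᶠ y : Pt, |w y| with hW
  have hWS : W = δ ^ 2 * ∑ y ∈ S, |w y| := by
    rw [hW, finsum_eq_sum_of_support_subset (s := S)]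
    intro y hy
    by_contra h0
    exact hy (by simp [hwS y (by simpa using h0)])
  set d : Pt → ℝ := fun y => w y - w (sh.symm y) with hd
  have hdS : ∀ y, y ∉ S → d y = 0 := by
    intro y hy
    simp [hd, hwS y hy, hwS' y hy]
  -- the energy in direction `e`
  have hE : ∑ᶠ y : Pt, (w (sh y) - w y) ^ 2 = ∑ y ∈ S, d y ^ 2 := by
    have e1 : ∑ᶠ y : Pt, (w (sh y) - w y) ^ 2 = ∑ᶠ y : Pt, d y ^ 2 := by
      rw [← finsum_comp_equiv sh (f := fun y => d y ^ 2)]
      congr 1
      funext y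
      simp [hd]
    rw [e1, finsum_eq_sum_of_support_subset (s := S)]
    intro y hy
    by_contra h0
    exact hy (by simp [hdS y (by simpa using h0)])
  -- the main term
  set m : ℂ → ℝ := fun z => δ * ∑ y ∈ S, d y * ρ (z - pos δ a y) with hm
  have hm_eq : ∀ z, m z = δ ^ 2 * ∑ y ∈ S, w y *
      ((ρ (z - pos δ a y) - ρ (z - pos δ a y - δ * e)) / δ) := by
    intro z
    have e1 : ∑ y ∈ S, w (sh.symm y) * ρ (z - pos δ a y) =
        ∑ y ∈ S, w y * ρ (z - pos δ a y - δ * e) := by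
      have f1 : ∑ y ∈ S, w (sh.symm y) * ρ (z - pos δ a y)
          = ∑ᶠ y : Pt, w (sh.symm y) * ρ (z - pos δ a y) := by
        rw [finsum_eq_sum_of_support_subset (s := S)]
        intro y hy
        by_contra h0
        exact hy (by simp [hwS' y (by simpa using h0)])
      have f2 : ∑ y ∈ S, w y * ρ (z - pos δ a y - δ * e)
          = ∑ᶠ y : Pt, w y * ρ (z - pos δ a y - δ * e) := by
        rw [finsum_eq_sum_of_support_subset (s := S)]
        intro y hy
        by_contra h0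
        exact hy (by simp [hwS y (by simpa using h0)])
      rw [f1, f2, ← finsum_comp_equiv sh]
      congr 1
      funext y
      rw [Equiv.symm_apply_apply, hsh, sub_sub]
    have e2 : ∑ y ∈ S, w y * ((ρ (z - pos δ a y) - ρ (z - pos δ a y - δ * e)) / δ)
        = (∑ y ∈ S, w y * ρ (z - pos δ a y) - ∑ y ∈ S, w y * ρ (z - pos δ a y - δ * e)) / δ := by
      rw [← Finset.sum_sub_distrib, Finset.sum_div]
      apply Finset.sum_congr rfl
      intro y _
      ring
    rw [e2, ← e1, ← Finset.sum_sub_distrib, hm]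
    simp only [hd, sub_mul]
    field_simp
  -- the error
  have herr : ∀ z, |fderiv ℝ (moll δ a ρ w) z e - m z| ≤ C1 * δ * W := by
    intro z
    rw [fderiv_moll h.smooth hwS, hm_eq, ← mul_sub, ← Finset.sum_sub_distrib, hWS, abs_mul,
      abs_of_pos (by positivity : (0 : ℝ) < δ ^ 2)]
    have : |∑ y ∈ S, (w y * fderiv ℝ ρ (z - pos δ a y) e - w y *
        ((ρ (z - pos δ a y) - ρ (z - pos δ a y - δ * e)) / δ))| ≤ ∑ y ∈ S, |w y| * (C1 * δ) := by
      refine (Finset.abs_sum_le_sum_abs _ _).trans (Finset.sum_le_sum (fun y _ => ?_))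
      rw [← mul_sub, abs_mul]
      exact mul_le_mul_of_nonneg_left (hT δ hδ _ e he) (abs_nonneg _)
    rw [← Finset.sum_mul] at this
    calc δ ^ 2 * _ ≤ δ ^ 2 * ((∑ y ∈ S, |w y|) * (C1 * δ)) := by gcongr
      _ = C1 * δ * (δ ^ 2 * ∑ y ∈ S, |w y|) := by ring
  have hW0 : 0 ≤ W := by
    rw [hWS]
    positivity
  -- both vanish far away
  set B := Metric.closedBall (0 : ℂ) (ϱ + η + 1) with hB
  have hfar : ∀ z, z ∉ B → fderiv ℝ (moll δ a ρ w) z e = 0 ∧ m z = 0 := by
    intro z hz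
    have hzn : ϱ + η + 1 < ‖z‖ := by
      rw [hB, mem_closedBall_zero_iff, not_le] at hz
      exact hz
    have h0 : ∀ y, w y ≠ 0 → ∀ z' : ℂ, ‖z' - z‖ ≤ 1 → ρ (z' - pos δ a y) = 0 := by
      intro y hy z' hz'
      by_contra h1
      have h2 := h.supp _ h1
      have h3 := hϱ y hy
      have h4 : ‖z‖ ≤ ‖z' - z‖ + ‖z' - pos δ a y‖ + ‖pos δ a y‖ := by
        calc ‖z‖ = ‖-(z' - z) + (z' - pos δ a y) + pos δ a y‖ := by
              congr 1
              ring
          _ ≤ ‖-(z' - z)‖ + ‖z' - pos δ a y‖ + ‖pos δ a y‖ := norm_add₃_le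
          _ = _ := by rw [norm_neg]
      linarith
    constructor
    · have h5 : (moll δ a ρ w) =ᶠ[𝓝 z] fun _ => 0 := by
        filter_upwards [Metric.ball_mem_nhds z one_pos] with z' hz'
        rw [mem_ball_iff_norm] at hz'
        rw [moll_eq hwS]
        rw [Finset.sum_eq_zero, mul_zero]
        intro y _
        by_cases hy : w y = 0
        · rw [hy, zero_mul]
        · rw [h0 y hy z' hz'.le, mul_zero]
      rw [h5.fderiv_eq]
      simp
    · rw [hm_eq, Finset.sum_eq_zero, mul_zero]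
      intro y _
      by_cases hy : w y = 0
      · rw [hy, zero_mul]
      · have h6 := h0 y hy z (by simp)
        have h7 := h0 y hy (z - δ * e) (by
          rw [sub_sub_cancel_left, norm_neg, norm_mul, he, Complex.norm_real,
            Real.norm_of_nonneg hδ.le]
          linarith)
        have h8 : z - pos δ a y - δ * e = z - δ * e - pos δ a y := by ring
        rw [h6, h8, h7]
        simp
  -- pointwise bound
  have hpt : ∀ z, (fderiv ℝ (moll δ a ρ w) z e) ^ 2 ≤
      (1 + δ) * ((1 + C2 * δ) * ∑ y ∈ S, d y ^ 2 * ρ (z - pos δ a y)) +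
        B.indicator (fun _ => (1 + 1 / δ) * (C1 * δ * W) ^ 2) z := by
    intro z
    have hm2 : m z ^ 2 ≤ (1 + C2 * δ) * ∑ y ∈ S, d y ^ 2 * ρ (z - pos δ a y) := by
      have cs := Finset.sum_mul_sq_le_sq_mul_sq S (fun y => Real.sqrt (ρ (z - pos δ a y)))
        (fun y => d y * Real.sqrt (ρ (z - pos δ a y)))
      have c1 : ∑ y ∈ S, Real.sqrt (ρ (z - pos δ a y)) * (d y * Real.sqrt (ρ (z - pos δ a y)))
          = ∑ y ∈ S, d y * ρ (z - pos δ a y) := by
        apply Finset.sum_congr rfl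
        intro y _
        have := Real.mul_self_sqrt (h.nonneg (z - pos δ a y))
        calc _ = d y * (Real.sqrt (ρ (z - pos δ a y)) * Real.sqrt (ρ (z - pos δ a y))) := by ring
          _ = _ := by rw [this]
      have c2 : ∑ y ∈ S, Real.sqrt (ρ (z - pos δ a y)) ^ 2 = ∑ y ∈ S, ρ (z - pos δ a y) :=
        Finset.sum_congr rfl (fun y _ => Real.sq_sqrt (h.nonneg _))
      have c3 : ∑ y ∈ S, (d y * Real.sqrt (ρ (z - pos δ a y))) ^ 2 =
          ∑ y ∈ S, d y ^ 2 * ρ (z - pos δ a y) :=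
        Finset.sum_congr rfl (fun y _ => by rw [mul_pow, Real.sq_sqrt (h.nonneg _)])
      rw [c1, c2, c3] at cs
      have c4 : δ ^ 2 * ∑ y ∈ S, ρ (z - pos δ a y) ≤ 1 + C2 * δ := by
        refine le_trans ?_ (hR δ hδ hδ1 a z)
        gcongr
        have fin : Fin0 (fun y => ρ (z - pos δ a y)) := by
          apply (finite_pos_le hδ a (‖z‖ + η)).subset
          intro y hy
          have := h.supp _ hy
          calc ‖pos δ a y‖ = ‖z - (z - pos δ a y)‖ := by rw [sub_sub_cancel]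
            _ ≤ ‖z‖ + ‖z - pos δ a y‖ := norm_sub_le _ _
            _ ≤ ‖z‖ + η := by linarith
        rw [finsum_eq_sum_of_support_subset (s := S ∪ Set.Finite.toFinset fin)
          (fun y => ρ (z - pos δ a y)) (fun y hy => by
            rw [Finset.mem_coe, Finset.mem_union]
            exact Or.inr ((Set.Finite.mem_toFinset fin).2 hy))]
        exact Finset.sum_le_sum_of_subset_of_nonneg Finset.subset_union_left
          (fun y _ _ => h.nonneg _)
      have c5 : 0 ≤ ∑ y ∈ S, d y ^ 2 * ρ (z - pos δ a y) :=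
        Finset.sum_nonneg (fun y _ => mul_nonneg (sq_nonneg _) (h.nonneg _))
      calc m z ^ 2 = δ ^ 2 * (∑ y ∈ S, d y * ρ (z - pos δ a y)) ^ 2 := by
            rw [hm]
            ring
        _ ≤ δ ^ 2 * ((∑ y ∈ S, ρ (z - pos δ a y)) * ∑ y ∈ S, d y ^ 2 * ρ (z - pos δ a y)) := by
            gcongr
        _ = (δ ^ 2 * ∑ y ∈ S, ρ (z - pos δ a y)) * ∑ y ∈ S, d y ^ 2 * ρ (z - pos δ a y) := by ring
        _ ≤ _ := mul_le_mul_of_nonneg_right c4 c5
    by_cases hz : z ∈ B
    · rw [Set.indicator_of_mem hz]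
      have h1 := herr z
      set F := fderiv ℝ (moll δ a ρ w) z e
      have h2 : (F - m z) ^ 2 ≤ (C1 * δ * W) ^ 2 := by
        rw [← sq_abs]
        exact pow_le_pow_left₀ (abs_nonneg _) h1 2
      have h3 : F ^ 2 ≤ (1 + δ) * m z ^ 2 + (1 + 1 / δ) * (F - m z) ^ 2 := by
        have h4 : (1 + δ) * m z ^ 2 + (1 + 1 / δ) * (F - m z) ^ 2 - F ^ 2
            = (1 / δ) * (δ * m z - (F - m z)) ^ 2 := by
          field_simp
          ring
        have h5 : 0 ≤ (1 / δ) * (δ * m z - (F - m z)) ^ 2 := by positivity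
        linarith
      refine h3.trans (add_le_add ?_ ?_)
      · gcongr
      · gcongr
    · rw [Set.indicator_of_notMem hz, (hfar z hz).1]
      have c5 : 0 ≤ ∑ y ∈ S, d y ^ 2 * ρ (z - pos δ a y) :=
        Finset.sum_nonneg (fun y _ => mul_nonneg (sq_nonneg _) (h.nonneg _))
      have c6 : 0 ≤ (1 + δ) * ((1 + C2 * δ) * ∑ y ∈ S, d y ^ 2 * ρ (z - pos δ a y)) :=
        mul_nonneg (by positivity) (mul_nonneg (by positivity) c5)
      simpa using c6
  -- integrate
  have intρ : ∀ y, Integrable (fun z => ρ (z - pos δ a y)) := fun y =>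
    (h.smooth.continuous.comp (continuous_id.sub continuous_const)).integrable_of_hasCompactSupport
      (h.cpt.comp_homeomorph (Homeomorph.subRight (pos δ a y)))
  have intρ1 : ∀ y, ∫ z, ρ (z - pos δ a y) = 1 := by
    intro y
    rw [integral_sub_right_eq_self (fun ζ => ρ ζ) (pos δ a y)]
    exact h.int
  have intsum : Integrable (fun z => ∑ y ∈ S, d y ^ 2 * ρ (z - pos δ a y)) :=
    integrable_finsetSum _ (fun y _ => (intρ y).const_mul _)
  have intsum1 : ∫ z, ∑ y ∈ S, d y ^ 2 * ρ (z - pos δ a y) = ∑ y ∈ S, d y ^ 2 := by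
    rw [integral_finsetSum _ (fun y _ => (intρ y).const_mul _)]
    apply Finset.sum_congr rfl
    intro y _
    rw [integral_const_mul, intρ1, mul_one]
  have intB : Integrable (B.indicator (fun _ : ℂ => (1 + 1 / δ) * (C1 * δ * W) ^ 2)) := by
    apply (integrable_indicator_iff measurableSet_closedBall).2
    apply integrableOn_const
    · exact (isCompact_closedBall _ _).measure_ne_top
    · exact enorm_ne_top
  calc ∫ z, (fderiv ℝ (moll δ a ρ w) z e) ^ 2
      ≤ ∫ z, ((1 + δ) * ((1 + C2 * δ) * ∑ y ∈ S, d y ^ 2 * ρ (z - pos δ a y)) +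
        B.indicator (fun _ => (1 + 1 / δ) * (C1 * δ * W) ^ 2) z) := by
        apply integral_mono_of_nonneg
        · filter_upwards with z
          exact sq_nonneg _
        · exact ((intsum.const_mul _).const_mul _).add intB
        · filter_upwards with z
          exact hpt z
    _ = (1 + δ) * ((1 + C2 * δ) * ∑ y ∈ S, d y ^ 2) + V * ((1 + 1 / δ) * (C1 * δ * W) ^ 2) := by
        rw [integral_add ((intsum.const_mul _).const_mul _) intB, integral_const_mul,
          integral_const_mul, intsum1, integral_indicator_const _ measurableSet_closedBall,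
          Measure.real, smul_eq_mul, ← hV]
    _ ≤ _ := by
        rw [hE]
        have s0 : 0 ≤ ∑ y ∈ S, d y ^ 2 := Finset.sum_nonneg (fun y _ => sq_nonneg _)
        have e1 : (1 + 1 / δ) * (C1 * δ * W) ^ 2 = (δ ^ 2 + δ) * (C1 * W) ^ 2 := by
          field_simp
        rw [e1]
        have e2 : (δ ^ 2 + δ) ≤ 2 * δ := by nlinarith
        have e3 : V * ((δ ^ 2 + δ) * (C1 * W) ^ 2) ≤ (2 * C1 ^ 2 * V) * δ * W ^ 2 := by
          calc V * ((δ ^ 2 + δ) * (C1 * W) ^ 2) ≤ V * (2 * δ * (C1 * W) ^ 2) := by gcongr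
            _ = _ := by ring
        have e4 : (1 + δ) * (1 + C2 * δ) ≤ 1 + (1 + 2 * C2) * δ := by
          have : C2 * δ * δ ≤ C2 * δ * 1 := by gcongr
          nlinarith
        have e5 : (1 + δ) * ((1 + C2 * δ) * ∑ y ∈ S, d y ^ 2) ≤
            (1 + (1 + 2 * C2) * δ) * ∑ y ∈ S, d y ^ 2 := by
          rw [← mul_assoc]
          exact mul_le_mul_of_nonneg_right e4 s0
        have e6 : 0 ≤ 2 * C1 ^ 2 * V * δ * ∑ y ∈ S, d y ^ 2 := by positivity
        have e7 : 0 ≤ (1 + 2 * C2) * δ * W ^ 2 := by positivity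
        nlinarith

end Vale.Agent.P155.K
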