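import Vale.Agent.P155.K.GFF
import Vale.Agent.P155.K.MeasG
import Vale.Agent.P155.K.LogCut2

/-!
# P155 block K: the carpets have area zero
-/

namespace Vale.Agent.P155.K

open Vale.Agent.P155 MeasureTheory Filter Topology TopologicalSpace

section
variable {Ω : Set ℂ} (S : TempApprox Ω)

/-- If the carpet contains `z0`, the Green energy of the charge is small. -/
theorem hit_energy (hΩ : IsOpen Ω) (hb : Bornology.IsBounded Ω) (k : ℕ) {z0 : ℂ} {r ρ A : ℝ}
    {φ : ℂ → ℝ} (hr : 0 < r) (hrρ : r < ρ) (hA : 0 ≤ A) (hφ : K.IsTest Ω φ)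
    (hsupp : ∀ z, φ z ≠ 0 → r ≤ ‖z - z0‖ ∧ ‖z - z0‖ ≤ ρ)
    (hbd : ∀ z, |φ z| ≤ A * (‖z - z0‖ ^ 2)⁻¹)
    {N : ℕ → ℕ} (hN : Tendsto N atTop atTop) {ω : ℕ → Conf}
    (hω : ∀ j, ω j ∈ DD (S.T (N j)).V) {C : NonemptyCompacts ℂ}
    (hC : Tendsto (fun j => toNC (gasket (S.δ (N j)) (S.a (N j)) (S.T (N j)) k (ω j))) atTop (𝓝 C))
    (hz0 : z0 ∈ (C : Set ℂ)) :
    greenEnergy (Ω \ (C : Set ℂ)) φ ≤ 1152 * (2 * A) ^ 2 * (1 + Real.log (16 * ρ / (3 * r))) := by
  have hρ : 0 < ρ := hr.trans hrρ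
  have hlim := pe_tendsto hΩ hb k hφ hN hω hC
  apply le_of_tendsto hlim
  have hdist : ∀ ε > 0, ∀ᶠ j in atTop, Metric.hausdorffDist
      (gasket (S.δ (N j)) (S.a (N j)) (S.T (N j)) k (ω j)) (C : Set ℂ) < ε := by
    intro ε hε
    filter_upwards [(Metric.tendsto_nhds.1 hC) ε hε] with j hj
    rw [Metric.NonemptyCompacts.dist_eq, KConn.coe_toNC_gasket (S.pos _) _ _ _ (hω j)] at hj
    exact hj
  have hfin : ∀ j, Metric.hausdorffEDist
      (gasket (S.δ (N j)) (S.a (N j)) (S.T (N j)) k (ω j)) (C : Set ℂ) ≠ ⊤ := by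
    intro j
    apply Metric.hausdorffEDist_ne_top_of_nonempty_of_bounded
    · exact KConn.gasket_nonempty (S.pos _) _ _ _ (hω j)
    · exact C.nonempty
    · exact (KConn.gasket_compact (S.pos _) _ _ _ _).isBounded
    · exact C.isCompact.isBounded
  have h1 : ∀ᶠ j in atTop, S.δ (N j) < r / 32 :=
    (tendsto_order.1 (S.mesh.comp hN)).2 _ (by positivity)
  filter_upwards [hdist (r / 8) (by positivity), h1] with j hj hδr
  have hδ := S.pos (N j)
  obtain ⟨z', hz', hzd⟩ := Metric.exists_dist_lt_of_hausdorffDist_lt' hz0 hj (hfin j)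
  have h2 : z' ∉ interior (region (S.δ (N j)) (S.a (N j)) (Ok (S.T (N j)) k (ω j))) := hz'.2
  rw [KConn.mem_interior_region_iff (S.pos _)] at h2
  push Not at h2
  obtain ⟨p, hp, hpO⟩ := h2
  have h3 := norm_sub_pos_of_mem (S.pos _) hp
  rw [dist_comm, dist_eq_norm] at hzd
  set δ := S.δ (N j) with hδdef
  set a := S.a (N j) with ha
  have hpz : ‖z0 - pos δ a p‖ ≤ r / 4 := by
    calc ‖z0 - pos δ a p‖ = ‖(z0 - z') + (z' - pos δ a p)‖ := by
          congr 1
          ring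
      _ ≤ ‖z0 - z'‖ + ‖z' - pos δ a p‖ := norm_add_le _ _
      _ ≤ r / 4 := by linarith
  -- distances
  have hge : ∀ y, φ (pos δ a y) ≠ 0 → 3 * r / 4 ≤ ‖pos δ a y - pos δ a p‖ ∧
      ‖pos δ a y - pos δ a p‖ ≤ 5 / 4 * ‖pos δ a y - z0‖ ∧ ‖pos δ a y - pos δ a p‖ ≤ 2 * ρ := by
    intro y hy
    obtain ⟨h4, h5⟩ := hsupp _ hy
    have h6 : ‖pos δ a y - z0‖ ≤ ‖pos δ a y - pos δ a p‖ + ‖z0 - pos δ a p‖ := by
      have : pos δ a y - z0 = (pos δ a y - pos δ a p) - (z0 - pos δ a p) := by ring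
      rw [this]
      exact norm_sub_le _ _
    have h7 : ‖pos δ a y - pos δ a p‖ ≤ ‖pos δ a y - z0‖ + ‖z0 - pos δ a p‖ := by
      have : pos δ a y - pos δ a p = (pos δ a y - z0) + (z0 - pos δ a p) := by ring
      rw [this]
      exact norm_add_le _ _
    refine ⟨by linarith, by linarith, by linarith⟩
  set aa := ⌈3 * r / (8 * δ)⌉₊ with haa
  set bb := ⌊2 * ρ / δ⌋₊ with hbb
  have haa1 : 1 ≤ aa := by
    rw [haa, Nat.one_le_ceil_iff]
    positivity
  have hdd : ∀ y, φ (pos δ a y) ≠ 0 → (aa : ℤ) ≤ dinf p y ∧ dinf p y ≤ bb := by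
    intro y hy
    obtain ⟨h4, h5, h6⟩ := hge y hy
    have h7 := le_norm_pos hδ a p y
    have h8 := norm_pos_le hδ a p y
    have h0 := dinf_nonneg p y
    obtain ⟨m, hm⟩ := Int.eq_ofNat_of_zero_le h0
    rw [hm] at h7 h8 ⊢
    simp only [Int.cast_natCast] at h7 h8
    constructor
    · have : aa ≤ m := by
        rw [haa, Nat.ceil_le, div_le_iff₀ (by positivity)]
        nlinarith
      exact_mod_cast this
    · have : m ≤ bb := by
        rw [hbb, Nat.le_floor_iff (by positivity), le_div_iff₀ hδ]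
        nlinarith
      exact_mod_cast this
  have hsum : ∑ s ∈ Finset.Icc aa bb, ((s : ℝ))⁻¹ ≤ 1 + Real.log (16 * ρ / (3 * r)) := by
    rcases le_or_gt aa bb with hab | hab
    · refine (harm_upper haa1 hab).trans ?_
      have haa0 : (0 : ℝ) < aa := by positivity
      have hbb0 : (0 : ℝ) < bb := lt_of_lt_of_le haa0 (by exact_mod_cast hab)
      have h4 : (bb : ℝ) ≤ 2 * ρ / δ := Nat.floor_le (by positivity)
      have h5 : 3 * r / (8 * δ) ≤ aa := Nat.le_ceil _
      have h6 : (bb : ℝ) / aa ≤ 16 * ρ / (3 * r) := by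
        rw [div_le_div_iff₀ haa0 (by positivity)]
        rw [div_le_iff₀ (by positivity)] at h5
        rw [le_div_iff₀ hδ] at h4
        have h7 : (bb : ℝ) * (3 * r) ≤ bb * (aa * (8 * δ)) :=
          mul_le_mul_of_nonneg_left h5 hbb0.le
        have h8 : (bb : ℝ) * δ * (8 * aa) ≤ 2 * ρ * (8 * aa) :=
          mul_le_mul_of_nonneg_right h4 (by positivity)
        nlinarith
      have := Real.log_le_log (by positivity) h6
      linarith
    · rw [Finset.Icc_eq_empty (by omega), Finset.sum_empty]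
      have : 0 ≤ Real.log (16 * ρ / (3 * r)) := by
        apply Real.log_nonneg
        rw [le_div_iff₀ (by positivity)]
        nlinarith
      linarith
  have hgl := green_log (KConn.Ok_finite (S.T (N j)) k (ω j)) (propP_Ok _ _ (hω j))
    (uG_spec S φ k (N j) (ω j)) (A := 2 * A) (by positivity) haa1 hpO (b := bb) (by
      intro y
      rcases eq_or_ne (φ (pos δ a y)) 0 with h0 | h0
      · unfold phin
        rw [h0, mul_zero, abs_zero]
        positivity
      · obtain ⟨h4, h5, h6⟩ := hge y h0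
        have h7 := le_norm_pos hδ a p y
        have hd1 : (1 : ℝ) ≤ dinf p y := by
          have := (hdd y h0).1
          have h8 : (1 : ℤ) ≤ dinf p y := le_trans (by exact_mod_cast haa1) this
          exact_mod_cast h8
        have hn0 : 0 < ‖pos δ a y - z0‖ := hr.trans_le (hsupp _ h0).1
        unfold phin
        rw [abs_mul, abs_of_nonneg (by positivity), le_div_iff₀ (by positivity)]
        have h9 := hbd (pos δ a y)
        have h10 : (δ * (dinf p y : ℝ)) ^ 2 ≤ 2 * ‖pos δ a y - z0‖ ^ 2 := by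
          have h11 : δ * (dinf p y : ℝ) ≤ 5 / 4 * ‖pos δ a y - z0‖ := h7.trans h5
          have h12 : 0 ≤ δ * (dinf p y : ℝ) := by positivity
          nlinarith
        calc δ ^ 2 * |φ (pos δ a y)| * (dinf p y : ℝ) ^ 2
            = (δ * (dinf p y : ℝ)) ^ 2 * |φ (pos δ a y)| := by ring
          _ ≤ (2 * ‖pos δ a y - z0‖ ^ 2) * (A * (‖pos δ a y - z0‖ ^ 2)⁻¹) :=
              mul_le_mul h10 h9 (abs_nonneg _) (by positivity)
          _ = 2 * A := by
              field_simp) (by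
      intro y hy
      apply hdd y
      intro h0
      apply hy
      unfold phin
      rw [h0, mul_zero])
  refine hgl.trans ?_
  exact mul_le_mul_of_nonneg_left hsum (by positivity)

end

end Vale.Agent.P155.K
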