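import Vale.Agent.P155.K.Null

/-!
# P155 block K: the carpets have area zero (probabilistic part)
-/

namespace Vale.Agent.P155.K

open Vale.Agent.P155 MeasureTheory Filter Topology TopologicalSpace

section
variable {Ω : Set ℂ} {S : TempApprox Ω} {n : ℕ → ℕ} {Θ : Type} [MeasurableSpace Θ]
  {P : Measure Θ} [IsProbabilityMeasure P] {G : ℕ → Θ → NonemptyCompacts ℂ}
  {H : ℕ → Θ → (ℂ → ℝ) → ℝ}

omit [IsProbabilityMeasure P] in
theorem LimData.measurable_infDist (L : LimData S n P G H) (k : ℕ) (z : ℂ) :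
    Measurable (fun x => Metric.infDist z (G k x : Set ℂ)) := by
  let _ : MeasurableSpace (NonemptyCompacts ℂ) := borel _
  have : BorelSpace (NonemptyCompacts ℂ) := ⟨rfl⟩
  have h1 : Continuous (fun C : NonemptyCompacts ℂ => Metric.infDist z (C : Set ℂ)) :=
    (Metric.lipschitz_infDist_set z).continuous
  exact h1.measurable.comp (L.mG k)

/-- The one-charge estimate. -/
theorem LimData.charge (hΩ : IsOpen Ω) (hb : Bornology.IsBounded Ω) (hJ : J.J_star)
    (L : LimData S n P G H)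
    (hrep : ∀ᵐ x ∂P, ∀ k : ℕ, ∃ g : ℂ → ℝ, Measurable g ∧ (∀ z, |g z| ≤ k) ∧
      ∀ φ, Vale.Agent.P155.IsTest Ω φ → H k x φ = ∫ z, g z * φ z)
    (k : ℕ) {z0 : ℂ} {ρ : ℝ} (hρ : 0 < ρ) (hball : Metric.closedBall z0 ρ ⊆ Ω)
    {ε : ℝ} (hε : 0 < ε) (hε2 : ((2 * k + 1) * ε) ^ 2 ≤ 1) :
    (1 - ((2 * k + 1) * ε) ^ 2) *
      (Real.exp (-1) * (∫ x, min 1 (max 0 (Metric.infDist z0 (G k x : Set ℂ) - ρ)) ∂P) +
        (Real.exp (-(ε / 2)) - Real.exp (-1)) *
          ∫ x, min 1 (max 0 (Metric.infDist z0 (G k x : Set ℂ) - ρ)) *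
            Set.indicator {x | Metric.infDist z0 (G (k + 1) x : Set ℂ) = 0} (fun _ => (1 : ℝ)) x ∂P) ≤
      Real.exp (-1) * ∫ x, min 1 (max 0 (Metric.infDist z0 (G k x : Set ℂ) - ρ)) ∂P := by
  obtain ⟨r, A, φ, hr, hrρ, hA, hsm, hcp, hts, hsupp, hbd, hmass, hen, hGr2, hGr2'⟩ :=
    exists_logcut z0 hρ hε
  have hφ : Vale.Agent.P155.IsTest Ω φ := ⟨hsm, hcp, hts.trans hball⟩
  have hφ' := isTest_iff.1 hφ
  let _ : MeasurableSpace (NonemptyCompacts ℂ) := borel _
  have : BorelSpace (NonemptyCompacts ℂ) := ⟨rfl⟩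
  set f : Θ → ℝ := fun x => min 1 (max 0 (Metric.infDist z0 (G k x : Set ℂ) - ρ)) with hf
  set E0 : Set Θ := {x | Metric.infDist z0 (G (k + 1) x : Set ℂ) = 0} with hE0
  set θ : ℝ := Real.sqrt (Real.pi / 2) with hθ
  have hθ2 : θ ^ 2 = Real.pi / 2 := Real.sq_sqrt (by positivity)
  have hf0 : ∀ x, 0 ≤ f x := fun x => le_min zero_le_one (le_max_left _ _)
  have hf1 : ∀ x, f x ≤ 1 := fun x => min_le_left _ _
  have mf : Measurable f := by
    rw [hf]
    exact measurable_const.min (measurable_const.max ((L.measurable_infDist k z0).sub_const ρ))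
  have mE : MeasurableSet E0 := by
    rw [hE0]
    exact (L.measurable_infDist (k + 1) z0) (measurableSet_singleton 0)
  set X : Θ → ℝ := fun x => H (k + 1) x φ - H k x φ with hX
  have mX : Measurable X := (L.mH (k + 1) φ hφ).sub (L.mH k φ hφ)
  set g1 : Θ → ℝ := fun x => greenEnergy (Ω \ (G (k + 1) x : Set ℂ)) φ with hg1
  have mg1 : Measurable g1 := measurable_greenEnergy S hb hφ (L.mG (k + 1))
  have hge : ∀ C : Set ℂ, 0 ≤ greenEnergy (Ω \ C) φ ∧ greenEnergy (Ω \ C) φ ≤ 2 := by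
    intro C
    rw [greenEnergy_toReal S hb hφ'.smooth.continuous hφ'.cpt C]
    refine ⟨ENNReal.toReal_nonneg, ?_⟩
    have := ENNReal.toReal_mono (by simp) (hGr2 (Ω \ C))
    simpa using this
  -- the identity
  have hF : Continuous (fun y : (Fin (k + 1) → NonemptyCompacts ℂ) × (Fin (k + 1) → Fin 0 → ℝ) =>
      min 1 (max 0 (Metric.infDist z0 (y.1 (Fin.last k) : Set ℂ) - ρ))) := by
    have h1 : Continuous (fun C : NonemptyCompacts ℂ => Metric.infDist z0 (C : Set ℂ)) :=
      (Metric.lipschitz_infDist_set z0).continuous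
    have h2 : Continuous (fun y : (Fin (k + 1) → NonemptyCompacts ℂ) × (Fin (k + 1) → Fin 0 → ℝ) =>
      Metric.infDist z0 (y.1 (Fin.last k) : Set ℂ)) :=
      h1.comp ((continuous_apply (Fin.last k)).comp continuous_fst)
    exact continuous_const.min (continuous_const.max (h2.sub continuous_const))
  have hid := L.gff hΩ hb hJ k 0 Fin.elim0 φ (fun i => i.elim0) hφ _ hF
    ⟨1, fun y => by
      rw [abs_of_nonneg (le_min zero_le_one (le_max_left _ _))]
      exact min_le_left _ _⟩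
  simp only [Fin.val_last] at hid
  -- right side
  have hR : (∫ x, ((min 1 (max 0 (Metric.infDist z0 (G k x : Set ℂ) - ρ)) : ℝ) : ℂ) *
        Complex.exp (- greenEnergy (Ω \ G k x) φ / 2) ∂P) =
      ((Real.exp (-1) * ∫ x, f x ∂P : ℝ) : ℂ) := by
    rw [← integral_const_mul, ← integral_complex_ofReal]
    congr 1
    funext x
    rcases eq_or_ne (f x) 0 with h0 | h0
    · have h0' : min 1 (max 0 (Metric.infDist z0 (G k x : Set ℂ) - ρ)) = 0 := h0
      rw [h0', h0]
      simp
    · have h1 : ρ < Metric.infDist z0 (G k x : Set ℂ) := by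
        by_contra h1
        apply h0
        rw [hf]
        simp only
        rw [max_eq_left (by linarith), min_eq_right zero_le_one]
      have h2 : greenEnergy (Ω \ (G k x : Set ℂ)) φ = 2 := by
        rw [greenEnergy_toReal S hb hφ'.smooth.continuous hφ'.cpt, hGr2']
        · simp
        · intro z hz
          refine ⟨hball hz, fun hzG => ?_⟩
          have := Metric.infDist_le_dist_of_mem hzG (x := z0)
          rw [Metric.mem_closedBall, dist_comm] at hz
          linarith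
      rw [h2]
      have h3 : (-((2 : ℝ) : ℂ) / 2) = ((-1 : ℝ) : ℂ) := by
        push_cast
        ring
      rw [h3, ← Complex.ofReal_exp, ← Complex.ofReal_mul, mul_comm]
  rw [hR] at hid
  have mint : Integrable (fun x => ((f x : ℝ) : ℂ) *
        Complex.exp (Complex.I * θ * (H (k + 1) x φ - H k x φ) -
          greenEnergy (Ω \ G (k + 1) x) φ / 2)) P := by
    have hm : Measurable (fun x => ((f x : ℝ) : ℂ) *
        Complex.exp (Complex.I * θ * (H (k + 1) x φ - H k x φ) -
          greenEnergy (Ω \ G (k + 1) x) φ / 2)) := by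
      refine (Complex.measurable_ofReal.comp mf).mul (Complex.measurable_exp.comp ?_)
      have e1 : Measurable (fun x => ((X x : ℝ) : ℂ)) := Complex.measurable_ofReal.comp mX
      have e2 : Measurable (fun x => ((g1 x : ℝ) : ℂ)) := Complex.measurable_ofReal.comp mg1
      have e3 : (fun x => (Complex.I * θ * (H (k + 1) x φ - H k x φ) -
          greenEnergy (Ω \ G (k + 1) x) φ / 2)) =
          fun x => Complex.I * θ * ((X x : ℝ) : ℂ) - ((g1 x : ℝ) : ℂ) / 2 := by
        funext x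
        rw [hX, hg1]
        push_cast
        rfl
      rw [e3]
      exact (e1.const_mul _).sub (e2.div_const 2)
    refine Integrable.of_bound hm.aestronglyMeasurable 1 (Eventually.of_forall fun x => ?_)
    rw [norm_mul, Complex.norm_real, Real.norm_of_nonneg (hf0 x), Complex.norm_exp]
    have h1 : (Complex.I * (θ : ℂ) * (H (k + 1) x φ - H k x φ) -
          greenEnergy (Ω \ G (k + 1) x) φ / 2).re = -(g1 x / 2) := by
      simp [hg1]
    rw [h1]
    have h2 : Real.exp (-(g1 x / 2)) ≤ 1 := by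
      rw [Real.exp_le_one_iff]
      have := (hge (G (k + 1) x : Set ℂ)).1
      have h3 : g1 x = greenEnergy (Ω \ (G (k + 1) x : Set ℂ)) φ := rfl
      linarith
    have := hf0 x
    have := hf1 x
    have := (Real.exp_pos (-(g1 x / 2))).le
    nlinarith
  have hre := integral_re mint
  have hid' : ∫ x, ((f x : ℝ) : ℂ) *
        Complex.exp (Complex.I * θ * (H (k + 1) x φ - H k x φ) -
          greenEnergy (Ω \ G (k + 1) x) φ / 2) ∂P = ((Real.exp (-1) * ∫ x, f x ∂P : ℝ) : ℂ) := hid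
  rw [hid'] at hre
  have hre2 : (RCLike.re ((Real.exp (-1) * ∫ x, f x ∂P : ℝ) : ℂ) : ℝ) =
      Real.exp (-1) * ∫ x, f x ∂P := by
    exact Complex.ofReal_re _
  rw [hre2] at hre
  -- pointwise inequality
  have iF : Integrable f P := Integrable.of_bound mf.aestronglyMeasurable 1
    (Eventually.of_forall fun x => by
      rw [Real.norm_of_nonneg (hf0 x)]
      exact hf1 x)
  have iFE : Integrable (fun x => f x * E0.indicator (fun _ => (1 : ℝ)) x) P := by
    refine Integrable.of_bound (mf.mul (measurable_const.indicator mE)).aestronglyMeasurable 1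
      (Eventually.of_forall fun x => ?_)
    have h1 := hf0 x
    have h2 := hf1 x
    have h3 : E0.indicator (fun _ => (1 : ℝ)) x = 0 ∨ E0.indicator (fun _ => (1 : ℝ)) x = 1 := by
      by_cases hx : x ∈ E0
      · right
        exact Set.indicator_of_mem hx _
      · left
        exact Set.indicator_of_notMem hx _
    rcases h3 with h3 | h3 <;> rw [h3]
    · simp
    · rw [mul_one, Real.norm_of_nonneg h1]
      exact h2
  refine le_trans ?_ hre.le
  have esum : (1 - ((2 * k + 1) * ε) ^ 2) * (Real.exp (-1) * (∫ x, f x ∂P) +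
        (Real.exp (-(ε / 2)) - Real.exp (-1)) *
          ∫ x, f x * E0.indicator (fun _ => (1 : ℝ)) x ∂P) =
      ∫ x, (1 - ((2 * k + 1) * ε) ^ 2) * (Real.exp (-1) * f x +
        (Real.exp (-(ε / 2)) - Real.exp (-1)) * (f x * E0.indicator (fun _ => (1 : ℝ)) x)) ∂P := by
    rw [integral_const_mul, integral_add (iF.const_mul _) (iFE.const_mul _), integral_const_mul,
      integral_const_mul]
  refine esum.le.trans ?_
  apply integral_mono_ae (((iF.const_mul _).add (iFE.const_mul _)).const_mul _) mint.re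
  obtain ⟨-, -, hlimpt⟩ := L.ecm (k + 2) (χ := (Fin.elim0 : Fin 0 → ℂ → ℝ)) (fun i => i.elim0)
    (Φn := fun _ _ => (0 : ℂ)) (Φ := fun _ => (0 : ℂ)) (M := 0) (by simp)
    (Eventually.of_forall fun x j ω _ _ _ => tendsto_const_nhds)
  filter_upwards [hrep, hlimpt] with x hx hxl
  have hXb : |X x| ≤ (2 * k + 1) * ε := by
    obtain ⟨ga, -, ha1, ha2⟩ := hx k
    obtain ⟨gb, -, hb1, hb2⟩ := hx (k + 1)
    have hint : Integrable (fun z => |φ z|) :=
      (hφ'.smooth.continuous.integrable_of_hasCompactSupport hφ'.cpt).abs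
    have e1 : |H k x φ| ≤ k * ε := by
      rw [ha2 φ hφ]
      have h1 : |∫ z, ga z * φ z| ≤ ∫ z, (k : ℝ) * |φ z| := by
        rw [← Real.norm_eq_abs]
        refine norm_integral_le_of_norm_le (hint.const_mul _) (Eventually.of_forall fun z => ?_)
        rw [norm_mul, Real.norm_eq_abs, Real.norm_eq_abs]
        exact mul_le_mul_of_nonneg_right (ha1 z) (abs_nonneg _)
      refine h1.trans ?_
      rw [integral_const_mul]
      exact mul_le_mul_of_nonneg_left hmass (Nat.cast_nonneg _)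
    have e2 : |H (k + 1) x φ| ≤ (k + 1 : ℕ) * ε := by
      rw [hb2 φ hφ]
      have h1 : |∫ z, gb z * φ z| ≤ ∫ z, ((k + 1 : ℕ) : ℝ) * |φ z| := by
        rw [← Real.norm_eq_abs]
        refine norm_integral_le_of_norm_le (hint.const_mul _) (Eventually.of_forall fun z => ?_)
        rw [norm_mul, Real.norm_eq_abs, Real.norm_eq_abs]
        exact mul_le_mul_of_nonneg_right (hb1 z) (abs_nonneg _)
      refine h1.trans ?_
      rw [integral_const_mul]
      exact mul_le_mul_of_nonneg_left hmass (Nat.cast_nonneg _)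
    have e3 : |X x| ≤ |H (k + 1) x φ| + |H k x φ| := abs_sub _ _
    push_cast at e2
    linarith
  -- real part
  have hrex : (RCLike.re (((f x : ℝ) : ℂ) *
        Complex.exp (Complex.I * θ * (H (k + 1) x φ - H k x φ) -
          greenEnergy (Ω \ G (k + 1) x) φ / 2)) : ℝ) =
      f x * (Real.exp (-(g1 x / 2)) * Real.cos (θ * X x)) := by
    have e1 : (Complex.I * θ * (H (k + 1) x φ - H k x φ) -
          greenEnergy (Ω \ G (k + 1) x) φ / 2 : ℂ) =
        ((-(g1 x / 2) : ℝ) : ℂ) + ((θ * X x : ℝ) : ℂ) * Complex.I := by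
      rw [hg1, hX]
      push_cast
      ring
    rw [e1]
    show (((f x : ℝ) : ℂ) * Complex.exp (((-(g1 x / 2) : ℝ) : ℂ) + ((θ * X x : ℝ) : ℂ) * Complex.I)).re = _
    rw [Complex.re_ofReal_mul, Complex.exp_re]
    simp
  rw [hrex]
  have hcos : 1 - ((2 * k + 1) * ε) ^ 2 ≤ Real.cos (θ * X x) := by
    refine le_trans ?_ Real.one_sub_sq_div_two_le_cos
    have h1 : (θ * X x) ^ 2 ≤ 2 * ((2 * k + 1) * ε) ^ 2 := by
      rw [mul_pow, hθ2]
      have h2 : X x ^ 2 ≤ ((2 * k + 1) * ε) ^ 2 := by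
        rw [← sq_abs (X x)]
        exact pow_le_pow_left₀ (abs_nonneg _) hXb 2
      have h3 : Real.pi / 2 ≤ 2 := by linarith [Real.pi_le_four]
      exact mul_le_mul h3 h2 (sq_nonneg _) (by norm_num)
    linarith
  have hcos0 : 0 ≤ 1 - ((2 * k + 1) * ε) ^ 2 := by linarith
  have hexp : Real.exp (-1) + (Real.exp (-(ε / 2)) - Real.exp (-1)) *
      E0.indicator (fun _ => (1 : ℝ)) x ≤ Real.exp (-(g1 x / 2)) := by
    by_cases hx0 : x ∈ E0
    · rw [Set.indicator_of_mem hx0, mul_one]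
      have hmem : z0 ∈ (G (k + 1) x : Set ℂ) :=
        ((G (k + 1) x).isCompact.isClosed.mem_iff_infDist_zero (G (k + 1) x).nonempty).2 hx0
      obtain ⟨jj, ωω, hjj, hωω, hY⟩ := hxl
      have hGk : Tendsto (fun i => toNC (gasket (S.δ (n (jj i))) (S.a (n (jj i)))
          (S.T (n (jj i))) (k + 1) (ωω i))) atTop (𝓝 (G (k + 1) x)) :=
        ((continuous_apply (Fin.last (k + 1))).comp continuous_fst).tendsto _ |>.comp hY
      have h1 := hit_energy S hΩ hb (k + 1) hr hrρ hA hφ' hsupp hbd (L.tends.comp hjj) hωω hGk hmem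
      have h2 : g1 x ≤ ε := h1.trans hen
      have h3 : Real.exp (-(ε / 2)) ≤ Real.exp (-(g1 x / 2)) := Real.exp_le_exp.2 (by linarith)
      linarith
    · rw [Set.indicator_of_notMem hx0, mul_zero, add_zero]
      apply Real.exp_le_exp.2
      have h1 := (hge (G (k + 1) x : Set ℂ)).2
      have h3 : g1 x = greenEnergy (Ω \ (G (k + 1) x : Set ℂ)) φ := rfl
      linarith
  have hexp0 : 0 ≤ Real.exp (-1) + (Real.exp (-(ε / 2)) - Real.exp (-1)) *
      E0.indicator (fun _ => (1 : ℝ)) x := by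
    by_cases hx0 : x ∈ E0
    · rw [Set.indicator_of_mem hx0, mul_one]
      have := Real.exp_pos (-(ε / 2))
      linarith
    · rw [Set.indicator_of_notMem hx0, mul_zero, add_zero]
      exact (Real.exp_pos _).le
  have h1 : (Real.exp (-1) + (Real.exp (-(ε / 2)) - Real.exp (-1)) *
      E0.indicator (fun _ => (1 : ℝ)) x) * (1 - ((2 * k + 1) * ε) ^ 2) ≤
      Real.exp (-(g1 x / 2)) * Real.cos (θ * X x) :=
    mul_le_mul hexp hcos hcos0 (Real.exp_pos _).le
  have h2 := mul_le_mul_of_nonneg_left h1 (hf0 x)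
  refine le_trans (le_of_eq ?_) h2
  simp only [Pi.add_apply]
  ring

/-- A fixed point of the domain does not get hit for the first time at level `k + 1`. -/
theorem LimData.null_point (hΩ : IsOpen Ω) (hb : Bornology.IsBounded Ω) (hJ : J.J_star)
    (L : LimData S n P G H)
    (hrep : ∀ᵐ x ∂P, ∀ k : ℕ, ∃ g : ℂ → ℝ, Measurable g ∧ (∀ z, |g z| ≤ k) ∧
      ∀ φ, Vale.Agent.P155.IsTest Ω φ → H k x φ = ∫ z, g z * φ z)
    (k : ℕ) {z0 : ℂ} {ρ : ℝ} (hρ : 0 < ρ) (hball : Metric.closedBall z0 ρ ⊆ Ω) :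
    ∀ᵐ x ∂P, Metric.infDist z0 (G (k + 1) x : Set ℂ) = 0 →
      Metric.infDist z0 (G k x : Set ℂ) ≤ ρ := by
  set f : Θ → ℝ := fun x => min 1 (max 0 (Metric.infDist z0 (G k x : Set ℂ) - ρ)) with hf
  set E0 : Set Θ := {x | Metric.infDist z0 (G (k + 1) x : Set ℂ) = 0} with hE0
  have hf0 : ∀ x, 0 ≤ f x := fun x => le_min zero_le_one (le_max_left _ _)
  have hf1 : ∀ x, f x ≤ 1 := fun x => min_le_left _ _
  have mf : Measurable f := by
    rw [hf]
    exact measurable_const.min (measurable_const.max ((L.measurable_infDist k z0).sub_const ρ))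
  have mE : MeasurableSet E0 := by
    rw [hE0]
    exact (L.measurable_infDist (k + 1) z0) (measurableSet_singleton 0)
  have hind : ∀ x, E0.indicator (fun _ => (1 : ℝ)) x = 0 ∨ E0.indicator (fun _ => (1 : ℝ)) x = 1 := by
    intro x
    by_cases hx : x ∈ E0
    · right
      exact Set.indicator_of_mem hx _
    · left
      exact Set.indicator_of_notMem hx _
  have iFE : Integrable (fun x => f x * E0.indicator (fun _ => (1 : ℝ)) x) P := by
    refine Integrable.of_bound (mf.mul (measurable_const.indicator mE)).aestronglyMeasurable 1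
      (Eventually.of_forall fun x => ?_)
    rcases hind x with h3 | h3 <;> rw [h3]
    · simp
    · rw [mul_one, Real.norm_of_nonneg (hf0 x)]
      exact hf1 x
  set J := ∫ x, f x ∂P with hJJ
  set I := ∫ x, f x * E0.indicator (fun _ => (1 : ℝ)) x ∂P with hII
  have hnn : 0 ≤ (fun x => f x * E0.indicator (fun _ => (1 : ℝ)) x) := by
    intro x
    simp only [Pi.zero_apply]
    rcases hind x with h3 | h3 <;> rw [h3]
    · simp
    · rw [mul_one]
      exact hf0 x
  have hI0 : 0 ≤ I := integral_nonneg hnn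
  -- the limit of the estimate
  have hc : Continuous (fun ε : ℝ => (1 - ((2 * k + 1) * ε) ^ 2) *
      (Real.exp (-1) * J + (Real.exp (-(ε / 2)) - Real.exp (-1)) * I)) := by
    fun_prop
  have ht := (hc.tendsto 0).mono_left (nhdsWithin_le_nhds (s := Set.Ioi 0))
  have h1 : (1 - ((2 * k + 1) * (0 : ℝ)) ^ 2) *
      (Real.exp (-1) * J + (Real.exp (-(0 / 2)) - Real.exp (-1)) * I) ≤ Real.exp (-1) * J := by
    apply le_of_tendsto ht
    have h2 : ∀ᶠ ε : ℝ in 𝓝[>] 0, ((2 * k + 1) * ε) ^ 2 ≤ 1 := by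
      have h3 : Continuous (fun ε : ℝ => ((2 * k + 1) * ε) ^ 2) := by fun_prop
      have h4 := (h3.tendsto 0).mono_left (nhdsWithin_le_nhds (s := Set.Ioi 0))
      have h5 : ((2 * (k : ℝ) + 1) * (0 : ℝ)) ^ 2 < 1 := by norm_num
      filter_upwards [(tendsto_order.1 h4).2 1 h5] with ε hε
      exact hε.le
    filter_upwards [h2, self_mem_nhdsWithin] with ε h3 h4
    exact L.charge hΩ hb hJ hrep k hρ hball h4 h3
  have he : Real.exp (-1) < 1 := by
    rw [Real.exp_lt_one_iff]
    norm_num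
  have hI : I = 0 := by
    norm_num at h1
    nlinarith
  have h2 := (integral_eq_zero_iff_of_nonneg hnn iFE).1 hI
  filter_upwards [h2] with x hx hx0
  have hxE : x ∈ E0 := hx0
  have h3 : E0.indicator (fun _ => (1 : ℝ)) x = 1 := Set.indicator_of_mem hxE _
  simp only [Pi.zero_apply] at hx
  rw [h3, mul_one] at hx
  by_contra hcon
  rw [not_le] at hcon
  have h4 : 0 < f x := by
    rw [hf]
    exact lt_min one_pos (lt_max_of_lt_right (by linarith))
  linarith

theorem LimData.null_point' (hΩ : IsOpen Ω) (hb : Bornology.IsBounded Ω) (hJ : J.J_star)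
    (L : LimData S n P G H)
    (hrep : ∀ᵐ x ∂P, ∀ k : ℕ, ∃ g : ℂ → ℝ, Measurable g ∧ (∀ z, |g z| ≤ k) ∧
      ∀ φ, Vale.Agent.P155.IsTest Ω φ → H k x φ = ∫ z, g z * φ z)
    (k : ℕ) {z0 : ℂ} (hz0 : z0 ∈ Ω) :
    ∀ᵐ x ∂P, Metric.infDist z0 (G (k + 1) x : Set ℂ) = 0 →
      Metric.infDist z0 (G k x : Set ℂ) = 0 := by
  obtain ⟨ρ, hρ, hball⟩ := Metric.nhds_basis_closedBall.mem_iff.1 (hΩ.mem_nhds hz0)
  have h1 : ∀ᵐ x ∂P, ∀ m : ℕ, Metric.infDist z0 (G (k + 1) x : Set ℂ) = 0 →
      Metric.infDist z0 (G k x : Set ℂ) ≤ ρ / (m + 1) := by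
    rw [ae_all_iff]
    intro m
    have hm : 0 < ρ / (m + 1) := by positivity
    refine L.null_point hΩ hb hJ hrep k hm ((Metric.closedBall_subset_closedBall ?_).trans hball)
    exact div_le_self hρ.le (by
      have : (0 : ℝ) ≤ m := Nat.cast_nonneg m
      linarith)
  filter_upwards [h1] with x hx hx0
  apply le_antisymm _ Metric.infDist_nonneg
  have h2 : Tendsto (fun m : ℕ => ρ / ((m : ℝ) + 1)) atTop (𝓝 0) := by
    have := tendsto_one_div_add_atTop_nhds_zero_nat (𝕜 := ℝ)
    have h3 := this.const_mul ρ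
    simpa [div_eq_mul_inv] using h3
  exact ge_of_tendsto h2 (Eventually.of_forall fun m => hx m hx0)

/-- The carpets have zero area. -/
theorem LimData.null (hΩ : IsOpen Ω) (hb : Bornology.IsBounded Ω) (hJ : J.J_star)
    (L : LimData S n P G H)
    (hzero : ∀ᵐ x ∂P, (G 0 x : Set ℂ) = frontier Ω)
    (hrep : ∀ᵐ x ∂P, ∀ k : ℕ, ∃ g : ℂ → ℝ, Measurable g ∧ (∀ z, |g z| ≤ k) ∧
      ∀ φ, Vale.Agent.P155.IsTest Ω φ → H k x φ = ∫ z, g z * φ z) :
    ∀ᵐ x ∂P, ∀ k, volume ((G k x : Set ℂ) ∩ Ω) = 0 := by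
  have hstep : ∀ k, ∀ᵐ x ∂P, ∀ᵐ z ∂(volume : Measure ℂ), z ∈ Ω →
      Metric.infDist z (G (k + 1) x : Set ℂ) = 0 → Metric.infDist z (G k x : Set ℂ) = 0 := by
    intro k
    have hm : ∀ l, Measurable (fun q : ℂ × Θ => Metric.infDist q.1 (G l q.2 : Set ℂ)) := by
      intro l
      exact measurable_uncurry_of_continuous_of_measurable
        (u := fun (z : ℂ) (x : Θ) => Metric.infDist z (G l x : Set ℂ))
        (fun x => Metric.continuous_infDist_pt _) (fun z => L.measurable_infDist l z)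
    have hmeas : MeasurableSet {q : ℂ × Θ | q.1 ∈ Ω →
        Metric.infDist q.1 (G (k + 1) q.2 : Set ℂ) = 0 → Metric.infDist q.1 (G k q.2 : Set ℂ) = 0} := by
      have h1 : MeasurableSet {q : ℂ × Θ | q.1 ∈ Ω} := measurable_fst hΩ.measurableSet
      have h2 : MeasurableSet {q : ℂ × Θ | Metric.infDist q.1 (G (k + 1) q.2 : Set ℂ) = 0} :=
        (hm (k + 1)) (measurableSet_singleton 0)
      have h3 : MeasurableSet {q : ℂ × Θ | Metric.infDist q.1 (G k q.2 : Set ℂ) = 0} :=
        (hm k) (measurableSet_singleton 0)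
      exact h1.imp (h2.imp h3)
    refine (Measure.ae_ae_comm (μ := (volume : Measure ℂ)) (ν := P) (p := fun z x => z ∈ Ω →
        Metric.infDist z (G (k + 1) x : Set ℂ) = 0 → Metric.infDist z (G k x : Set ℂ) = 0)
        hmeas).1 ?_
    apply Eventually.of_forall
    intro z
    by_cases hz : z ∈ Ω
    · filter_upwards [L.null_point' hΩ hb hJ hrep k hz] with x hx _
      exact hx
    · apply Eventually.of_forall
      intro x h
      exact absurd h hz
  have hall : ∀ᵐ x ∂P, ∀ k, ∀ᵐ z ∂(volume : Measure ℂ), z ∈ Ω →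
      Metric.infDist z (G (k + 1) x : Set ℂ) = 0 → Metric.infDist z (G k x : Set ℂ) = 0 :=
    ae_all_iff.2 hstep
  filter_upwards [hall, hzero] with x hx h0 k
  have hmem : ∀ l z, z ∈ (G l x : Set ℂ) ↔ Metric.infDist z (G l x : Set ℂ) = 0 := fun l z =>
    (G l x).isCompact.isClosed.mem_iff_infDist_zero (G l x).nonempty
  induction k with
  | zero =>
    rw [h0]
    have : frontier Ω ∩ Ω = ∅ := by
      rw [Set.inter_comm]
      exact hΩ.inter_frontier_eq
    rw [this, measure_empty]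
  | succ k ih =>
    have h1 : ∀ᵐ z ∂(volume : Measure ℂ), z ∉ (G k x : Set ℂ) ∩ Ω := measure_eq_zero_iff_ae_notMem.1 ih
    rw [measure_eq_zero_iff_ae_notMem]
    filter_upwards [h1, hx k] with z hz1 hz2 hz3
    exact hz1 ⟨(hmem k z).2 (hz2 hz3.2 ((hmem (k + 1) z).1 hz3.1)), hz3.2⟩

end

end Vale.Agent.P155.K
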