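import Vale.Agent.P155.K.Supp
import Mathlib.MeasureTheory.OuterMeasure.BorelCantelli

/-!
# P155: extended continuous mapping theorem with tight side conditions
-/

namespace Vale.Agent.P155.K

open MeasureTheory Filter Topology

/-- one approximation: sub-families `A n ⊆ D n` of proportion at least `1 - ε` -/
theorem pass_one {ι E Θ : Type*} [DecidableEq ι] [PseudoMetricSpace E] [MeasurableSpace Θ]
    (P : Measure Θ) [IsProbabilityMeasure P] {D : ℕ → Finset ι} {Y : ℕ → ι → E} {Z : Θ → E}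
    (hZ : ∀ F : E → ℝ, Continuous F → AEStronglyMeasurable (fun x => F (Z x)) P)
    (hLIM : ∀ F : E → ℝ, Continuous F → (∃ C, ∀ y, |F y| ≤ C) →
      Tendsto (fun n => avg (D n) (fun i => F (Y n i))) atTop (𝓝 (∫ x, F (Z x) ∂P)))
    {Φn : ℕ → ι → ℝ} {Φ : Θ → ℝ} {M : ℝ} (hMpos : 0 < M) (hM : ∀ n, ∀ i ∈ D n, |Φn n i| ≤ M)
    {A : ℕ → Finset ι} (hA : ∀ n, A n ⊆ D n) {ε : ℝ} (hε : 0 ≤ ε)
    (hfrac : ∀ᶠ n in atTop, ((D n \ A n).card : ℝ) ≤ ε * (D n).card)
    (hlim : ∀ᵐ x ∂P, ∀ (n : ℕ → ℕ) (ω : ℕ → ι), Tendsto n atTop atTop → (∀ j, ω j ∈ A (n j)) →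
      Tendsto (fun j => Y (n j) (ω j)) atTop (𝓝 (Z x)) →
      Tendsto (fun j => Φn (n j) (ω j)) atTop (𝓝 (Φ x))) :
    ∃ W : Θ → ℝ, AEStronglyMeasurable W P ∧ (∀ᵐ x ∂P, |W x| ≤ M) ∧
      (∀ x, IsLim A Y (Z x) → W x = Φ x) ∧
      P.real {x | ¬ IsLim A Y (Z x)} ≤ 2 * ε ∧
      ∀ δ > 0, ∀ᶠ n in atTop, |avg (D n) (Φn n) - ∫ x, W x ∂P| ≤ 2 * M * ε + δ := by
  have hM1 : ∀ n, ∀ i ∈ A n, |Φn n i| ≤ M := fun n i hi => hM n i (hA n hi)
  have hM2 : ∀ n, ∀ i ∈ A n, |(fun n i => - Φn n i) n i| ≤ M := fun n i hi => by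
    simpa using hM1 n i hi
  set W : ℕ → Θ → ℝ := fun m x => env A Y Φn M m (Z x) with hW
  set L : ℕ → Θ → ℝ := fun m x => env A Y (fun n i => - Φn n i) M m (Z x) with hL
  have hWlim : ∀ᵐ x ∂P, (IsLim A Y (Z x) ∧ Tendsto (fun m => W m x) atTop (𝓝 (Φ x)) ∧
      Tendsto (fun m => L m x) atTop (𝓝 (-Φ x))) ∨
      (¬ IsLim A Y (Z x) ∧ Tendsto (fun m => W m x) atTop (𝓝 (-M)) ∧
      Tendsto (fun m => L m x) atTop (𝓝 (-M))) := by
    filter_upwards [hlim] with x hx
    by_cases h : IsLim A Y (Z x)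
    · left
      refine ⟨h, env_tendsto_of_lim hMpos.le hM1 h hx, ?_⟩
      apply env_tendsto_of_lim hMpos.le hM2 h
      intro n ω hn hω hY
      exact (hx n ω hn hω hY).neg
    · right
      exact ⟨h, env_tendsto_of_not hMpos.le hM1 h, env_tendsto_of_not hMpos.le hM2 h⟩
  have mW : ∀ m, AEStronglyMeasurable (W m) P := fun m => hZ _ (env_cont hMpos.le hM1 m)
  have mL : ∀ m, AEStronglyMeasurable (L m) P := fun m => hZ _ (env_cont hMpos.le hM2 m)
  classical
  set Winf : Θ → ℝ := fun x => if IsLim A Y (Z x) then Φ x else -M with hWinf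
  set Linf : Θ → ℝ := fun x => if IsLim A Y (Z x) then -Φ x else -M with hLinf
  have cW : ∀ᵐ x ∂P, Tendsto (fun m => W m x) atTop (𝓝 (Winf x)) := by
    filter_upwards [hWlim] with x hx
    rcases hx with ⟨h, h1, _⟩ | ⟨h, h1, _⟩
    · simpa only [hWinf, h, if_true] using h1
    · simpa only [hWinf, h, if_false] using h1
  have cL : ∀ᵐ x ∂P, Tendsto (fun m => L m x) atTop (𝓝 (Linf x)) := by
    filter_upwards [hWlim] with x hx
    rcases hx with ⟨h, _, h1⟩ | ⟨h, _, h1⟩
    · simpa only [hLinf, h, if_true] using h1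
    · simpa only [hLinf, h, if_false] using h1
  have mWinf : AEStronglyMeasurable Winf P := aestronglyMeasurable_of_tendsto_ae atTop mW cW
  have mLinf : AEStronglyMeasurable Linf P := aestronglyMeasurable_of_tendsto_ae atTop mL cL
  have bW : ∀ m x, ‖W m x‖ ≤ M := fun m x => abs_env_le hMpos.le hM1 m _
  have bL : ∀ m x, ‖L m x‖ ≤ M := fun m x => abs_env_le hMpos.le hM2 m _
  have iW : Tendsto (fun m => ∫ x, W m x ∂P) atTop (𝓝 (∫ x, Winf x ∂P)) :=
    tendsto_integral_of_dominated_convergence (fun _ => M) mW (integrable_const _)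
      (fun m => Eventually.of_forall (bW m)) cW
  have iL : Tendsto (fun m => ∫ x, L m x ∂P) atTop (𝓝 (∫ x, Linf x ∂P)) :=
    tendsto_integral_of_dominated_convergence (fun _ => M) mL (integrable_const _)
      (fun m => Eventually.of_forall (bL m)) cL
  have boundW : ∀ᵐ x ∂P, |Winf x| ≤ M := by
    filter_upwards [cW] with x hx
    have := le_of_tendsto hx.norm (Eventually.of_forall (fun m => bW m x))
    rwa [Real.norm_eq_abs] at this
  have intW : Integrable Winf P := by
    refine Integrable.of_bound mWinf M ?_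
    filter_upwards [boundW] with x hx
    rwa [Real.norm_eq_abs]
  have intL : Integrable Linf P := by
    refine Integrable.of_bound mLinf M ?_
    filter_upwards [cL] with x hx
    exact le_of_tendsto hx.norm (Eventually.of_forall (fun m => bL m x))
  -- comparison of averages
  have comp : ∀ (G : ℕ → ι → ℝ), (∀ n, ∀ i ∈ D n, |G n i| ≤ M) → ∀ (m n : ℕ), m ≤ n →
      ((D n \ A n).card : ℝ) ≤ ε * (D n).card →
      avg (D n) (G n) ≤ avg (D n) (fun i => env A Y G M m (Y n i)) + 2 * M * ε := by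
    intro G hG m n hmn hf
    have hGA : ∀ n, ∀ i ∈ A n, |G n i| ≤ M := fun n i hi => hG n i (hA n hi)
    rcases Nat.eq_zero_or_pos (D n).card with h0 | h0
    · have : D n = ∅ := Finset.card_eq_zero.1 h0
      unfold avg
      rw [this]
      simp
      positivity
    have hc : (0 : ℝ) < (D n).card := by exact_mod_cast h0
    have h1 : ∑ i ∈ D n, G n i ≤ ∑ i ∈ D n, env A Y G M m (Y n i) + 2 * M * (D n \ A n).card := by
      have h2 : ∀ i ∈ D n, G n i ≤ env A Y G M m (Y n i) + (if i ∈ A n then 0 else 2 * M) := by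
        intro i hi
        by_cases hiA : i ∈ A n
        · rw [if_pos hiA, add_zero]
          have h3 : G n i - m * dist (Y n i) (Y n i) ≤ env A Y G M m (Y n i) :=
            le_env hMpos.le hGA (Or.inr ⟨n, hmn, i, hiA, rfl⟩)
          simpa using h3
        · rw [if_neg hiA]
          have h3 := neg_le_env (D := A) (Y := Y) hMpos.le hGA m (Y n i)
          have h4 := (abs_le.1 (hG n i hi)).2
          linarith
      refine (Finset.sum_le_sum h2).trans ?_
      rw [Finset.sum_add_distrib]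
      apply add_le_add_right
      rw [Finset.sum_ite, Finset.sum_const_zero, zero_add, Finset.sum_const, nsmul_eq_mul,
        mul_comm]
      apply mul_le_mul_of_nonneg_left _ (by positivity)
      have : (D n).filter (fun i => i ∉ A n) = D n \ A n := by
        ext i
        simp
      rw [this]
    unfold avg
    rw [smul_eq_mul, smul_eq_mul, inv_mul_le_iff₀ hc]
    have h5 : ((D n).card : ℝ) * (((D n).card : ℝ)⁻¹ * ∑ i ∈ D n, env A Y G M m (Y n i) + 2 * M * ε) =
        ∑ i ∈ D n, env A Y G M m (Y n i) + 2 * M * (ε * (D n).card) := by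
      field_simp
    rw [h5]
    refine h1.trans ?_
    have := mul_le_mul_of_nonneg_left hf (by positivity : 0 ≤ 2 * M)
    linarith
  have up : ∀ δ > 0, ∀ᶠ n in atTop, avg (D n) (Φn n) < (∫ x, Winf x ∂P) + 2 * M * ε + δ := by
    intro δ hδ
    obtain ⟨m, hm⟩ := ((tendsto_order.1 iW).2 ((∫ x, Winf x ∂P) + δ / 2) (by linarith)).exists
    have h1 := hLIM (env A Y Φn M m) (env_cont hMpos.le hM1 m) ⟨M, abs_env_le hMpos.le hM1 m⟩
    have h2 := (tendsto_order.1 h1).2 ((∫ x, Winf x ∂P) + δ) (by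
      have : ∫ x, env A Y Φn M m (Z x) ∂P = ∫ x, W m x ∂P := rfl
      rw [this]
      linarith)
    filter_upwards [h2, eventually_ge_atTop m, hfrac] with n hn hnm hf
    have := comp Φn hM m n hnm hf
    linarith
  have low : ∀ δ > 0, ∀ᶠ n in atTop, - (∫ x, Linf x ∂P) - 2 * M * ε - δ < avg (D n) (Φn n) := by
    intro δ hδ
    obtain ⟨m, hm⟩ := ((tendsto_order.1 iL).2 ((∫ x, Linf x ∂P) + δ / 2) (by linarith)).exists
    have h1 := hLIM (env A Y (fun n i => - Φn n i) M m) (env_cont hMpos.le hM2 m)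
      ⟨M, abs_env_le hMpos.le hM2 m⟩
    have h2 := (tendsto_order.1 h1).2 ((∫ x, Linf x ∂P) + δ) (by
      have : ∫ x, env A Y (fun n i => - Φn n i) M m (Z x) ∂P = ∫ x, L m x ∂P := rfl
      rw [this]
      linarith)
    filter_upwards [h2, eventually_ge_atTop m, hfrac] with n hn hnm hf
    have h3 := comp (fun n i => - Φn n i) (fun n i hi => by simpa using hM n i hi) m n hnm hf
    rw [avg_neg] at h3
    linarith
  have hle : ∀ x, Winf x + Linf x ≤ 0 := by
    intro x
    simp only [hWinf, hLinf]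
    split_ifs
    · linarith
    · linarith
  have hge : -(4 * M * ε) ≤ ∫ x, (Winf x + Linf x) ∂P := by
    rw [integral_add intW intL]
    by_contra hcon
    push Not at hcon
    set δ := -((∫ x, Winf x ∂P) + ∫ x, Linf x ∂P + 4 * M * ε) / 2 with hδ
    obtain ⟨n, h1, h2⟩ := ((up δ (by linarith)).and (low δ (by linarith))).exists
    linarith
  refine ⟨Winf, mWinf, boundW, ?_, ?_, ?_⟩
  · intro x hx
    simp only [hWinf, hx, if_true]
  · -- Markov
    have hnn : 0 ≤ᵐ[P] fun x => -(Winf x + Linf x) := Eventually.of_forall fun x => by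
      have := hle x
      show (0 : ℝ) ≤ -(Winf x + Linf x)
      linarith
    have h1 := mul_meas_ge_le_integral_of_nonneg hnn (intW.add intL).neg (2 * M)
    have h2 : {x | ¬ IsLim A Y (Z x)} ⊆ {x | 2 * M ≤ -(Winf x + Linf x)} := by
      intro x hx
      have hx' : ¬ IsLim A Y (Z x) := hx
      show 2 * M ≤ -(Winf x + Linf x)
      simp only [hWinf, hLinf, hx', if_false]
      linarith
    have h3 : P.real {x | ¬ IsLim A Y (Z x)} ≤ P.real {x | 2 * M ≤ -(Winf x + Linf x)} :=
      measureReal_mono h2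
    have h4 : ∫ x, -(Winf x + Linf x) ∂P ≤ 4 * M * ε := by
      rw [integral_neg]
      linarith
    have h5 : 2 * M * P.real {x | 2 * M ≤ -(Winf x + Linf x)} ≤ 4 * M * ε := h1.trans h4
    have h6 : P.real {x | 2 * M ≤ -(Winf x + Linf x)} ≤ 2 * ε := by
      by_contra hcon
      push Not at hcon
      have := mul_lt_mul_of_pos_left hcon (by positivity : 0 < 2 * M)
      linarith
    exact h3.trans h6
  · intro δ hδ
    have hWL : ∫ x, Winf x ∂P ≤ - ∫ x, Linf x ∂P := by
      have : ∫ x, (Winf x + Linf x) ∂P ≤ 0 := integral_nonpos hle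
      rw [integral_add intW intL] at this
      linarith
    filter_upwards [up δ hδ, low δ hδ] with n h1 h2
    rw [abs_le]
    constructor <;> linarith

/-- Extended continuous mapping theorem with tight side conditions `cond i c`. -/
theorem pass {ι E Θ : Type*} [PseudoMetricSpace E] [MeasurableSpace Θ] (P : Measure Θ)
    [IsProbabilityMeasure P] {D : ℕ → Finset ι} {Y : ℕ → ι → E} {Z : Θ → E}
    (hZ : ∀ F : E → ℝ, Continuous F → AEStronglyMeasurable (fun x => F (Z x)) P)
    (hLIM : ∀ F : E → ℝ, Continuous F → (∃ C, ∀ y, |F y| ≤ C) →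
      Tendsto (fun n => avg (D n) (fun i => F (Y n i))) atTop (𝓝 (∫ x, F (Z x) ∂P)))
    {cond : ℕ → ℕ → ℕ → ι → Prop} [∀ i c n, DecidablePred (cond i c n)]
    (hcond : ∀ i, ∀ ε > (0 : ℝ), ∃ c, ∀ᶠ n in atTop,
      (((D n).filter (fun ω => ¬ cond i c n ω)).card : ℝ) ≤ ε * (D n).card)
    {Φn : ℕ → ι → ℝ} {Φ : Θ → ℝ} {M : ℝ} (hM : ∀ n, ∀ i ∈ D n, |Φn n i| ≤ M)
    (hlim : ∀ᵐ x ∂P, ∀ (n : ℕ → ℕ) (ω : ℕ → ι), Tendsto n atTop atTop → (∀ j, ω j ∈ D (n j)) →
      Tendsto (fun j => Y (n j) (ω j)) atTop (𝓝 (Z x)) →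
      (∀ i, ∃ c, ∀ᶠ j in atTop, cond i c (n j) (ω j)) →
      Tendsto (fun j => Φn (n j) (ω j)) atTop (𝓝 (Φ x))) :
    AEStronglyMeasurable Φ P ∧ Tendsto (fun n => avg (D n) (Φn n)) atTop (𝓝 (∫ x, Φ x ∂P)) ∧
      ∀ᵐ x ∂P, ∃ (n : ℕ → ℕ) (ω : ℕ → ι), Tendsto n atTop atTop ∧ (∀ j, ω j ∈ D (n j)) ∧
        Tendsto (fun j => Y (n j) (ω j)) atTop (𝓝 (Z x)) ∧
        ∀ i, ∃ c, ∀ᶠ j in atTop, cond i c (n j) (ω j) := by
  classical
  set M' := |M| + 1 with hM'
  have hM'pos : 0 < M' := by positivity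
  have hM1 : ∀ n, ∀ i ∈ D n, |Φn n i| ≤ M' := fun n i hi =>
    (hM n i hi).trans ((le_abs_self M).trans (by linarith))
  -- choice of the constants
  set e : ℕ → ℝ := fun q => (1 / 2) ^ q with he
  have he0 : ∀ q, 0 < e q := fun q => by positivity
  choose c hc using fun (q i : ℕ) => hcond i (e q * (1 / 2) ^ (i + 1)) (by have := he0 q; positivity)
  choose N hN using fun (q i : ℕ) => eventually_atTop.1 (hc q i)
  set A : ℕ → ℕ → Finset ι := fun q n => (D n).filter
    (fun ω => ∀ i, i ≤ n → N q i ≤ n → cond i (c q i) n ω) with hA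
  have hAD : ∀ q n, A q n ⊆ D n := fun q n => Finset.filter_subset _ _
  have hfrac : ∀ q n, ((D n \ A q n).card : ℝ) ≤ e q * (D n).card := by
    intro q n
    have hsub : D n \ A q n ⊆ ((Finset.range (n + 1)).filter (fun i => N q i ≤ n)).biUnion
        (fun i => (D n).filter (fun ω => ¬ cond i (c q i) n ω)) := by
      intro ω hω
      rw [Finset.mem_sdiff] at hω
      have h1 : ¬ ∀ i, i ≤ n → N q i ≤ n → cond i (c q i) n ω := by
        intro h
        exact hω.2 (Finset.mem_filter.2 ⟨hω.1, h⟩)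
      push Not at h1
      obtain ⟨i, hi, hNi, hci⟩ := h1
      rw [Finset.mem_biUnion]
      exact ⟨i, Finset.mem_filter.2 ⟨Finset.mem_range.2 (by omega), hNi⟩,
        Finset.mem_filter.2 ⟨hω.1, hci⟩⟩
    calc ((D n \ A q n).card : ℝ) ≤ (((Finset.range (n + 1)).filter (fun i => N q i ≤ n)).biUnion
        (fun i => (D n).filter (fun ω => ¬ cond i (c q i) n ω))).card := by
          exact_mod_cast Finset.card_le_card hsub
      _ ≤ ((∑ i ∈ (Finset.range (n + 1)).filter (fun i => N q i ≤ n),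
          ((D n).filter (fun ω => ¬ cond i (c q i) n ω)).card : ℕ) : ℝ) := by
          exact_mod_cast Finset.card_biUnion_le
      _ = ∑ i ∈ (Finset.range (n + 1)).filter (fun i => N q i ≤ n),
          (((D n).filter (fun ω => ¬ cond i (c q i) n ω)).card : ℝ) := by push_cast; rfl
      _ ≤ ∑ i ∈ (Finset.range (n + 1)).filter (fun i => N q i ≤ n),
          e q * (1 / 2) ^ (i + 1) * (D n).card := by
          apply Finset.sum_le_sum
          intro i hi
          exact hN q i n (Finset.mem_filter.1 hi).2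
      _ ≤ ∑ i ∈ Finset.range (n + 1), e q * (1 / 2) ^ (i + 1) * (D n).card := by
          apply Finset.sum_le_sum_of_subset_of_nonneg (Finset.filter_subset _ _)
          intro i _ _
          have := he0 q
          positivity
      _ = e q * (D n).card * ((∑ i ∈ Finset.range (n + 1), (1 / (2 : ℝ)) ^ i) / 2) := by
          rw [Finset.sum_div, Finset.mul_sum]
          apply Finset.sum_congr rfl
          intro i _
          rw [pow_succ]
          ring
      _ ≤ e q * (D n).card * 1 := by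
          apply mul_le_mul_of_nonneg_left
          · have := sum_geometric_two_le (n + 1)
            linarith
          · have := he0 q
            positivity
      _ = e q * (D n).card := mul_one _
  -- good sequences
  have hgood : ∀ q (n : ℕ → ℕ) (ω : ℕ → ι), Tendsto n atTop atTop → (∀ j, ω j ∈ A q (n j)) →
      ∀ i, ∃ c', ∀ᶠ j in atTop, cond i c' (n j) (ω j) := by
    intro q n ω hn hω i
    refine ⟨c q i, ?_⟩
    filter_upwards [hn.eventually_ge_atTop (max i (N q i))] with j hj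
    exact (Finset.mem_filter.1 (hω j)).2 i ((le_max_left _ _).trans hj) ((le_max_right _ _).trans hj)
  have hone := fun q => pass_one P hZ hLIM hM'pos hM1 (hAD q) (he0 q).le
    (Eventually.of_forall (hfrac q)) (Φ := Φ) (by
      filter_upwards [hlim] with x hx n ω hn hω hY
      exact hx n ω hn (fun j => hAD q _ (hω j)) hY (hgood q n ω hn hω))
  choose W mW bW eW pW aW using hone
  -- Borel-Cantelli
  have hBC : ∀ᵐ x ∂P, ∀ᶠ q in atTop, IsLim (A q) Y (Z x) := by
    have hsum : ∑' q, P {x | ¬ IsLim (A q) Y (Z x)} ≠ ⊤ := by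
      have h1 : ∀ q, P {x | ¬ IsLim (A q) Y (Z x)} ≤ ENNReal.ofReal (2 * e q) := by
        intro q
        rw [← ofReal_measureReal]
        exact ENNReal.ofReal_le_ofReal (pW q)
      have h2 : Summable (fun q => 2 * e q) := by
        rw [he]
        exact (summable_geometric_of_lt_one (by norm_num) (by norm_num)).mul_left 2
      have h3 : ∑' q, ENNReal.ofReal (2 * e q) ≠ ⊤ := h2.tsum_ofReal_ne_top
      exact ne_top_of_le_ne_top h3 (ENNReal.tsum_le_tsum h1)
    filter_upwards [ae_eventually_notMem hsum] with x hx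
    filter_upwards [hx] with q hq
    by_contra h
    exact hq h
  have cΦ : ∀ᵐ x ∂P, Tendsto (fun q => W q x) atTop (𝓝 (Φ x)) := by
    filter_upwards [hBC] with x hx
    apply tendsto_const_nhds.congr'
    filter_upwards [hx] with q hq
    exact (eW q x hq).symm
  have bW' : ∀ᵐ x ∂P, ∀ q, |W q x| ≤ M' := ae_all_iff.2 bW
  have mΦ : AEStronglyMeasurable Φ P := aestronglyMeasurable_of_tendsto_ae atTop mW cΦ
  have iW : Tendsto (fun q => ∫ x, W q x ∂P) atTop (𝓝 (∫ x, Φ x ∂P)) :=
    tendsto_integral_of_dominated_convergence (fun _ => M') mW (integrable_const _)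
      (fun q => by
        filter_upwards [bW q] with x hx
        rwa [Real.norm_eq_abs]) cΦ
  refine ⟨mΦ, ?_, ?_⟩
  · rw [Metric.tendsto_atTop]
    intro ε hε
    have he_lim : Tendsto (fun q => 2 * M' * e q) atTop (𝓝 0) := by
      have := (tendsto_pow_atTop_nhds_zero_of_lt_one (r := (1 / 2 : ℝ)) (by norm_num)
        (by norm_num)).const_mul (2 * M')
      rw [mul_zero] at this
      exact this
    obtain ⟨q, h1, h2⟩ := (((Metric.tendsto_nhds.1 iW) (ε / 4) (by linarith)).and
      ((tendsto_order.1 he_lim).2 (ε / 4) (by linarith))).exists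
    rw [Real.dist_eq] at h1
    obtain ⟨K, hK⟩ := eventually_atTop.1 (aW q (ε / 4) (by linarith))
    refine ⟨K, fun n hn => ?_⟩
    have h3 := hK n hn
    rw [Real.dist_eq]
    calc |avg (D n) (Φn n) - ∫ x, Φ x ∂P| =
        |(avg (D n) (Φn n) - ∫ x, W q x ∂P) + ((∫ x, W q x ∂P) - ∫ x, Φ x ∂P)| := by
          congr 1
          ring
      _ ≤ |avg (D n) (Φn n) - ∫ x, W q x ∂P| + |(∫ x, W q x ∂P) - ∫ x, Φ x ∂P| := abs_add_le _ _
      _ < ε := by linarith
  · filter_upwards [hBC] with x hx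
    obtain ⟨q, n, ω, hn, hω, hY⟩ := hx.exists
    exact ⟨n, ω, hn, fun j => hAD q _ (hω j), hY, hgood q n ω hn hω⟩

end Vale.Agent.P155.K
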