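import Vale.Agent.P155.K.MollE

/-!
# P155 block K: upper bound for the limit of the discrete Green energies
-/

namespace Vale.Agent.P155.K

open Vale.Agent.P155 Finset MeasureTheory Filter Topology
open scoped ContDiff

/-- soft thresholding -/
noncomputable def trunc (ε t : ℝ) : ℝ := max (t - ε) 0 - max (-t - ε) 0

theorem trunc_lip {ε : ℝ} (hε : 0 ≤ ε) (s t : ℝ) : |trunc ε s - trunc ε t| ≤ |s - t| := by
  unfold trunc
  rcases max_cases (s - ε) 0 with h1 | h1 <;> rcases max_cases (-s - ε) 0 with h2 | h2 <;>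
    rcases max_cases (t - ε) 0 with h3 | h3 <;> rcases max_cases (-t - ε) 0 with h4 | h4 <;>
    rw [h1.1, h2.1, h3.1, h4.1, abs_le] <;>
    constructor <;> rcases abs_cases (s - t) with h5 | h5 <;> linarith

theorem trunc_sub {ε : ℝ} (hε : 0 ≤ ε) (t : ℝ) : |trunc ε t - t| ≤ ε := by
  unfold trunc
  rcases max_cases (t - ε) 0 with h3 | h3 <;> rcases max_cases (-t - ε) 0 with h4 | h4 <;>
    rw [h3.1, h4.1, abs_le] <;>
    constructor <;> linarith

theorem trunc_eq_zero {ε : ℝ} {t : ℝ} (h : |t| ≤ ε) : trunc ε t = 0 := by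
  rw [abs_le] at h
  unfold trunc
  rw [max_eq_right (by linarith), max_eq_right (by linarith), sub_zero]

theorem trunc_zero {ε : ℝ} (hε : 0 ≤ ε) : trunc ε 0 = 0 := trunc_eq_zero (by simpa using hε)

theorem trunc_abs {ε : ℝ} (hε : 0 ≤ ε) (t : ℝ) : |trunc ε t| ≤ |t| := by
  have := trunc_lip hε t 0
  rwa [trunc_zero hε, sub_zero, sub_zero] at this

theorem fin0_trunc {ε : ℝ} (hε : 0 ≤ ε) {u : Pt → ℝ} (hu : Fin0 u) : Fin0 (fun y => trunc ε (u y)) :=
  hu.subset (by
    intro y hy h0
    apply hy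
    simp only
    rw [h0, trunc_zero hε])

theorem energy_trunc {ε : ℝ} (hε : 0 ≤ ε) {u : Pt → ℝ} (hu : Fin0 u) :
    energy (fun y => trunc ε (u y)) ≤ energy u := by
  have fu : Fin0 (fun x : Pt => (u (x.1 + 1, x.2) - u x) ^ 2 + (u (x.1, x.2 + 1) - u x) ^ 2) := by
    refine (hu.e hu).subset ?_
    intro y hy
    simp only [Function.mem_support, ne_eq] at hy ⊢
    rwa [← sq, ← sq]
  have ft : Fin0 (fun x : Pt => (trunc ε (u (x.1 + 1, x.2)) - trunc ε (u x)) ^ 2
      + (trunc ε (u (x.1, x.2 + 1)) - trunc ε (u x)) ^ 2) := by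
    have := (fin0_trunc hε hu).e (fin0_trunc hε hu)
    refine this.subset ?_
    intro y hy
    simp only [Function.mem_support, ne_eq] at hy ⊢
    rwa [← sq, ← sq]
  unfold energy
  rw [finsum_eq_sum_of_support_subset (s := Set.Finite.toFinset ft ∪ Set.Finite.toFinset fu) _
      (fun y hy => Finset.mem_coe.2 (Finset.mem_union_left _ ((Set.Finite.mem_toFinset ft).2 hy))),
    finsum_eq_sum_of_support_subset (s := Set.Finite.toFinset ft ∪ Set.Finite.toFinset fu) _
      (fun y hy => Finset.mem_coe.2 (Finset.mem_union_right _ ((Set.Finite.mem_toFinset fu).2 hy)))]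
  apply Finset.sum_le_sum
  intro x _
  have h1 : ∀ s t : ℝ, (trunc ε s - trunc ε t) ^ 2 ≤ (s - t) ^ 2 := by
    intro s t
    rw [← sq_abs, ← sq_abs (s - t)]
    exact pow_le_pow_left₀ (abs_nonneg _) (trunc_lip hε s t) 2
  exact add_le_add (h1 _ _) (h1 _ _)

theorem sum_bound (ϱ : ℝ) : ∃ V : ℝ, 0 ≤ V ∧ ∀ δ : ℝ, 0 < δ → δ ≤ 1 → ∀ (a : ℂ) (g : Pt → ℝ) (M : ℝ),
    0 ≤ M → (∀ y, |g y| ≤ M) → (∀ y, g y ≠ 0 → ‖pos δ a y‖ ≤ ϱ) →
    δ ^ 2 * ∑ᶠ y : Pt, |g y| ≤ M * V := by
  refine ⟨(volume (Metric.closedBall (0 : ℂ) (ϱ + 2))).toReal, ENNReal.toReal_nonneg,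
    fun δ hδ hδ1 a g M hM hgM hg => ?_⟩
  have fg : Fin0 (fun y => |g y|) := by
    apply (finite_pos_le hδ a ϱ).subset
    intro y hy
    exact hg y (by simpa using hy)
  rw [← integral_cell hδ a fg]
  have e1 : M * (volume (Metric.closedBall (0 : ℂ) (ϱ + 2))).toReal =
      ∫ z, (Metric.closedBall (0 : ℂ) (ϱ + 2)).indicator (fun _ => M) z := by
    rw [integral_indicator_const _ measurableSet_closedBall, Measure.real, smul_eq_mul, mul_comm]
  rw [e1]
  apply integral_mono_of_nonneg
  · filter_upwards with z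
    exact abs_nonneg _
  · apply (integrable_indicator_iff measurableSet_closedBall).2
    apply integrableOn_const
    · exact (isCompact_closedBall _ _).measure_ne_top
    · exact enorm_ne_top
  · filter_upwards with z
    by_cases hz : g (cell δ a z) = 0
    · simp only [hz, abs_zero]
      exact Set.indicator_nonneg (fun _ _ => hM) _
    · rw [Set.indicator_of_mem]
      · exact hgM _
      · rw [mem_closedBall_zero_iff]
        have h5 := hg _ hz
        have h6 := norm_sub_pos_cell hδ a z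
        calc ‖z‖ = ‖(z - pos δ a (cell δ a z)) + pos δ a (cell δ a z)‖ := by rw [sub_add_cancel]
          _ ≤ 2 * δ + ϱ := (norm_add_le _ _).trans (add_le_add h6 h5)
          _ ≤ ϱ + 2 := by linarith

theorem moll_energy {η : ℝ} {ρ : ℂ → ℝ} (h : IsMoll η ρ) (ϱ : ℝ) :
    ∃ C : ℝ, 0 ≤ C ∧ ∀ δ : ℝ, 0 < δ → δ ≤ 1 → ∀ a : ℂ, ∀ w : Pt → ℝ, Fin0 w →
      (∀ y, w y ≠ 0 → ‖pos δ a y‖ ≤ ϱ) →
      ∫ z, gradSq (moll δ a ρ w) z ≤
        (1 + C * δ) * energy w + C * δ * (δ ^ 2 * ∑ᶠ y : Pt, |w y|) ^ 2 := by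
  obtain ⟨C1, hC1, h1⟩ := dir_energy h ϱ (e := 1) (by simp) sh1
  obtain ⟨C2, hC2, h2⟩ := dir_energy h ϱ (e := Complex.I) (by simp) sh2
  refine ⟨C1 + C2, by positivity, fun δ hδ hδ1 a w hw hϱ => ?_⟩
  have h3 := h1 δ hδ hδ1 a (fun y => by rw [sh1_apply, pos_add1, mul_one]) w hw hϱ
  have h4 := h2 δ hδ hδ1 a (fun y => by rw [sh2_apply, pos_add2]) w hw hϱ
  have hsm := contDiff_moll (δ := δ) (a := a) h.smooth hw
  have hcs : HasCompactSupport (moll δ a ρ w) := (isTest_moll h hw (U := Set.univ)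
    (fun y _ z hz => absurd trivial hz)).cpt
  have cont : ∀ e : ℂ, Continuous (fun z => fderiv ℝ (moll δ a ρ w) z e) := fun e =>
    (hsm.continuous_fderiv (by simp)).clm_apply continuous_const
  have csup : ∀ e : ℂ, HasCompactSupport (fun z => fderiv ℝ (moll δ a ρ w) z e) := fun e =>
    (hcs.fderiv_apply ℝ e)
  have int : ∀ e : ℂ, Integrable (fun z => (fderiv ℝ (moll δ a ρ w) z e) ^ 2) := by
    intro e
    apply Continuous.integrable_of_hasCompactSupport
    · exact (cont e).pow 2
    · exact (csup e).comp_left (g := fun t : ℝ => t ^ 2) (by simp)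
  have e1 : ∫ z, gradSq (moll δ a ρ w) z = (∫ z, (fderiv ℝ (moll δ a ρ w) z 1) ^ 2) +
      ∫ z, (fderiv ℝ (moll δ a ρ w) z Complex.I) ^ 2 := integral_add (int 1) (int Complex.I)
  have fA : Fin0 (fun y : Pt => (w (sh1 y) - w y) ^ 2) := by
    refine hw.d1.subset ?_
    intro y hy
    simp only [Function.mem_support, ne_eq] at hy ⊢
    intro h0
    apply hy
    rw [sh1_apply, h0]
    simp
  have fB : Fin0 (fun y : Pt => (w (sh2 y) - w y) ^ 2) := by
    refine hw.d2.subset ?_
    intro y hy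
    simp only [Function.mem_support, ne_eq] at hy ⊢
    intro h0
    apply hy
    rw [sh2_apply, h0]
    simp
  have e2 : energy w = ∑ᶠ y : Pt, (w (sh1 y) - w y) ^ 2 + ∑ᶠ y : Pt, (w (sh2 y) - w y) ^ 2 := by
    rw [← fsum_add fA fB]
    rfl
  have p1 : 0 ≤ ∑ᶠ y : Pt, (w (sh1 y) - w y) ^ 2 := fsum_nonneg (fun _ => sq_nonneg _)
  have p2 : 0 ≤ ∑ᶠ y : Pt, (w (sh2 y) - w y) ^ 2 := fsum_nonneg (fun _ => sq_nonneg _)
  rw [e1, e2]
  clear h1 h2
  set A1 := ∑ᶠ y : Pt, (w (sh1 y) - w y) ^ 2
  set A2 := ∑ᶠ y : Pt, (w (sh2 y) - w y) ^ 2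
  set W2 := (δ ^ 2 * ∑ᶠ y : Pt, |w y|) ^ 2
  have q1 : 0 ≤ C2 * δ * A1 := by positivity
  have q2 : 0 ≤ C1 * δ * A2 := by positivity
  nlinarith

/-- K2, upper bound: a nearly optimal test function. -/
theorem upper {δ : ℕ → ℝ} (hδ : ∀ n, 0 < δ n) (hδ0 : Tendsto δ atTop (𝓝 0)) (a : ℕ → ℂ)
    {O : ℕ → Set Pt} (hO : ∀ n, (O n).Finite) {φ : ℂ → ℝ} (hφ : Continuous φ)
    (hφc : HasCompactSupport φ) {u : ℕ → Pt → ℝ}
    (hu : ∀ n, IsGreen (O n) (phin (δ n) (a n) φ) (u n)) {U : Set ℂ} {ϱ M0 E0 : ℝ}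
    (hϱ : ∀ᶠ n in atTop, ∀ y ∈ O n, ‖pos (δ n) (a n) y‖ ≤ ϱ)
    (hM0 : ∀ᶠ n in atTop, ∀ y, |u n y| ≤ M0) (hE0 : ∀ᶠ n in atTop, energy (u n) ≤ E0)
    (hnear : ∀ ε > 0, ∃ η > 0, ∀ᶠ n in atTop, ∀ y p, p ∉ O n →
      ‖pos (δ n) (a n) y - pos (δ n) (a n) p‖ ≤ η → |u n y| ≤ ε)
    (hα : ∀ η > 0, ∀ᶠ n in atTop, ∀ z, z ∉ U → ∃ p, p ∉ O n ∧ ‖z - pos (δ n) (a n) p‖ < η)
    {ε' : ℝ} (hε' : 0 < ε') :
    ∀ᶠ n in atTop, ∃ v, IsTest U v ∧ pair (phin (δ n) (a n) φ) (u n) ≤ dval φ v + ε' := by
  obtain ⟨Mφ, hMφ0, hMφ⟩ := exists_bound hφ hφc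
  obtain ⟨V, hV0, hV⟩ := sum_bound ϱ
  have hM0' : 0 ≤ M0 := by
    obtain ⟨n, hn⟩ := hM0.exists
    exact (abs_nonneg _).trans (hn (0, 0))
  have hE0' : 0 ≤ E0 := by
    obtain ⟨n, hn⟩ := hE0.exists
    exact (energy_nonneg _).trans hn
  -- parameters
  set ε := ε' / (8 * (Mφ * V + 1)) with hε
  have hεpos : 0 < ε := by positivity
  set κ := ε' / (8 * (M0 * V + 1)) with hκ
  have hκpos : 0 < κ := by positivity
  obtain ⟨η, hη, hη2⟩ := hnear ε hεpos
  have huc : UniformContinuous φ := hφc.uniformContinuous_of_continuous hφ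
  obtain ⟨η1, hη1, hη1'⟩ := Metric.uniformContinuous_iff.1 huc κ hκpos
  set η' := min (η / 3) η1 with hη'
  have hη'pos : 0 < η' := by positivity
  obtain ⟨ρ, hρ⟩ := exists_moll hη'pos
  obtain ⟨C, hC0, hC⟩ := moll_energy hρ ϱ
  have h1 : ∀ᶠ n in atTop, δ n < 1 := (tendsto_order.1 hδ0).2 1 one_pos
  have h2 : ∀ᶠ n in atTop, (C * E0 + C * (M0 * V) ^ 2) * δ n < ε' / 4 := by
    have := hδ0.const_mul (C * E0 + C * (M0 * V) ^ 2)
    rw [mul_zero] at this
    exact (tendsto_order.1 this).2 _ (by positivity)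
  filter_upwards [hϱ, hM0, hE0, hη2, hα η' hη'pos, h1, h2] with n hϱn hMn hEn hηn hαn hδ1 hδ2
  have hδp := hδ n
  set d := δ n with hd
  set b := a n with hb
  set un := u n with hun
  have fu : Fin0 un := Fin0.of_sub (hO n) (hu n).off
  set w : Pt → ℝ := fun y => trunc ε (un y) with hw
  have fw : Fin0 w := fin0_trunc hεpos.le fu
  have hwu : ∀ y, w y ≠ 0 → ε < |un y| := by
    intro y hy
    by_contra h
    exact hy (trunc_eq_zero (not_lt.1 h))
  have hwO : ∀ y, w y ≠ 0 → y ∈ O n := by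
    intro y hy
    by_contra h
    have := hwu y hy
    have h0 : un y = 0 := (hu n).off y h
    rw [h0, abs_zero] at this
    linarith
  have hwϱ : ∀ y, w y ≠ 0 → ‖pos d b y‖ ≤ ϱ := fun y hy => hϱn y (hwO y hy)
  have hwM : ∀ y, |w y| ≤ M0 := fun y => (trunc_abs hεpos.le _).trans (hMn y)
  have hW := hV d hδp hδ1.le b w M0 hM0' hwM hwϱ
  set W := d ^ 2 * ∑ᶠ y : Pt, |w y| with hWdef
  have hW0 : 0 ≤ W := by
    have : 0 ≤ ∑ᶠ y : Pt, |w y| := fsum_nonneg (fun _ => abs_nonneg _)
    positivity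
  refine ⟨moll d b ρ w, isTest_moll hρ fw ?_, ?_⟩
  · intro y hy z hz
    by_contra hcon
    push Not at hcon
    obtain ⟨p, hp, hzp⟩ := hαn z hz
    have h3 : ‖pos d b y - pos d b p‖ ≤ η := by
      calc ‖pos d b y - pos d b p‖ = ‖-(z - pos d b y) + (z - pos d b p)‖ := by
            congr 1
            ring
        _ ≤ ‖-(z - pos d b y)‖ + ‖z - pos d b p‖ := norm_add_le _ _
        _ ≤ η' + η' := by
            rw [norm_neg]
            linarith
        _ ≤ η := by
            have : η' ≤ η / 3 := min_le_left _ _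
            linarith
    have h4 := hηn y p hp h3
    have h5 := hwu y hy
    linarith
  · -- the pairing
    have hpair : |(∫ z, φ z * moll d b ρ w z) - pair (phin d b φ) w| ≤ κ * W := by
      set S : Finset Pt := Set.Finite.toFinset fw with hS
      have hwS : ∀ y, y ∉ S → w y = 0 := by
        intro y hy
        by_contra h0
        exact hy ((Set.Finite.mem_toFinset fw).2 h0)
      have intρ : ∀ y, Integrable (fun z => φ z * ρ (z - pos d b y)) := fun y =>
        (hφ.mul (hρ.smooth.continuous.comp (continuous_id.sub continuous_const))).integrable_of_hasCompactSupport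
          hφc.mul_right
      have e1 : ∫ z, φ z * moll d b ρ w z =
          d ^ 2 * ∑ y ∈ S, w y * ∫ z, φ z * ρ (z - pos d b y) := by
        have e2 : ∀ z, φ z * moll d b ρ w z =
            d ^ 2 * ∑ y ∈ S, w y * (φ z * ρ (z - pos d b y)) := by
          intro z
          rw [moll_eq hwS, ← mul_assoc, mul_comm (φ z), mul_assoc, Finset.mul_sum]
          congr 1
          apply Finset.sum_congr rfl
          intro y _
          ring
        simp_rw [e2]
        rw [integral_const_mul, integral_finsetSum _ (fun y _ => (intρ y).const_mul _)]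
        simp_rw [integral_const_mul]
      have e3 : pair (phin d b φ) w = d ^ 2 * ∑ y ∈ S, w y * φ (pos d b y) := by
        unfold pair phin
        rw [finsum_eq_sum_of_support_subset (s := S), Finset.mul_sum]
        · apply Finset.sum_congr rfl
          intro y _
          ring
        · intro y hy
          by_contra h0
          exact hy (by simp [hwS y (by simpa using h0)])
      have e4 : W = d ^ 2 * ∑ y ∈ S, |w y| := by
        rw [hWdef, finsum_eq_sum_of_support_subset (s := S)]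
        intro y hy
        by_contra h0
        exact hy (by simp [hwS y (by simpa using h0)])
      rw [e1, e3, e4, ← mul_sub, ← Finset.sum_sub_distrib, abs_mul,
        abs_of_pos (by positivity : (0 : ℝ) < d ^ 2)]
      have e5 : |∑ y ∈ S, (w y * (∫ z, φ z * ρ (z - pos d b y)) - w y * φ (pos d b y))| ≤
          ∑ y ∈ S, |w y| * κ := by
        refine (Finset.abs_sum_le_sum_abs _ _).trans (Finset.sum_le_sum (fun y _ => ?_))
        rw [← mul_sub, abs_mul]
        apply mul_le_mul_of_nonneg_left _ (abs_nonneg _)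
        have intρ' : Integrable (fun z => ρ (z - pos d b y)) :=
          (hρ.smooth.continuous.comp (continuous_id.sub continuous_const)).integrable_of_hasCompactSupport
            (hρ.cpt.comp_homeomorph (Homeomorph.subRight (pos d b y)))
        have i1 : ∫ z, ρ (z - pos d b y) = 1 := by
          rw [integral_sub_right_eq_self (fun ζ => ρ ζ) (pos d b y)]
          exact hρ.int
        have e6 : (∫ z, φ z * ρ (z - pos d b y)) - φ (pos d b y) =
            ∫ z, (φ z - φ (pos d b y)) * ρ (z - pos d b y) := by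
          have : ∫ z, (φ z - φ (pos d b y)) * ρ (z - pos d b y) =
              (∫ z, φ z * ρ (z - pos d b y)) - ∫ z, φ (pos d b y) * ρ (z - pos d b y) := by
            rw [← integral_sub (intρ y) (intρ'.const_mul _)]
            congr 1
            funext z
            ring
          rw [this, integral_const_mul, i1, mul_one]
        rw [e6]
        calc |∫ z, (φ z - φ (pos d b y)) * ρ (z - pos d b y)|
            ≤ ∫ z, |(φ z - φ (pos d b y)) * ρ (z - pos d b y)| := abs_integral_le_integral_abs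
          _ ≤ ∫ z, κ * ρ (z - pos d b y) := by
              apply integral_mono_of_nonneg
              · filter_upwards with z
                exact abs_nonneg _
              · exact intρ'.const_mul _
              · filter_upwards with z
                rw [abs_mul, abs_of_nonneg (hρ.nonneg _)]
                by_cases h0 : ρ (z - pos d b y) = 0
                · simp [h0]
                · apply mul_le_mul_of_nonneg_right _ (hρ.nonneg _)
                  have h7 := hρ.supp _ h0
                  have h8 : dist z (pos d b y) < η1 := by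
                    rw [dist_eq_norm]
                    exact h7.trans_le (min_le_right _ _)
                  exact (hη1' h8).le
          _ = κ := by rw [integral_const_mul, i1, mul_one]
      calc d ^ 2 * _ ≤ d ^ 2 * ∑ y ∈ S, |w y| * κ := by gcongr
        _ = κ * (d ^ 2 * ∑ y ∈ S, |w y|) := by
            rw [← Finset.sum_mul]
            ring
    have hpair2 : |pair (phin d b φ) w - pair (phin d b φ) un| ≤ Mφ * ε * V := by
      have e1 : pair (phin d b φ) w - pair (phin d b φ) un =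
          d ^ 2 * ∑ᶠ y : Pt, φ (pos d b y) * (w y - un y) := by
        unfold pair phin
        rw [← fsum_sub (fw.mul_left _) (fu.mul_left _), ← fsum_mul]
        congr 1
        funext y
        ring
      have fz : Fin0 (fun y => φ (pos d b y) * (w y - un y)) := (fw.sub fu).mul_left _
      rw [e1, abs_mul, abs_of_pos (by positivity : (0 : ℝ) < d ^ 2)]
      have e2 : |∑ᶠ y : Pt, φ (pos d b y) * (w y - un y)| ≤
          ∑ᶠ y : Pt, |φ (pos d b y) * (w y - un y)| := by
        rw [finsum_eq_sum_of_support_subset (s := Set.Finite.toFinset fz)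
          (fun y => φ (pos d b y) * (w y - un y))
          (fun y hy => (Set.Finite.mem_toFinset fz).2 hy),
          finsum_eq_sum_of_support_subset (s := Set.Finite.toFinset fz)
          (fun y => |φ (pos d b y) * (w y - un y)|)
          (fun y hy => (Set.Finite.mem_toFinset fz).2 (by simpa using hy))]
        exact Finset.abs_sum_le_sum_abs _ _
      refine (mul_le_mul_of_nonneg_left e2 (by positivity)).trans ?_
      apply hV d hδp hδ1.le b _ (Mφ * ε) (by positivity)
      · intro y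
        rw [abs_mul]
        exact mul_le_mul (hMφ _) (trunc_sub hεpos.le _) (abs_nonneg _) hMφ0
      · intro y hy
        by_cases hyO : y ∈ O n
        · exact hϱn y hyO
        · exfalso
          apply hy
          have h0 : un y = 0 := (hu n).off y hyO
          simp only [hw, h0, trunc_zero hεpos.le, sub_zero, mul_zero]
    -- the energy
    have hen := hC d hδp hδ1.le b w fw hwϱ
    have hen2 := energy_trunc hεpos.le fu
    have hpe := pair_green (hO n) (hu n)
    rw [← hb, ← hd, ← hun] at hpe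
    have b1 : κ * W ≤ ε' / 8 := by
      calc κ * W ≤ κ * (M0 * V) := by gcongr
        _ ≤ ε' / 8 := by
            rw [hκ, div_mul_eq_mul_div, div_le_div_iff₀ (by positivity) (by positivity)]
            nlinarith [mul_nonneg hM0' hV0]
    have b2 : Mφ * ε * V ≤ ε' / 8 := by
      rw [hε]
      have : Mφ * (ε' / (8 * (Mφ * V + 1))) * V = (ε' * (Mφ * V)) / (8 * (Mφ * V + 1)) := by ring
      rw [this, div_le_div_iff₀ (by positivity) (by positivity)]
      nlinarith [mul_nonneg hMφ0 hV0]
    have b3 : (1 + C * d) * energy w + C * d * W ^ 2 ≤ energy un + ε' / 4 := by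
      have c1 : energy w ≤ energy un := hen2
      have c2 : C * d * energy w ≤ C * d * E0 := by
        gcongr
        exact c1.trans hEn
      have c3 : C * d * W ^ 2 ≤ C * d * (M0 * V) ^ 2 := by gcongr
      nlinarith
    have d1 := (abs_le.1 hpair).1
    have d2 := (abs_le.1 hpair2).1
    unfold dval
    linarith

end Vale.Agent.P155.K
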